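import Mathlib
import Crest.Prelude.Def_ArtinGroup
import Crest.Prelude.Def_GeometricAction

/-!
# Row 175, S0264: the interface between the algebra (`Alg*.lean`) and the geometry (`Geo*.lean`)

The algebra proves `exists_fan` (file `AlgFan.lean`): an Artin group on 116 generators has a `Fan`.
The geometry proves that a group with a `Fan` has no geometric action on a proper CAT(0) space.
-/

set_option autoImplicit false

namespace Crest.Agent.R175C

variable {G : Type*} [Group G]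

/-- Separation: a chain in `H` with steps in a finite set `F` from `g ^ n * e ^ i` to `h ^ m * e ^ j`
passes through `⟨e⟩ F'`, with `F'` finite and only depending on `F`. -/
def Sep (H : Subgroup G) (g e h : G) : Prop :=
  ∀ F : Set G, F.Finite → ∃ F' : Set G, F'.Finite ∧ ∀ (N : ℕ) (c : ℕ → G),
    (∀ l ≤ N, c l ∈ H) → (∀ l < N, ∃ f ∈ F, c (l + 1) = c l * f) →
    (∃ (n : ℕ) (i : ℤ), c 0 = g ^ n * e ^ i) → (∃ (m : ℕ) (j : ℤ), c N = h ^ m * e ^ j) →
    ∃ l ≤ N, ∃ r : ℤ, ∃ f ∈ F', c l = e ^ r * f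

/-- Undistortion of `⟨g, h⟩ ≅ ℤ²` in `H`, witnessed by a function that is Lipschitz for right
multiplication. -/
def Und (H : Subgroup G) (g h : G) : Prop :=
  ∃ lam : G → ℝ, (∀ f ∈ H, ∃ C : ℝ, ∀ k ∈ H, lam (k * f) ≤ lam k + C) ∧
    ∀ i j : ℤ, |(i : ℝ)| + |(j : ℝ)| ≤ lam (g ^ i * h ^ j)

/-- The formal properties of `⟨g, h⟩ = (N (g h) ^ 2 - N (g h⁻¹) ^ 2) / 4`, `N` the stable length. -/
structure Pairing (ip : G → G → ℝ) : Prop where
  conj : ∀ x g, ip (x * g * x⁻¹) (x * g * x⁻¹) = ip g g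
  symm : ∀ g h, Commute g h → ip g h = ip h g
  add : ∀ g h h', Commute g h → Commute g h' → ip g (h * h') = ip g h + ip g h'
  nonneg : ∀ g, 0 ≤ ip g g

/-- Six elements `e k`, cyclically commuting, with separation at every `e (k + 1)` inside the
centraliser of a finite set, undistorted planes and all angles smaller than `π / 3`. -/
structure Fan (e : Fin 6 → G) : Prop where
  comm : ∀ k, Commute (e k) (e (k + 1))
  sep : ∀ k, ∃ E : Set G, E.Finite ∧ e k ∈ Subgroup.centralizer E ∧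
    e (k + 1) ∈ Subgroup.centralizer E ∧ e (k + 2) ∈ Subgroup.centralizer E ∧
    Sep (Subgroup.centralizer E) (e k) (e (k + 1)) (e (k + 2))
  und : ∀ k, ∃ E : Set G, E.Finite ∧ e k ∈ Subgroup.centralizer E ∧
    e (k + 1) ∈ Subgroup.centralizer E ∧ Und (Subgroup.centralizer E) (e k) (e (k + 1))
  angle : ∀ ip : G → G → ℝ, Pairing ip → (∀ k, 0 < ip (e k) (e k)) → ∀ k,
    0 < ip (e k) (e (k + 1)) ∧
      ip (e k) (e k) * ip (e (k + 1)) (e (k + 1)) < 4 * ip (e k) (e (k + 1)) ^ 2

end Crest.Agent.R175C
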