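import Crest.Agent.R175C.Alg0

/-!
# Row 175, S0264: Artin groups, `B3`, `KK = A(Ã₂)` and the definitions of the algebra part (do not edit)
-/

set_option autoImplicit false

namespace Crest.Agent.R175C

open Crest.GroupTheory

section Art
variable {S : Type*} {H : Type*} [Group H]

/-- alternating product -/
def alt : H → H → ℕ → H
  | _, _, 0 => 1
  | x, y, m + 1 => x * alt y x m

theorem alt_zero (x y : H) : alt x y 0 = 1 := rfl
theorem alt_one (x y : H) : alt x y 1 = x := by simp [alt]
theorem alt_two (x y : H) : alt x y 2 = x * y := by simp [alt]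
theorem alt_three (x y : H) : alt x y 3 = x * y * x := by simp [alt, mul_assoc]

theorem map_alt {H' : Type*} [Group H'] (φ : H →* H') (x y : H) (m : ℕ) :
    φ (alt x y m) = alt (φ x) (φ y) m := by
  induction m generalizing x y with
  | zero => simp [alt]
  | succ m ih => simp [alt, ih]

theorem altWord_eq (s t : S) (m : ℕ) :
    artinAltWord s t m = alt (FreeGroup.of s) (FreeGroup.of t) m := by
  induction m generalizing s t with
  | zero => rfl
  | succ m ih => simp [alt, artinAltWord, ih]

/-- the universal property of Artin groups -/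
def artLift (M : CoxeterMatrix S) (f : S → H)
    (h : ∀ s t, alt (f s) (f t) (M.M s t) = alt (f t) (f s) (M.M s t)) : ArtinGroup M →* H :=
  PresentedGroup.toGroup (f := f) (by
    rintro r ⟨⟨s, t⟩, rfl⟩
    simp [altWord_eq, map_alt, h s t])

@[simp] theorem artLift_gen (M : CoxeterMatrix S) (f : S → H)
    (h : ∀ s t, alt (f s) (f t) (M.M s t) = alt (f t) (f s) (M.M s t)) (s : S) :
    artLift M f h (artinGen M s) = f s :=
  PresentedGroup.toGroup.of _

theorem art_ext {M : CoxeterMatrix S} {φ ψ : ArtinGroup M →* H}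
    (h : ∀ s, φ (artinGen M s) = ψ (artinGen M s)) : φ = ψ :=
  PresentedGroup.ext h

theorem art_rel (M : CoxeterMatrix S) (s t : S) :
    alt (artinGen M s) (artinGen M t) (M.M s t) = alt (artinGen M t) (artinGen M s) (M.M s t) := by
  have := PresentedGroup.mk_eq_mk_of_mul_inv_mem (rels := artinRelators M) ⟨(s, t), rfl⟩
  simp only [altWord_eq, map_alt] at this
  exact this

theorem art_comm {M : CoxeterMatrix S} {s t : S} (h : M.M s t = 2) :
    Commute (artinGen M s) (artinGen M t) := by
  have := art_rel M s t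
  rwa [h, alt_two, alt_two] at this

theorem art_braid {M : CoxeterMatrix S} {s t : S} (h : M.M s t = 3) :
    artinGen M s * artinGen M t * artinGen M s = artinGen M t * artinGen M s * artinGen M t := by
  have := art_rel M s t
  rwa [h, alt_three, alt_three] at this

theorem art_mem {M : CoxeterMatrix S} (P : Subgroup (ArtinGroup M)) (h : ∀ s, artinGen M s ∈ P)
    (g : ArtinGroup M) : g ∈ P :=
  PresentedGroup.generated_by _ P h g

/-- exponent sum -/
def artLen (M : CoxeterMatrix S) : ArtinGroup M →* Multiplicative ℤ :=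
  artLift M (fun _ => Multiplicative.ofAdd 1) fun _ _ => rfl

@[simp] theorem artLen_gen (M : CoxeterMatrix S) (s : S) :
    artLen M (artinGen M s) = Multiplicative.ofAdd 1 := artLift_gen ..

end Art

/-- all labels `3` -/
def all3 (n : ℕ) : CoxeterMatrix (Fin n) where
  M := Matrix.of fun i j => if i = j then 1 else 3
  isSymm := by
    ext i j
    simp [eq_comm]
  diagonal := by simp
  off_diagonal := by
    intro i j h
    simp [h]

theorem all3_ne {n : ℕ} {i j : Fin n} (h : i ≠ j) : (all3 n).M i j = 3 := by simp [all3, h]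

/-- universal property for `all3` -/
def lift3 {n : ℕ} {H : Type*} [Group H] (f : Fin n → H)
    (h : ∀ i j, i ≠ j → f i * f j * f i = f j * f i * f j) : ArtinGroup (all3 n) →* H :=
  artLift _ f fun i j => by
    by_cases hij : i = j
    · rw [hij]
    · rw [all3_ne hij, alt_three, alt_three, h i j hij]

@[simp] theorem lift3_gen {n : ℕ} {H : Type*} [Group H] (f : Fin n → H)
    (h : ∀ i j, i ≠ j → f i * f j * f i = f j * f i * f j) (i : Fin n) :
    lift3 f h (artinGen _ i) = f i := artLift_gen ..

/-- the braid group on three strands -/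
abbrev B3 : Type := ArtinGroup (all3 2)
/-- first generator -/
def ba : B3 := artinGen _ 0
/-- second generator -/
def bb : B3 := artinGen _ 1
/-- the full twist -/
def bz : B3 := (ba * bb) ^ 3

theorem bab : ba * bb * ba = bb * ba * bb := art_braid (all3_ne (by decide))

/-- universal property of `B3` -/
def liftB {H : Type*} [Group H] (x y : H) (h : x * y * x = y * x * y) : B3 →* H :=
  lift3 ![x, y] fun i j hij => by
    fin_cases i <;> fin_cases j <;> simp_all

@[simp] theorem liftB_a {H : Type*} [Group H] (x y : H) (h : x * y * x = y * x * y) :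
    liftB x y h ba = x := lift3_gen ..
@[simp] theorem liftB_b {H : Type*} [Group H] (x y : H) (h : x * y * x = y * x * y) :
    liftB x y h bb = y := lift3_gen ..

theorem b3_ext {H : Type*} [Group H] {φ ψ : B3 →* H} (ha : φ ba = ψ ba) (hb : φ bb = ψ bb) :
    φ = ψ :=
  art_ext fun i => by fin_cases i; exacts [ha, hb]

theorem b3_mem (P : Subgroup B3) (ha : ba ∈ P) (hb : bb ∈ P) (g : B3) : g ∈ P :=
  art_mem P (fun i => by fin_cases i; exacts [ha, hb]) g

/-- in any group: the cube of `x y` commutes with `x` and `y` -/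
theorem braid_cube {H : Type*} [Group H] {x y : H} (h : x * y * x = y * x * y) :
    Commute x ((x * y) ^ 3) ∧ Commute y ((x * y) ^ 3) ∧ (x * y) ^ 3 = (y * x) ^ 3 := by
  have e1 : (x * y) ^ 3 = (x * y * x) * (y * x * y) := by simp [pow_succ, mul_assoc]
  have e2 : (y * x) ^ 3 = (y * x * y) * (x * y * x) := by simp [pow_succ, mul_assoc]
  have e3 : (x * y) ^ 3 = (y * x) ^ 3 := by rw [e1, e2, ← h]
  refine ⟨?_, ?_, e3⟩
  · show x * (x * y) ^ 3 = (x * y) ^ 3 * x
    conv_lhs => rw [e3]
    simp [pow_succ, mul_assoc]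
  · show y * (x * y) ^ 3 = (x * y) ^ 3 * y
    conv_rhs => rw [e3]
    simp [pow_succ, mul_assoc]

theorem bz_central (β : B3) : Commute β bz :=
  Subgroup.mem_centralizer_singleton_iff.1 <| b3_mem (Subgroup.centralizer {bz})
    (Subgroup.mem_centralizer_singleton_iff.2 (braid_cube bab).1.eq)
    (Subgroup.mem_centralizer_singleton_iff.2 (braid_cube bab).2.1.eq) β

/-- the free subgroup generated by the squares -/
def jj : FreeGroup Bool →* B3 := FreeGroup.lift fun x => if x then ba ^ 2 else bb ^ 2
/-- coset representatives of the pure braid group -/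
def rep : Fin 6 → B3 := ![1, ba, bb, ba * bb, bb * ba, ba * bb * ba]

/-- the Artin group of type `Ã₂` -/
abbrev KK : Type := ArtinGroup (all3 3)
/-- its generators -/
def kg (i : Fin 3) : KK := artinGen _ i
/-- the full twist of the edge `i, i + 1` -/
def kz (i : Fin 3) : KK := (kg i * kg (i + 1)) ^ 3

theorem kg_braid {i j : Fin 3} (h : i ≠ j) : kg i * kg j * kg i = kg j * kg i * kg j :=
  art_braid (all3_ne h)

/-- rotation of the generators -/
def rotH (r : Fin 3) : KK →* KK :=
  lift3 (fun i => kg (i + r)) fun _ _ h => kg_braid (by simpa using h)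

@[simp] theorem rotH_kg (r i : Fin 3) : rotH r (kg i) = kg (i + r) := lift3_gen ..

/-- rotation as an automorphism -/
def rot (r : Fin 3) : KK ≃* KK :=
  MonoidHom.toMulEquiv (rotH r) (rotH (-r))
    (art_ext fun i => by
      show rotH (-r) (rotH r (kg i)) = kg i
      simp)
    (art_ext fun i => by
      show rotH r (rotH (-r) (kg i)) = kg i
      simp)

@[simp] theorem rot_kg (r i : Fin 3) : rot r (kg i) = kg (i + r) := rotH_kg r i

@[simp] theorem rot_kz (r i : Fin 3) : rot r (kz i) = kz (i + r) := by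
  simp [kz, add_right_comm]

/-- the inclusion of `B3` on the first edge -/
def secB : B3 →* KK := liftB (kg 0) (kg 1) (kg_braid (by decide))

/-- exponent sum in a free group -/
def esum {α : Type*} : FreeGroup α →* Multiplicative ℤ :=
  FreeGroup.lift fun _ => Multiplicative.ofAdd 1

/-- the free group of rank three -/
abbrev F3 : Type := FreeGroup (Fin 3)
/-- its basis -/
def xx (i : Fin 3) : F3 := FreeGroup.of i
/-- the boundary loop -/
def del : F3 := xx 0 * xx 1 * xx 2

/-- Artin's automorphism `σ₁` -/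
def actA : MulAut F3 :=
  MonoidHom.toMulEquiv (FreeGroup.lift ![xx 0 * xx 1 * (xx 0)⁻¹, xx 0, xx 2])
    (FreeGroup.lift ![xx 1, (xx 1)⁻¹ * xx 0 * xx 1, xx 2])
    (by ext i : 1; fin_cases i <;> simp [xx, mul_assoc])
    (by ext i : 1; fin_cases i <;> simp [xx, mul_assoc])

/-- Artin's automorphism `σ₂` -/
def actB : MulAut F3 :=
  MonoidHom.toMulEquiv (FreeGroup.lift ![xx 0, xx 1 * xx 2 * (xx 1)⁻¹, xx 1])
    (FreeGroup.lift ![xx 0, xx 2, (xx 2)⁻¹ * xx 1 * xx 2])
    (by ext i : 1; fin_cases i <;> simp [xx, mul_assoc])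
    (by ext i : 1; fin_cases i <;> simp [xx, mul_assoc])

@[simp] theorem actA_0 : actA (xx 0) = xx 0 * xx 1 * (xx 0)⁻¹ := by simp [actA, xx]
@[simp] theorem actA_1 : actA (xx 1) = xx 0 := by simp [actA, xx]
@[simp] theorem actA_2 : actA (xx 2) = xx 2 := by simp [actA, xx]
@[simp] theorem actB_0 : actB (xx 0) = xx 0 := by simp [actB, xx]
@[simp] theorem actB_1 : actB (xx 1) = xx 1 * xx 2 * (xx 1)⁻¹ := by simp [actB, xx]
@[simp] theorem actB_2 : actB (xx 2) = xx 1 := by simp [actB, xx]

theorem f3_ext {H : Type*} [Group H] {φ ψ : F3 →* H} (h0 : φ (xx 0) = ψ (xx 0))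
    (h1 : φ (xx 1) = ψ (xx 1)) (h2 : φ (xx 2) = ψ (xx 2)) : φ = ψ := by
  ext i : 1
  fin_cases i
  exacts [h0, h1, h2]

theorem aut_ext {φ ψ : MulAut F3} (h0 : φ (xx 0) = ψ (xx 0)) (h1 : φ (xx 1) = ψ (xx 1))
    (h2 : φ (xx 2) = ψ (xx 2)) : φ = ψ :=
  MulEquiv.toMonoidHom_injective (f3_ext h0 h1 h2)

/-- Artin's action -/
def act : B3 →* MulAut F3 :=
  liftB actA actB (aut_ext (by simp [mul_assoc]) (by simp [mul_assoc]) (by simp [mul_assoc]))

@[simp] theorem act_ba : act ba = actA := liftB_a ..
@[simp] theorem act_bb : act bb = actB := liftB_b ..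

theorem act_bz (f : F3) : act bz f = del * f * del⁻¹ := by
  have : act bz = MulAut.conj del :=
    aut_ext (by simp [bz, del, pow_succ, mul_assoc]) (by simp [bz, del, pow_succ, mul_assoc])
      (by simp [bz, del, pow_succ, mul_assoc])
  rw [this, MulAut.conj_apply]

/-- the annular braid group -/
abbrev KH : Type := F3 ⋊[act] B3

/-- braid relations up to index `n` -/
def Braid {H : Type*} [Group H] (n : ℕ) (s : ℕ → H) : Prop :=
  (∀ i, i + 1 < n → s i * s (i + 1) * s i = s (i + 1) * s i * s (i + 1)) ∧
    ∀ i j, i + 2 ≤ j → j < n → Commute (s i) (s j)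

end Crest.Agent.R175C
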