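import Crest.Agent.R175C.AlgFree

/-!
# Row 175, S0264: normal form in `B3`

With `p = ba²`, `q = bb²`, `z = bz`, right multiplication on `rep`: `1·a = a`, `1·b = b`, `a·a = p·1`, `a·b = ab`,
`b·a = ba`, `b·b = q·1`, `ab·a = aba`, `ab·b = q⁻¹p⁻¹ z·a`, `ba·a = p⁻¹q⁻¹ z·b`, `ba·b = aba`, `aba·a = q·ab`,
`aba·b = p·ba`.  Existence: the set of such elements is stable under right multiplication by `a^{±1}`, `b^{±1}`
(or: it is a subgroup / use the action below).  Uniqueness: the table defines two permutations `R_a`, `R_b` of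
`X = (FreeGroup Bool × Multiplicative ℤ) × Fin 6` of the form `(n, t) ↦ (n * κ t, π t)` which satisfy the braid
relation, hence `θ : B3 →* (Equiv.Perm X)ᵐᵒᵖ` (`liftB`); each `θ β` commutes with left multiplication;
`θ (jj g) (n, 0) = (n * (g, 1), 0)`, `θ bz (n, 0) = (n * (1, ofAdd 1), 0)`, `θ (rep t) (n, 0) = (n, t)`.
`b3_cent_a`: the image in `Equiv.Perm (Fin 3)` (`a ↦ swap 0 1`, `b ↦ swap 1 2`, kills `jj g` and `bz`) forces
`t ∈ {0, 1}`; then `jj g` commutes with `jj (of true) = ba²`, uniqueness and `comm_of`.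
-/

set_option autoImplicit false

namespace Crest.Agent.R175C

open Crest.GroupTheory

/-- the pure braid group, abstractly -/
abbrev B3N : Type := FreeGroup Bool × Multiplicative ℤ

/-- its map to `B3` -/
def b3J : B3N →* B3 := (jj.noncommCoprod (zpowersHom B3 bz) fun g m => (bz_central _).zpow_right _)

theorem b3J_apply (g : FreeGroup Bool) (m : ℤ) :
    b3J (g, Multiplicative.ofAdd m) = jj g * bz ^ m := rfl

/-- a permutation from a cocycle -/
def b3Shear (π : Equiv.Perm (Fin 6)) (κ : Fin 6 → B3N) : Equiv.Perm (B3N × Fin 6) where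
  toFun x := (x.1 * κ x.2, π x.2)
  invFun x := (x.1 * (κ (π.symm x.2))⁻¹, π.symm x.2)
  left_inv x := by simp
  right_inv x := by simp

theorem b3Shear_apply (π : Equiv.Perm (Fin 6)) (κ : Fin 6 → B3N) (n : B3N) (t : Fin 6) :
    b3Shear π κ (n, t) = (n * κ t, π t) := rfl

/-- `p` -/
def b3P : B3N := (FreeGroup.of true, 1)
/-- `q` -/
def b3Q : B3N := (FreeGroup.of false, 1)
/-- `z` -/
def b3Z : B3N := (1, Multiplicative.ofAdd 1)

theorem b3Z_comm (n : B3N) : b3Z * n = n * b3Z := by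
  ext <;> simp [b3Z, mul_comm]

/-- permutation of the cosets by `a` -/
def b3pa : Equiv.Perm (Fin 6) := ⟨![1, 0, 4, 5, 2, 3], ![1, 0, 4, 5, 2, 3], by decide, by decide⟩
/-- permutation of the cosets by `b` -/
def b3pb : Equiv.Perm (Fin 6) := ⟨![2, 3, 0, 1, 5, 4], ![2, 3, 0, 1, 5, 4], by decide, by decide⟩
/-- cocycle of `a` -/
def b3ka : Fin 6 → B3N := ![1, b3P, 1, 1, b3P⁻¹ * b3Q⁻¹ * b3Z, b3Q]
/-- cocycle of `b` -/
def b3kb : Fin 6 → B3N := ![1, 1, b3Q, b3Q⁻¹ * b3P⁻¹ * b3Z, 1, b3P]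

theorem b3_shear_braid :
    b3Shear b3pa b3ka * b3Shear b3pb b3kb * b3Shear b3pa b3ka =
      b3Shear b3pb b3kb * b3Shear b3pa b3ka * b3Shear b3pb b3kb := by
  ext ⟨n, t⟩ : 1
  simp only [Equiv.Perm.mul_apply, b3Shear_apply]
  fin_cases t <;> simp [b3pa, b3pb, b3ka, b3kb, mul_assoc, b3Z_comm]

/-- the right action -/
def b3Th : B3 →* (Equiv.Perm (B3N × Fin 6))ᵐᵒᵖ :=
  liftB (MulOpposite.op (b3Shear b3pa b3ka)) (MulOpposite.op (b3Shear b3pb b3kb)) (by
    simp only [← MulOpposite.op_mul, ← mul_assoc, b3_shear_braid])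

/-- the right action, applied -/
def b3R (x : B3N × Fin 6) (β : B3) : B3N × Fin 6 := (b3Th β).unop x

theorem b3R_mul (x : B3N × Fin 6) (β β' : B3) : b3R x (β * β') = b3R (b3R x β) β' := by
  simp [b3R]

theorem b3R_one (x : B3N × Fin 6) : b3R x 1 = x := by simp [b3R]

theorem b3R_a (n : B3N) (t : Fin 6) : b3R (n, t) ba = (n * b3ka t, b3pa t) := by
  simp [b3R, b3Th, b3Shear_apply]

theorem b3R_b (n : B3N) (t : Fin 6) : b3R (n, t) bb = (n * b3kb t, b3pb t) := by
  simp [b3R, b3Th, b3Shear_apply]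

theorem b3R_rep (n : B3N) (t : Fin 6) : b3R (n, 0) (rep t) = (n, t) := by
  fin_cases t <;>
    simp [rep, b3R_mul, b3R_one, b3R_a, b3R_b, b3pa, b3pb, b3ka, b3kb]

theorem b3R_J (n m : B3N) : b3R (n, 0) (b3J m) = (n * m, 0) := by
  let P : Subgroup B3N :=
    { carrier := {m | ∀ n, b3R (n, 0) (b3J m) = (n * m, 0)}
      one_mem' := fun n => by simp [b3R_one]
      mul_mem' := fun {a b} ha hb n => by rw [map_mul, b3R_mul, ha, hb, mul_assoc]
      inv_mem' := fun {a} ha n => by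
        have := ha (n * a⁻¹)
        rw [inv_mul_cancel_right] at this
        rw [← this, ← b3R_mul, ← map_mul, mul_inv_cancel, map_one, b3R_one] }
  have hP : b3P ∈ P := fun n => by
    have : b3J b3P = ba * ba := by simp [b3J, b3P, jj, pow_two]
    rw [this, b3R_mul, b3R_a, b3R_a]
    simp [b3pa, b3ka]
  have hQ : b3Q ∈ P := fun n => by
    have : b3J b3Q = bb * bb := by simp [b3J, b3Q, jj, pow_two]
    rw [this, b3R_mul, b3R_b, b3R_b]
    simp [b3pb, b3kb]
  have hZ : b3Z ∈ P := fun n => by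
    have : b3J b3Z = ba * bb * ba * bb * ba * bb := by
      simp [b3J, b3Z, bz, pow_succ, mul_assoc]
    rw [this]
    simp [b3R_mul, b3R_a, b3R_b, b3pa, b3pb, b3ka, b3kb, mul_assoc, b3Z_comm]
  have h1 : ∀ g : FreeGroup Bool, ((g, 1) : B3N) ∈ P := fun g => by
    induction g using FreeGroup.induction_on with
    | C1 => exact P.one_mem
    | of x => cases x; exacts [hQ, hP]
    | inv_of x hx => simpa using P.inv_mem hx
    | mul x y hx hy => simpa using P.mul_mem hx hy
  have h2 : m = (m.1, 1) * b3Z ^ (Multiplicative.toAdd m.2) := by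
    ext <;> simp [b3Z, ← ofAdd_zsmul]
  have : m ∈ P := h2 ▸ P.mul_mem (h1 _) (P.zpow_mem hZ _)
  exact this n

theorem b3_tab1 : ba * bb * bb = (bb * bb)⁻¹ * (ba * ba)⁻¹ * bz * ba := by
  have h := bab
  have e : bz * ba = ba * ba * (bb * bb * (ba * bb * bb)) := by
    calc bz * ba = ba * (bb * ba * bb) * (ba * bb * ba) := by simp [bz, pow_succ, mul_assoc]
      _ = ba * (ba * bb * ba) * (bb * ba * bb) := by rw [← h]
      _ = ba * ba * bb * (ba * bb * ba) * bb := by simp [mul_assoc]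
      _ = ba * ba * bb * (bb * ba * bb) * bb := by rw [h]
      _ = _ := by simp [mul_assoc]
  rw [mul_assoc _ bz, e]
  group

theorem b3_tab2 : bb * ba * ba = (ba * ba)⁻¹ * (bb * bb)⁻¹ * bz * bb := by
  have h := bab
  have e : bz * bb = bb * bb * (ba * ba * (bb * ba * ba)) := by
    calc bz * bb = bb * (ba * bb * ba) * (bb * ba * bb) := by
          rw [bz, (braid_cube bab).2.2]; simp [pow_succ, mul_assoc]
      _ = bb * (bb * ba * bb) * (ba * bb * ba) := by rw [h]
      _ = bb * bb * ba * (bb * ba * bb) * ba := by simp [mul_assoc]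
      _ = bb * bb * ba * (ba * bb * ba) * ba := by rw [h]
      _ = _ := by simp [mul_assoc]
  rw [mul_assoc _ bz, e]
  group

theorem b3_tab3 : ba * bb * ba * ba = bb * bb * (ba * bb) := by
  calc ba * bb * ba * ba = bb * ba * bb * ba := by rw [bab]
    _ = bb * (ba * bb * ba) := by simp [mul_assoc]
    _ = _ := by rw [bab]; simp [mul_assoc]

theorem b3_tab4 : ba * bb * ba * bb = ba * ba * (bb * ba) := by
  calc ba * bb * ba * bb = ba * (bb * ba * bb) := by simp [mul_assoc]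
    _ = _ := by rw [← bab]; simp [mul_assoc]

/-- evaluation -/
def b3Ev (x : B3N × Fin 6) : B3 := b3J x.1 * rep x.2

theorem b3Ev_R (x : B3N × Fin 6) (β : B3) : b3Ev (b3R x β) = b3Ev x * β := by
  let P : Subgroup B3 :=
    { carrier := {β | ∀ x, b3Ev (b3R x β) = b3Ev x * β}
      one_mem' := fun x => by simp [b3R_one]
      mul_mem' := fun {a b} ha hb x => by rw [b3R_mul, hb, ha, mul_assoc]
      inv_mem' := fun {a} ha x => by
        have := ha (b3R x a⁻¹)
        rw [← b3R_mul, inv_mul_cancel, b3R_one] at this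
        rw [this, mul_inv_cancel_right] }
  have eP : b3J b3P = ba * ba := by simp [b3J, b3P, jj, pow_two]
  have eQ : b3J b3Q = bb * bb := by simp [b3J, b3Q, jj, pow_two]
  have eZ : b3J b3Z = bz := by simp [b3J, b3Z]
  refine b3_mem P (fun ⟨n, t⟩ => ?_) (fun ⟨n, t⟩ => ?_) β x
  · rw [b3R_a]
    simp only [b3Ev, map_mul, mul_assoc, mul_right_inj]
    fin_cases t
    · simp [b3ka, b3pa, rep]
    · simp [b3ka, b3pa, rep, eP]
    · simp [b3ka, b3pa, rep]
    · simp [b3ka, b3pa, rep]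
    · simpa [b3ka, b3pa, rep, eP, eQ, eZ] using b3_tab2.symm
    · simpa [b3ka, b3pa, rep, eQ] using b3_tab3.symm
  · rw [b3R_b]
    simp only [b3Ev, map_mul, mul_assoc, mul_right_inj]
    fin_cases t
    · simp [b3kb, b3pb, rep]
    · simp [b3kb, b3pb, rep]
    · simp [b3kb, b3pb, rep, eQ]
    · simpa [b3kb, b3pb, rep, eP, eQ, eZ] using b3_tab1.symm
    · simpa [b3kb, b3pb, rep] using bab
    · simpa [b3kb, b3pb, rep, eP] using b3_tab4.symm

theorem b3_exists (β : B3) : ∃ (g : FreeGroup Bool) (m : ℤ) (t : Fin 6),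
    β = jj g * bz ^ m * rep t := by
  have := b3Ev_R (1, 0) β
  refine ⟨(b3R (1, 0) β).1.1, Multiplicative.toAdd (b3R (1, 0) β).1.2, (b3R (1, 0) β).2, ?_⟩
  rw [← b3J_apply]
  simpa [b3Ev, rep] using this.symm

theorem b3_unique {g g' : FreeGroup Bool} {m m' : ℤ} {t t' : Fin 6}
    (h : jj g * bz ^ m * rep t = jj g' * bz ^ m' * rep t') : g = g' ∧ m = m' ∧ t = t' := by
  have := congrArg (b3R (1, 0)) h
  simp only [← b3J_apply, b3R_mul, b3R_J, b3R_rep, one_mul, Prod.mk.injEq] at this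
  exact ⟨this.1.1, Multiplicative.ofAdd.injective this.1.2, this.2⟩

/-- the permutation of the strands -/
def b3Perm : B3 →* Equiv.Perm (Fin 3) := liftB (Equiv.swap 0 1) (Equiv.swap 1 2) (by decide)

theorem b3Perm_jj (g : FreeGroup Bool) : b3Perm (jj g) = 1 := by
  have : b3Perm.comp jj = 1 := by
    ext x : 1
    cases x <;> simp [jj, b3Perm, pow_two]
  exact DFunLike.congr_fun this g

theorem b3Perm_z : b3Perm bz = 1 := by
  simp only [bz, b3Perm, map_pow, map_mul, liftB_a, liftB_b]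
  decide

theorem b3_pure_cent {g : FreeGroup Bool} {m : ℤ} (h : Commute (jj g * bz ^ m) ba) :
    ∃ i : ℤ, jj g = ba ^ i := by
  have h1 : Commute (jj g) ba := by
    have := h.mul_left ((bz_central ba).symm.zpow_left (-m))
    simpa using this
  have h2 : jj (FreeGroup.of true) = ba ^ 2 := by simp [jj]
  have h3 : jj (g * FreeGroup.of true) * bz ^ (0 : ℤ) * rep 0 =
      jj (FreeGroup.of true * g) * bz ^ (0 : ℤ) * rep 0 := by
    rw [map_mul, map_mul, h2, (h1.pow_right 2).eq]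
  obtain ⟨n, rfl⟩ := comm_of (b3_unique h3).1
  exact ⟨2 * n, by rw [map_zpow, h2, zpow_mul]; norm_cast⟩

theorem b3_cent_a {β : B3} (h : Commute β ba) : ∃ i j : ℤ, β = ba ^ i * bz ^ j := by
  obtain ⟨g, m, t, rfl⟩ := b3_exists β
  have h1 := h.map b3Perm
  simp only [map_mul, map_zpow, b3Perm_jj, b3Perm_z, one_zpow, one_mul] at h1
  have h2 : t = 0 ∨ t = 1 := by
    fin_cases t
    · simp
    · simp
    all_goals
      exfalso
      simp only [rep, b3Perm, Commute, SemiconjBy] at h1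
      simp at h1
      revert h1
      decide
  rcases h2 with rfl | rfl
  · simp only [rep, Matrix.cons_val_zero, mul_one] at h ⊢
    obtain ⟨i, hi⟩ := b3_pure_cent h
    exact ⟨i, m, by rw [hi]⟩
  · have e : rep 1 = ba := rfl
    rw [e] at h ⊢
    have h3 : Commute (jj g * bz ^ m) ba := by
      simpa using h.mul_left (Commute.refl ba).inv_left
    obtain ⟨i, hi⟩ := b3_pure_cent h3
    refine ⟨i + 1, m, ?_⟩
    rw [hi, zpow_add_one, mul_assoc, mul_assoc, ((bz_central ba).zpow_right m).eq]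

theorem b3_a_pow (i j : ℤ) : ∃ (g : FreeGroup Bool) (t : Fin 6),
    ba ^ i * bz ^ j = jj g * bz ^ j * rep t := by
  have h2 : jj (FreeGroup.of true) = ba ^ (2 : ℤ) := by simp [jj]
  rcases Int.even_or_odd' i with ⟨k, rfl | rfl⟩
  · exact ⟨FreeGroup.of true ^ k, 0, by simp [rep, h2, zpow_mul]⟩
  · refine ⟨FreeGroup.of true ^ k, 1, ?_⟩
    have e : rep 1 = ba := rfl
    rw [e, map_zpow, h2, ← zpow_mul, zpow_add_one, mul_assoc, mul_assoc,
      ((bz_central ba).zpow_right j).eq]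

theorem b3_az_inj {i j i' j' : ℤ} (h : ba ^ i * bz ^ j = ba ^ i' * bz ^ j') : j = j' := by
  obtain ⟨g, t, h1⟩ := b3_a_pow i j
  obtain ⟨g', t', h2⟩ := b3_a_pow i' j'
  exact (b3_unique (h1.symm.trans (h.trans h2))).2.1

end Crest.Agent.R175C
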