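import Crest.Agent.R175C.AlgArt

/-!
# Row 175, S0264: the angle between a generator and the full twist

Indices shifted: `s 0, …, s 9`.  Jucys–Murphy elements `y 0 = 1`, `y (j+1) = s j * y j * s j`, `Z 0 = 1`,
`Z (j+1) = Z j * y (j+1)`; `Z 2 = s0² · s1 s0² s1 = (s0 s1)³`.  (i) `y j` commutes with `s i` for `i ≥ j + 1`
(word in `s 0 … s (j-1)`) and for `i + 2 ≤ j` (induction; for `j = i + 2` use the braid relation and that
`s (i+1)` commutes with `y i`); hence `y (j+1)` commutes with `y j`, so `s j` commutes with `y j * y (j+1)`,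
hence `Z k` commutes with `s i` for `i < k`.  (ii) `ip g ·` is additive on the centraliser of `g`, so it takes
equal values on two elements with a braid relation.  `n = ip s0 s0`, `A = ip s0 (Z 2)`, `c = ip s0 s2 = ip s0 (s i)`
for `i ≥ 2`; `ip s0 (y j) = A - 2n + 2c (j-2)` for `j ≥ 2`; `A_k = ip s0 (Z k) = 2n + (k-1)(A-2n) + c (k-1)(k-2)`;
`ip (Z k) (s i) = A_k`, `ip (Z k) (y k) = 2k A_k`; `ip (y k) (Z (k-1)) = k (k-1) ip (y k) s0`; so
`ip (y k) (y k) = ip (y k) (Z k) - ip (y k) (Z (k-1)) = k (4n + (k-1)(A-2n))`.  For `k = 10`: `A ≥ 14 n / 9`.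
-/

set_option autoImplicit false

namespace Crest.Agent.R175C

open Crest.GroupTheory

section Aux
variable {G : Type*} [Group G]

/-- Jucys–Murphy elements -/
def AlgBraid_y (s : ℕ → G) : ℕ → G
  | 0 => 1
  | j + 1 => s j * AlgBraid_y s j * s j

/-- partial full twists -/
def AlgBraid_Z (s : ℕ → G) : ℕ → G
  | 0 => 1
  | j + 1 => AlgBraid_Z s j * AlgBraid_y s (j + 1)

theorem AlgBraid_y_succ (s : ℕ → G) (j : ℕ) :
    AlgBraid_y s (j + 1) = s j * AlgBraid_y s j * s j := rfl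

theorem AlgBraid_Z_succ (s : ℕ → G) (j : ℕ) :
    AlgBraid_Z s (j + 1) = AlgBraid_Z s j * AlgBraid_y s (j + 1) := rfl

theorem AlgBraid_wy {s : ℕ → G} {g : G} {j : ℕ} (h : ∀ i < j, Commute g (s i)) :
    Commute g (AlgBraid_y s j) := by
  induction j with
  | zero => exact Commute.one_right g
  | succ j ih =>
    rw [AlgBraid_y_succ]
    have h1 := h j (Nat.lt_succ_self j)
    exact (h1.mul_right (ih fun i hi => h i (by omega))).mul_right h1

theorem AlgBraid_wZ {s : ℕ → G} {g : G} {j : ℕ} (h : ∀ i < j, Commute g (s i)) :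
    Commute g (AlgBraid_Z s j) := by
  induction j with
  | zero => exact Commute.one_right g
  | succ j ih =>
    rw [AlgBraid_Z_succ]
    exact (ih fun i hi => h i (by omega)).mul_right (AlgBraid_wy h)

theorem AlgBraid_lo {n : ℕ} {s : ℕ → G} (hs : Braid n s) {i j : ℕ} (hij : i + 2 ≤ j)
    (hj : j ≤ n) : Commute (s i) (AlgBraid_y s j) := by
  induction j, hij using Nat.le_induction with
  | base =>
    have hb := hs.1 i (by omega)
    have hw : Commute (s (i + 1)) (AlgBraid_y s i) :=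
      AlgBraid_wy fun l hl => (hs.2 l (i + 1) (by omega) (by omega)).symm
    rw [AlgBraid_y_succ, AlgBraid_y_succ]
    set a := s i
    set b := s (i + 1)
    set w := AlgBraid_y s i
    show a * (b * (a * w * a) * b) = b * (a * w * a) * b * a
    calc a * (b * (a * w * a) * b) = (a * b * a) * w * a * b := by simp [mul_assoc]
      _ = b * a * (b * w) * a * b := by rw [hb]; simp [mul_assoc]
      _ = b * a * w * (b * a * b) := by rw [hw.eq]; simp [mul_assoc]
      _ = b * (a * w * a) * b * a := by rw [← hb]; simp [mul_assoc]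
  | succ j hij ih =>
    rw [AlgBraid_y_succ]
    have h1 := hs.2 i j hij (by omega)
    exact (h1.mul_right (ih (by omega))).mul_right h1

theorem AlgBraid_yy {n : ℕ} {s : ℕ → G} (hs : Braid n s) {j : ℕ} (hj : j + 1 ≤ n) :
    Commute (s j) (AlgBraid_y s j * AlgBraid_y s (j + 1)) := by
  have h : Commute (AlgBraid_y s (j + 1)) (AlgBraid_y s j) :=
    AlgBraid_wy fun i hi => (AlgBraid_lo hs (by omega) hj).symm
  show s j * (AlgBraid_y s j * AlgBraid_y s (j + 1)) = AlgBraid_y s j * AlgBraid_y s (j + 1) * s j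
  conv_rhs => rw [← h.eq]
  rw [AlgBraid_y_succ]
  simp [mul_assoc]

theorem AlgBraid_sZ {n : ℕ} {s : ℕ → G} (hs : Braid n s) {k : ℕ} (hk : k ≤ n) :
    ∀ i < k, Commute (s i) (AlgBraid_Z s k) := by
  induction k with
  | zero => intro i hi; omega
  | succ k ih =>
    intro i hi
    rcases Nat.lt_succ_iff_lt_or_eq.1 hi with h | rfl
    · rw [AlgBraid_Z_succ]
      exact (ih (by omega) i h).mul_right (AlgBraid_lo hs (by omega) hk)
    · rcases i with _ | m
      · simp only [AlgBraid_Z, AlgBraid_y, one_mul, mul_one]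
        exact (Commute.refl _).mul_right (Commute.refl _)
      · rw [AlgBraid_Z_succ, AlgBraid_Z_succ, mul_assoc]
        refine Commute.mul_right ?_ (AlgBraid_yy hs hk)
        exact AlgBraid_wZ fun l hl => (hs.2 l (m + 1) (by omega) (by omega)).symm

theorem AlgBraid_ip_one {ip : G → G → ℝ} (hip : Pairing ip) (g : G) : ip g 1 = 0 := by
  have := hip.add g 1 1 (Commute.one_right g) (Commute.one_right g)
  rw [mul_one] at this
  linarith

theorem AlgBraid_ip_braid {ip : G → G → ℝ} (hip : Pairing ip) {g a b : G} (ha : Commute g a)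
    (hb : Commute g b) (h : a * b * a = b * a * b) : ip g b = ip g a := by
  have h1 : ip g (a * b * a) = ip g a + ip g b + ip g a := by
    rw [hip.add _ _ _ (ha.mul_right hb) ha, hip.add _ _ _ ha hb]
  have h2 : ip g (b * a * b) = ip g b + ip g a + ip g b := by
    rw [hip.add _ _ _ (hb.mul_right ha) hb, hip.add _ _ _ hb ha]
  rw [h, h2] at h1
  linarith

theorem AlgBraid_ip_s {ip : G → G → ℝ} (hip : Pairing ip) {n : ℕ} {s : ℕ → G} (hs : Braid n s)
    {g : G} {m : ℕ} (hm : m ≤ n) (h : ∀ i < m, Commute g (s i)) :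
    ∀ i < m, ip g (s i) = ip g (s 0) := by
  intro i
  induction i with
  | zero => intro _; rfl
  | succ i ih =>
    intro hi
    rw [AlgBraid_ip_braid hip (h i (by omega)) (h _ hi) (hs.1 i (by omega)), ih (by omega)]

theorem AlgBraid_ip_y {ip : G → G → ℝ} (hip : Pairing ip) {n : ℕ} {s : ℕ → G} (hs : Braid n s)
    {g : G} {m : ℕ} (hm : m ≤ n) (h : ∀ i < m, Commute g (s i)) :
    ∀ j ≤ m, ip g (AlgBraid_y s j) = 2 * j * ip g (s 0) := by
  intro j
  induction j with
  | zero => intro _; simp [AlgBraid_y, AlgBraid_ip_one hip]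
  | succ j ih =>
    intro hj
    have h1 := h j (by omega)
    have h2 : Commute g (AlgBraid_y s j) := AlgBraid_wy fun i hi => h i (by omega)
    rw [AlgBraid_y_succ, hip.add _ _ _ (h1.mul_right h2) h1, hip.add _ _ _ h1 h2, ih (by omega),
      AlgBraid_ip_s hip hs hm h j (by omega)]
    push_cast
    ring

theorem AlgBraid_ip_Z {ip : G → G → ℝ} (hip : Pairing ip) {n : ℕ} {s : ℕ → G} (hs : Braid n s)
    {g : G} {m : ℕ} (hm : m ≤ n) (h : ∀ i < m, Commute g (s i)) :
    ∀ j ≤ m, ip g (AlgBraid_Z s j) = j * (j + 1) * ip g (s 0) := by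
  intro j
  induction j with
  | zero => intro _; simp [AlgBraid_Z, AlgBraid_ip_one hip]
  | succ j ih =>
    intro hj
    have h1 : Commute g (AlgBraid_Z s j) := AlgBraid_wZ fun i hi => h i (by omega)
    have h2 : Commute g (AlgBraid_y s (j + 1)) := AlgBraid_wy fun i hi => h i (by omega)
    rw [AlgBraid_Z_succ, hip.add _ _ _ h1 h2, ih (by omega), AlgBraid_ip_y hip hs hm h _ hj]
    push_cast
    ring

theorem AlgBraid_s0_s {ip : G → G → ℝ} (hip : Pairing ip) {n : ℕ} {s : ℕ → G} (hs : Braid n s)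
    {i : ℕ} (h2 : 2 ≤ i) (hi : i < n) : ip (s 0) (s i) = ip (s 0) (s 2) := by
  induction i, h2 using Nat.le_induction with
  | base => rfl
  | succ i h2 ih =>
    rw [AlgBraid_ip_braid hip (hs.2 0 i (by omega) (by omega)) (hs.2 0 (i + 1) (by omega) hi)
      (hs.1 i hi), ih (by omega)]

theorem AlgBraid_s0_y {ip : G → G → ℝ} (hip : Pairing ip) {n : ℕ} {s : ℕ → G} (hs : Braid n s)
    {j : ℕ} (h2 : 2 ≤ j) (hj : j ≤ n) :
    ip (s 0) (AlgBraid_y s j) = ip (s 0) (AlgBraid_y s 2) + 2 * ((j : ℝ) - 2) * ip (s 0) (s 2) := by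
  induction j, h2 using Nat.le_induction with
  | base => simp
  | succ j h2 ih =>
    have h1 := hs.2 0 j (by omega) (by omega)
    have h3 : Commute (s 0) (AlgBraid_y s j) := AlgBraid_lo hs (by omega) (by omega)
    rw [AlgBraid_y_succ, hip.add _ _ _ (h1.mul_right h3) h1, hip.add _ _ _ h1 h3, ih (by omega),
      AlgBraid_s0_s hip hs h2 (by omega)]
    push_cast
    ring

theorem AlgBraid_s0_Z {ip : G → G → ℝ} (hip : Pairing ip) {n : ℕ} {s : ℕ → G} (hs : Braid n s)
    {j : ℕ} (h1 : 1 ≤ j) (hj : j ≤ n) :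
    ip (s 0) (AlgBraid_Z s j) = 2 * ip (s 0) (s 0) + ((j : ℝ) - 1) * ip (s 0) (AlgBraid_y s 2)
      + ((j : ℝ) - 1) * ((j : ℝ) - 2) * ip (s 0) (s 2) := by
  induction j, h1 using Nat.le_induction with
  | base =>
    simp only [AlgBraid_Z, AlgBraid_y, one_mul, mul_one]
    rw [hip.add _ _ _ (Commute.refl _) (Commute.refl _)]
    simp
    ring
  | succ j h1 ih =>
    have h2 : Commute (s 0) (AlgBraid_Z s j) := AlgBraid_sZ hs (by omega) 0 (by omega)
    have h3 : Commute (s 0) (AlgBraid_y s (j + 1)) := AlgBraid_lo hs (by omega) hj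
    rw [AlgBraid_Z_succ, hip.add _ _ _ h2 h3, ih (by omega),
      AlgBraid_s0_y hip hs (j := j + 1) (by omega) hj]
    push_cast
    ring

theorem AlgBraid_Z2 {s : ℕ → G} (h : s 0 * s 1 * s 0 = s 1 * s 0 * s 1) :
    (s 0 * s 1) ^ 3 = AlgBraid_Z s 2 := by
  simp only [AlgBraid_Z, AlgBraid_y, one_mul, mul_one]
  calc (s 0 * s 1) ^ 3 = s 0 * (s 1 * s 0 * s 1) * s 0 * s 1 := by simp [pow_succ, mul_assoc]
    _ = _ := by rw [← h]; simp [mul_assoc]

end Aux

theorem braid_angle {G : Type*} [Group G] {ip : G → G → ℝ} (hip : Pairing ip) {s : ℕ → G}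
    (hs : Braid 10 s) :
    ip (s 1) (s 1) = ip (s 0) (s 0) ∧ ip (s 1) ((s 0 * s 1) ^ 3) = ip (s 0) ((s 0 * s 1) ^ 3) ∧
      ip ((s 0 * s 1) ^ 3) ((s 0 * s 1) ^ 3) = 6 * ip (s 0) ((s 0 * s 1) ^ 3) ∧
      14 * ip (s 0) (s 0) ≤ 9 * ip (s 0) ((s 0 * s 1) ^ 3) := by
  have hb : s 0 * s 1 * s 0 = s 1 * s 0 * s 1 := hs.1 0 (by norm_num)
  rw [AlgBraid_Z2 hb]
  have hZ2 : ∀ i < 2, Commute (AlgBraid_Z s 2) (s i) := fun i hi =>
    (AlgBraid_sZ hs (by norm_num) i hi).symm
  refine ⟨?_, ?_, ?_, ?_⟩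
  · have e : s 1 = (s 0 * s 1) * s 0 * (s 0 * s 1)⁻¹ := by
      rw [eq_mul_inv_iff_mul_eq, hb, mul_assoc]
    have := hip.conj (s 0 * s 1) (s 0)
    rwa [← e] at this
  · rw [← hip.symm _ _ (hZ2 1 (by norm_num)), ← hip.symm _ _ (hZ2 0 (by norm_num))]
    exact AlgBraid_ip_s hip hs (by norm_num) hZ2 1 (by norm_num)
  · rw [AlgBraid_ip_Z hip hs (by norm_num) hZ2 2 le_rfl, hip.symm _ _ (hZ2 0 (by norm_num))]
    norm_num
  · have hZ : ∀ i < 10, Commute (AlgBraid_Z s 10) (s i) := fun i hi =>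
      (AlgBraid_sZ hs le_rfl i hi).symm
    have hy : ∀ i < 9, Commute (AlgBraid_y s 10) (s i) := fun i hi =>
      (AlgBraid_lo hs (by omega) le_rfl).symm
    have h1 := AlgBraid_ip_y hip hs le_rfl hZ 10 le_rfl
    have h2 := AlgBraid_ip_Z hip hs (by norm_num) hy 9 le_rfl
    have h3 : ip (AlgBraid_y s 10) (AlgBraid_Z s 10) =
        ip (AlgBraid_y s 10) (AlgBraid_Z s 9) + ip (AlgBraid_y s 10) (AlgBraid_y s 10) :=
      hip.add _ _ _ (AlgBraid_wZ hy) (Commute.refl _)
    have h4 := hip.symm _ _ (AlgBraid_wy hZ)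
    have h5 := hip.symm _ _ (hZ 0 (by norm_num))
    have h6 := hip.symm _ _ (hy 0 (by norm_num))
    have h7 := AlgBraid_s0_y hip hs (j := 10) (by norm_num) le_rfl
    have h8 := AlgBraid_s0_Z hip hs (j := 10) (by norm_num) le_rfl
    have h9 := AlgBraid_s0_Z hip hs (j := 2) (by norm_num) (by norm_num)
    have h0 := hip.nonneg (AlgBraid_y s 10)
    push_cast at h1 h2 h7 h8 h9
    linarith

end Crest.Agent.R175C
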