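import Crest.Agent.R175C.AlgFree

/-!
# Row 175, S0264: a parabolic subgroup as a centraliser

`K = stdParabolic M Y`.  `G` acts on `FreeGroup ((G ⧸ K) × Bool)` by `FreeGroup.freeGroupCongr` of left
multiplication.  `Φ : G →* FreeGroup ((G ⧸ K) × Bool) ⋊ G`, `σ p ↦ inl (of (1, true))`, `σ q ↦ inl (of (1, false))`,
`σ s ↦ inr (σ s)` otherwise (`artLift`); `Ψ` back (`SemidirectProduct.lift`): `of (g K, true) ↦ g σp g⁻¹`,
`of (g K, false) ↦ g σq g⁻¹` (`K` commutes with `σ p`, `σ q`), `inr g ↦ g`; `Ψ ∘ Φ = id` (`art_ext`).  If `g` commutes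
with `σ p`, `σ q` and `Φ g = (f, g')`, then `f * of (g' K, b) = of (K, b) * f`; the exponent of the letter `(K, b)`
gives `g' ∈ K`, then `comm_two` gives `f = 1`, so `g = Ψ (inr g') = g'`.
-/

set_option autoImplicit false

namespace Crest.Agent.R175C

open Crest.GroupTheory

section Aux
variable {G : Type} [Group G] (K : Subgroup G)

/-- the action of `G` on the free group over two copies of `G ⧸ K` -/
def AlgCent_act : G →* MulAut (FreeGroup ((G ⧸ K) × Bool)) where
  toFun g := FreeGroup.freeGroupCongr ((MulAction.toPerm g).prodCongr (Equiv.refl Bool))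
  map_one' := by
    refine MulEquiv.toMonoidHom_injective (FreeGroup.ext_hom _ _ fun x => ?_)
    obtain ⟨x, b⟩ := x
    simp [FreeGroup.freeGroupCongr]
  map_mul' g h := by
    refine MulEquiv.toMonoidHom_injective (FreeGroup.ext_hom _ _ fun x => ?_)
    obtain ⟨x, b⟩ := x
    simp [FreeGroup.freeGroupCongr, mul_smul]

theorem AlgCent_act_of (g h : G) (b : Bool) :
    AlgCent_act K g (FreeGroup.of ((h : G ⧸ K), b)) = FreeGroup.of (((g * h : G) : G ⧸ K), b) := by
  simp [AlgCent_act, FreeGroup.freeGroupCongr]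

/-- the conjugates of the two cone generators -/
noncomputable def AlgCent_fn (a : Bool → G) : FreeGroup ((G ⧸ K) × Bool) →* G :=
  FreeGroup.lift fun x => x.1.out * a x.2 * x.1.out⁻¹

variable {K}

theorem AlgCent_fn_of {a : Bool → G} (hK : ∀ k ∈ K, ∀ b, Commute k (a b)) (g : G) (b : Bool) :
    AlgCent_fn K a (FreeGroup.of ((g : G ⧸ K), b)) = g * a b * g⁻¹ := by
  obtain ⟨k, hk⟩ := QuotientGroup.mk_out_eq_mul K g
  rw [AlgCent_fn, FreeGroup.lift_apply_of]
  dsimp only
  rw [hk, mul_assoc g, (hK k k.2 b).eq]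
  group

/-- the map back to `G` -/
noncomputable def AlgCent_psi {a : Bool → G} (hK : ∀ k ∈ K, ∀ b, Commute k (a b)) :
    FreeGroup ((G ⧸ K) × Bool) ⋊[AlgCent_act K] G →* G :=
  SemidirectProduct.lift (AlgCent_fn K a) (MonoidHom.id G) fun g => by
    refine FreeGroup.ext_hom _ _ fun x => ?_
    obtain ⟨x, b⟩ := x
    obtain ⟨h, rfl⟩ := QuotientGroup.mk_surjective x
    simp only [MonoidHom.comp_apply, MulEquiv.coe_toMonoidHom, AlgCent_act_of, AlgCent_fn_of hK,
      MonoidHom.id_apply, MulAut.conj_apply]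
    group

theorem AlgCent_comm {k : G} (hk : k ∈ K) (b : Bool) :
    (SemidirectProduct.inl (FreeGroup.of (((1 : G) : G ⧸ K), b)) * SemidirectProduct.inr k :
      FreeGroup ((G ⧸ K) × Bool) ⋊[AlgCent_act K] G) =
    SemidirectProduct.inr k * SemidirectProduct.inl (FreeGroup.of (((1 : G) : G ⧸ K), b)) := by
  have e : ((k * 1 : G) : G ⧸ K) = ((1 : G) : G ⧸ K) := by
    rw [QuotientGroup.eq]
    simpa using hk
  refine SemidirectProduct.ext ?_ (by simp)
  rw [SemidirectProduct.mul_left, SemidirectProduct.mul_left, SemidirectProduct.left_inl,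
    SemidirectProduct.left_inr, SemidirectProduct.right_inr, map_one, mul_one, one_mul,
    AlgCent_act_of, e]

theorem AlgCent_key {a : Bool → G} (hK : ∀ k ∈ K, ∀ b, Commute k (a b))
    (Φ : G →* FreeGroup ((G ⧸ K) × Bool) ⋊[AlgCent_act K] G)
    (hΦ : ∀ b, Φ (a b) = SemidirectProduct.inl (FreeGroup.of (((1 : G) : G ⧸ K), b)))
    (hΨ : (AlgCent_psi hK).comp Φ = MonoidHom.id G) {g : G} (hg : ∀ b, Commute g (a b)) :
    g ∈ K := by
  classical
  have h1 : ∀ b, (Φ g).left * FreeGroup.of (((Φ g).right : G ⧸ K), b) =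
      FreeGroup.of (((1 : G) : G ⧸ K), b) * (Φ g).left := fun b => by
    have := congrArg SemidirectProduct.left ((hg b).map Φ).eq
    rwa [hΦ, SemidirectProduct.mul_left, SemidirectProduct.mul_left, SemidirectProduct.left_inl,
      SemidirectProduct.right_inl, AlgCent_act_of, mul_one, map_one, MulAut.one_apply] at this
  have h2 : ((Φ g).right : G ⧸ K) = ((1 : G) : G ⧸ K) := by
    have := congrArg (FreeGroup.lift fun x : (G ⧸ K) × Bool =>
      if x.1 = ((1 : G) : G ⧸ K) then Multiplicative.ofAdd (1 : ℤ) else 1) (h1 true)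
    rw [map_mul, map_mul, FreeGroup.lift_apply_of, FreeGroup.lift_apply_of, mul_comm,
      mul_left_inj, if_pos rfl] at this
    by_contra hne
    rw [if_neg hne] at this
    exact absurd (congrArg Multiplicative.toAdd this) (by simp)
  have h3 : (Φ g).left = 1 :=
    comm_two (i := (((1 : G) : G ⧸ K), true)) (j := (((1 : G) : G ⧸ K), false)) (by simp)
      (by have := h1 true; rwa [h2] at this) (by have := h1 false; rwa [h2] at this)
  have h4 : AlgCent_psi hK (Φ g) = g := DFunLike.congr_fun hΨ g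
  have h5 : AlgCent_psi hK (Φ g) = AlgCent_fn K a (Φ g).left * (Φ g).right := rfl
  rw [h3, map_one, one_mul, h4] at h5
  rw [eq_comm, QuotientGroup.eq, inv_one, one_mul] at h2
  rw [h5]
  exact h2

end Aux

theorem cent_eq {S : Type} (M : CoxeterMatrix S) (Y : Set S) {p q : S} (hpq : p ≠ q) (hp : p ∉ Y)
    (hq : q ∉ Y) (hp2 : ∀ s ∈ Y, M.M p s = 2) (hq2 : ∀ s ∈ Y, M.M q s = 2)
    (hp0 : ∀ s ∉ Y, s ≠ p → M.M p s = 0) (hq0 : ∀ s ∉ Y, s ≠ q → M.M q s = 0) :
    Subgroup.centralizer {artinGen M p, artinGen M q} = stdParabolic M Y := by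
  classical
  set K := stdParabolic M Y with hKd
  let a : Bool → ArtinGroup M := fun b => cond b (artinGen M p) (artinGen M q)
  have hmem : ∀ s ∈ Y, artinGen M s ∈ K := fun s hs => Subgroup.subset_closure ⟨s, hs, rfl⟩
  have hle : K ≤ Subgroup.centralizer {artinGen M p, artinGen M q} := by
    refine (Subgroup.closure_le _).2 ?_
    rintro _ ⟨s, hs, rfl⟩ x (rfl | rfl)
    exacts [(art_comm (hp2 s hs)).eq, (art_comm (hq2 s hs)).eq]
  have hK : ∀ k ∈ K, ∀ b, Commute k (a b) := fun k hk b => by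
    cases b
    · exact (hle hk _ (Or.inr rfl)).symm
    · exact (hle hk _ (Or.inl rfl)).symm
  refine le_antisymm (fun g hg => ?_) hle
  let f : S → FreeGroup ((ArtinGroup M ⧸ K) × Bool) ⋊[AlgCent_act K] ArtinGroup M := fun s =>
    if s = p then SemidirectProduct.inl (FreeGroup.of (((1 : ArtinGroup M) : _ ⧸ K), true))
    else if s = q then SemidirectProduct.inl (FreeGroup.of (((1 : ArtinGroup M) : _ ⧸ K), false))
    else SemidirectProduct.inr (artinGen M s)
  have fp : f p = SemidirectProduct.inl (FreeGroup.of (((1 : ArtinGroup M) : _ ⧸ K), true)) :=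
    if_pos rfl
  have fq : f q = SemidirectProduct.inl (FreeGroup.of (((1 : ArtinGroup M) : _ ⧸ K), false)) :=
    (if_neg hpq.symm).trans (if_pos rfl)
  have fs : ∀ s, s ≠ p → s ≠ q → f s = SemidirectProduct.inr (artinGen M s) := fun s h1 h2 =>
    (if_neg h1).trans (if_neg h2)
  have r1 : ∀ s t, s = p ∨ s = q → alt (f s) (f t) (M.M s t) = alt (f t) (f s) (M.M s t) := by
    intro s t hs
    by_cases hst : t = s
    · rw [hst]
    by_cases ht : t ∈ Y
    · have e := fs t (fun h => hp (h ▸ ht)) fun h => hq (h ▸ ht)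
      rcases hs with rfl | rfl
      · rw [hp2 t ht, alt_two, alt_two, e, fp]
        exact AlgCent_comm (hmem t ht) _
      · rw [hq2 t ht, alt_two, alt_two, e, fq]
        exact AlgCent_comm (hmem t ht) _
    · rcases hs with rfl | rfl
      · rw [hp0 t ht hst, alt_zero, alt_zero]
      · rw [hq0 t ht hst, alt_zero, alt_zero]
  have hrel : ∀ s t, alt (f s) (f t) (M.M s t) = alt (f t) (f s) (M.M s t) := by
    intro s t
    by_cases hs : s = p ∨ s = q
    · exact r1 s t hs
    by_cases ht : t = p ∨ t = q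
    · have e : M.M s t = M.M t s := M.symmetric s t
      rw [e]
      exact (r1 t s ht).symm
    · rw [not_or] at hs ht
      rw [fs s hs.1 hs.2, fs t ht.1 ht.2, ← map_alt, ← map_alt, art_rel]
  refine AlgCent_key hK (artLift M f hrel) (fun b => ?_) (art_ext fun s => ?_) fun b => ?_
  · cases b
    · exact (artLift_gen M f hrel q).trans fq
    · exact (artLift_gen M f hrel p).trans fp
  · rw [MonoidHom.comp_apply, artLift_gen, MonoidHom.id_apply, AlgCent_psi]
    by_cases h1 : s = p
    · rw [h1, fp, SemidirectProduct.lift_inl, AlgCent_fn_of hK, one_mul, inv_one, mul_one]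
      rfl
    by_cases h2 : s = q
    · rw [h2, fq, SemidirectProduct.lift_inl, AlgCent_fn_of hK, one_mul, inv_one, mul_one]
      rfl
    · rw [fs s h1 h2, SemidirectProduct.lift_inr, MonoidHom.id_apply]
  · cases b
    · exact (hg _ (Or.inr rfl)).symm
    · exact (hg _ (Or.inl rfl)).symm

end Crest.Agent.R175C
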