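import Crest.Agent.R175C.AlgB3

/-!
# Row 175, S0264: Artin's action of `B3` on `F3` is faithful

Write `β = jj g * bz ^ m * rep t`.  (1) For each `i` let `ε i : F3 →* Multiplicative ℤ` count the letter `i`;
`act (jj g)` and `act bz` preserve every `ε i` (the set of such `β` is a subgroup), so `act (rep t)` does, which
forces `t = 0` (five cases).  (2) `π : F3 →* FreeGroup Bool`, `x₀ ↦ of true`, `x₁ ↦ 1`, `x₂ ↦ of false`:
`π ∘ act (jj g) = π`, and for every `g` there is `w` with `act (jj g) x₁ = w x₁ w⁻¹` and `π w = τ g`, where `τ` is the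
anti-automorphism fixing the letters (e.g. state it as `π w = (ι g)⁻¹` with `ι = FreeGroup.lift fun x => (of x)⁻¹`,
an injective homomorphism; `ba²` conjugates `x₁` by `x₀ x₁`, `bb²` by `x₁ x₂`; the set of such `g` is a subgroup).
(3) If `act (jj g * bz ^ m) = 1` apply `π` to the image of `x₀`: `(of true * of false) ^ m` commutes with `of true`,
so `m = 0` (`comm_of` and the exponent of `of false`); then `w` commutes with `x₁`, so `π w = 1` and `g = 1`.
-/

set_option autoImplicit false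

namespace Crest.Agent.R175C

open Crest.GroupTheory

/-- the braids whose action preserves `φ` -/
def AlgFaith_stab {H : Type} [Group H] (φ : F3 →* H) : Subgroup B3 where
  carrier := {β | ∀ f, φ (act β f) = φ f}
  one_mem' := fun f => by simp
  mul_mem' := fun {β γ} hβ hγ f => by
    rw [map_mul, MulAut.mul_apply, hβ, hγ]
  inv_mem' := fun {β} hβ f => by
    rw [← hβ, ← MulAut.mul_apply, ← map_mul, mul_inv_cancel, map_one, MulAut.one_apply]

theorem AlgFaith_mem {H : Type} [Group H] {φ : F3 →* H} {β : B3}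
    (h0 : φ (act β (xx 0)) = φ (xx 0)) (h1 : φ (act β (xx 1)) = φ (xx 1))
    (h2 : φ (act β (xx 2)) = φ (xx 2)) : β ∈ AlgFaith_stab φ := fun f =>
  DFunLike.congr_fun (f3_ext (φ := φ.comp (act β).toMonoidHom) (ψ := φ) h0 h1 h2) f

theorem AlgFaith_jj {H : Type} [Group H] {φ : F3 →* H} (ha : ba ^ 2 ∈ AlgFaith_stab φ)
    (hb : bb ^ 2 ∈ AlgFaith_stab φ) (g : FreeGroup Bool) : jj g ∈ AlgFaith_stab φ := by
  induction g using FreeGroup.induction_on with
  | C1 => rw [map_one]; exact one_mem _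
  | of x => cases x <;> simpa [jj]
  | inv_of x hx => rw [map_inv]; exact inv_mem hx
  | mul x y hx hy => rw [map_mul]; exact mul_mem hx hy

/-- a weight with different values on the letters -/
def AlgFaith_eps : F3 →* Multiplicative ℤ :=
  FreeGroup.lift fun i => Multiplicative.ofAdd ((i : ℕ) : ℤ)

theorem AlgFaith_eps_xx (i : Fin 3) : AlgFaith_eps (xx i) = Multiplicative.ofAdd ((i : ℕ) : ℤ) := by
  simp [AlgFaith_eps, xx]

/-- forgetting the middle letter -/
def AlgFaith_pi : F3 →* FreeGroup Bool := FreeGroup.lift ![FreeGroup.of true, 1, FreeGroup.of false]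

theorem AlgFaith_pi0 : AlgFaith_pi (xx 0) = FreeGroup.of true := by simp [AlgFaith_pi, xx]
theorem AlgFaith_pi1 : AlgFaith_pi (xx 1) = 1 := by simp [AlgFaith_pi, xx]
theorem AlgFaith_pi2 : AlgFaith_pi (xx 2) = FreeGroup.of false := by simp [AlgFaith_pi, xx]

/-- inverting the letters -/
def AlgFaith_io : FreeGroup Bool →* FreeGroup Bool := FreeGroup.lift fun x => (FreeGroup.of x)⁻¹

theorem AlgFaith_io_io (g : FreeGroup Bool) : AlgFaith_io (AlgFaith_io g) = g :=
  DFunLike.congr_fun (show AlgFaith_io.comp AlgFaith_io = MonoidHom.id _ by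
    ext x; simp [AlgFaith_io]) g

theorem AlgFaith_pi_jj (g : FreeGroup Bool) : jj g ∈ AlgFaith_stab AlgFaith_pi :=
  AlgFaith_jj
    (AlgFaith_mem (by simp [pow_two, AlgFaith_pi0, AlgFaith_pi1])
      (by simp [pow_two, AlgFaith_pi0, AlgFaith_pi1]) (by simp [pow_two]))
    (AlgFaith_mem (by simp [pow_two]) (by simp [pow_two, AlgFaith_pi1, AlgFaith_pi2])
      (by simp [pow_two, AlgFaith_pi1, AlgFaith_pi2])) g

theorem AlgFaith_conj (g : FreeGroup Bool) :
    ∃ w : F3, act (jj g) (xx 1) = w * xx 1 * w⁻¹ ∧ AlgFaith_pi w = (AlgFaith_io g)⁻¹ := by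
  induction g using FreeGroup.induction_on with
  | C1 => exact ⟨1, by simp, by simp⟩
  | of x =>
    cases x
    · exact ⟨xx 1 * xx 2, by simp [jj, pow_two, mul_assoc],
        by simp [AlgFaith_io, AlgFaith_pi1, AlgFaith_pi2]⟩
    · exact ⟨xx 0, by simp [jj, pow_two], by simp [AlgFaith_io, AlgFaith_pi0]⟩
  | inv_of x hx =>
    obtain ⟨w, h1, h2⟩ := hx
    refine ⟨(act (jj (FreeGroup.of x)⁻¹) w)⁻¹, ?_, ?_⟩
    · have h3 := congrArg (act (jj (FreeGroup.of x)⁻¹)) h1
      rw [← MulAut.mul_apply, ← map_mul, ← map_mul, inv_mul_cancel, map_one, map_one,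
        MulAut.one_apply, map_mul, map_mul, map_inv (act _)] at h3
      conv_rhs => rw [h3]
      group
    · rw [map_inv, AlgFaith_pi_jj, h2, map_inv]
  | mul x y hx hy =>
    obtain ⟨w, h1, h2⟩ := hx
    obtain ⟨u, h3, h4⟩ := hy
    refine ⟨act (jj x) u * w, ?_, ?_⟩
    · rw [map_mul, map_mul, MulAut.mul_apply, h3, map_mul, map_mul, map_inv, h1]
      group
    · rw [map_mul, AlgFaith_pi_jj, h2, h4, map_mul, mul_inv_rev]

theorem AlgFaith_bz (m : ℤ) (f : F3) : act (bz ^ m) f = del ^ m * f * (del ^ m)⁻¹ := by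
  have : act bz = MulAut.conj del := MulEquiv.ext fun f => by rw [act_bz, MulAut.conj_apply]
  rw [map_zpow, this, ← map_zpow, MulAut.conj_apply]

theorem act_injective : Function.Injective act := by
  refine (injective_iff_map_eq_one act).2 fun β hβ => ?_
  obtain ⟨g, m, t, rfl⟩ := b3_exists β
  have e1 : jj g ∈ AlgFaith_stab AlgFaith_eps := AlgFaith_jj
    (AlgFaith_mem (by simp [pow_two, AlgFaith_eps_xx]) (by simp [pow_two, AlgFaith_eps_xx])
      (by simp [pow_two]))
    (AlgFaith_mem (by simp [pow_two]) (by simp [pow_two, AlgFaith_eps_xx])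
      (by simp [pow_two, AlgFaith_eps_xx])) g
  have e2 : bz ∈ AlgFaith_stab AlgFaith_eps := fun f => by
    rw [act_bz, map_mul, map_mul, map_inv, mul_inv_cancel_comm]
  have e3 : jj g * bz ^ m * rep t ∈ AlgFaith_stab AlgFaith_eps := fun f => by
    rw [hβ, MulAut.one_apply]
  have e4 : rep t ∈ AlgFaith_stab AlgFaith_eps :=
    (Subgroup.mul_mem_cancel_left _ (mul_mem e1 (zpow_mem e2 m))).1 e3
  have ht : t = 0 := by
    have a1 := e4 (xx 1)
    have a2 := e4 (xx 2)
    fin_cases t <;> simp [rep, AlgFaith_eps_xx, eq_comm (a := (1 : Multiplicative ℤ))] at a1 a2 ⊢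
  subst ht
  have hr : rep 0 = 1 := rfl
  rw [hr, mul_one] at hβ ⊢
  have h1 : act (jj g * bz ^ m) (xx 0) = xx 0 := by rw [hβ, MulAut.one_apply]
  have h2 := congrArg AlgFaith_pi h1
  rw [map_mul, MulAut.mul_apply, AlgFaith_pi_jj, AlgFaith_bz, map_mul, map_mul, map_inv,
    AlgFaith_pi0, mul_inv_eq_iff_eq_mul] at h2
  obtain ⟨n, hn⟩ := comm_of (i := true) (f := AlgFaith_pi (del ^ m)) h2
  have hm : m = 0 := by
    have h3 := congrArg (FreeGroup.lift fun x : Bool =>
      Multiplicative.ofAdd (if x then (0 : ℤ) else 1)) hn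
    simpa [del, AlgFaith_pi0, AlgFaith_pi1, AlgFaith_pi2, ← ofAdd_zsmul] using h3
  subst hm
  rw [zpow_zero, mul_one] at hβ ⊢
  obtain ⟨w, h3, h4⟩ := AlgFaith_conj g
  rw [hβ, MulAut.one_apply, eq_mul_inv_iff_mul_eq] at h3
  obtain ⟨k, hk⟩ := comm_of (i := (1 : Fin 3)) (f := w) h3.symm
  have h5 : AlgFaith_pi w = 1 := by
    rw [hk, map_zpow]
    change AlgFaith_pi (xx 1) ^ k = 1
    rw [AlgFaith_pi1, one_zpow]
  rw [h5, eq_comm, inv_eq_one] at h4
  rw [← AlgFaith_io_io g, h4, map_one, map_one]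

end Crest.Agent.R175C
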