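import Crest.Agent.R175C.AlgK
import Crest.Agent.R175C.AlgB3

/-!
# Row 175, S0264: separation and undistortion in `KK`

`sepK_z`: `k` commutes with `kz 0` ⇒ `(iota k).left` commutes with `del` ⇒ it is a power of `del` of exponent sum `0` ⇒ it
is `1`, so `k = secB β`, `β = (iota k).right`.  `γ k` = the `g` of the normal form of `(iota k).right` (choice +
`b3_unique`); `γ (k f) = γ k * g'` with `g'` from the normal form of `rep t * f`; `ba ^ n * bz ^ i` has
`g = of true ^ (n / 2)`; `sep_of_free`, `pos_pow` with `L = []`.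
`kphi`: for `k` commuting with `kg 0`, `(iota k).left` is fixed by `act ba` and `(iota k).right = ba ^ i * bz ^ j`
(`b3_cent_a`, `j =: J k` unique by `b3_az_inj`, additive); `φ k = (iota k).left * del ^ J k` is multiplicative; `φ k = 1`
forces `J k = 0` (exponent sum, `esum del = ofAdd 3`), so `iota k = inr (ba ^ i)`.
`undK`: `lam k = |artLen k| + 7 |J k|`.
-/

set_option autoImplicit false

namespace Crest.Agent.R175C

open Crest.GroupTheory

open SemidirectProduct

theorem ksep_kz0 : kz 0 = secB bz := by simp [kz, bz, secB]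

theorem ksep_esum_del (n : ℤ) (h : esum (del ^ n) = 1) : n = 0 := by
  have : Multiplicative.toAdd (esum (del ^ n)) = 3 * n := by
    simp [del, esum_xx]
    ring
  rw [h] at this
  simp at this
  exact this

theorem ksep_cent_z {k : KK} (h : Commute k (kz 0)) : k = secB (iota k).right := by
  have h1 := congrArg SemidirectProduct.left (h.map iota).eq
  rw [iota_kz0] at h1
  simp only [mul_left, left_inr, right_inr, map_one, mul_one, one_mul, act_bz] at h1
  have h2 : Commute (iota k).left del := by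
    show _ * _ = _ * _
    conv_lhs => rw [h1]
    group
  obtain ⟨n, hn⟩ := comm_del h2
  have h3 := ksep_esum_del n (hn ▸ esum_iota k)
  rw [h3, zpow_zero] at hn
  apply iota_injective
  rw [iota_secB]
  ext
  · simp [hn]
  · simp

theorem sepK_z : Sep (Subgroup.centralizer {kz 0}) (kg 0) (kz 0) (kg 1) := by
  choose g m t hg using b3_exists
  have hu : ∀ {β g'} {m' : ℤ} {t'}, β = jj g' * bz ^ m' * rep t' → g β = g' := fun h =>
    (b3_unique ((hg _).symm.trans h)).1
  refine sep_of_free (fun k => g (iota k).right) (fun f _ => ?_) (fun w => ?_)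
    (x := (true, true)) (y := (false, true)) (by decide) (fun n i => ?_) (fun n i => ?_)
  · refine ⟨Finset.univ.sup fun τ : Fin 6 => (g (rep τ * (iota f).right)).norm, fun k _ =>
      ⟨g (rep (t (iota k).right) * (iota f).right), Finset.le_sup
        (f := fun τ : Fin 6 => (g (rep τ * (iota f).right)).norm) (Finset.mem_univ _), ?_⟩⟩
    set β := (iota k).right
    set δ := rep (t β) * (iota f).right with hδ
    refine hu (m' := m β + m δ) (t' := t δ) ?_
    rw [map_mul, mul_right]
    calc β * (iota f).right = jj (g β) * bz ^ m β * δ := by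
          rw [hδ, ← mul_assoc, ← hg β]
      _ = jj (g β) * (bz ^ m β * jj (g δ)) * bz ^ m δ * rep (t δ) := by
          conv_lhs => rw [hg δ]
          simp only [mul_assoc]
      _ = _ := by
          rw [← ((bz_central (jj (g δ))).zpow_right (m β)).eq, map_mul, zpow_add]
          simp only [mul_assoc]
  · refine ⟨Set.range fun τ : Fin 6 => secB (jj w * rep τ), Set.finite_range _, fun k hk hw => ?_⟩
    have h1 := ksep_cent_z (Subgroup.mem_centralizer_singleton_iff.1 hk)
    refine ⟨m (iota k).right, _, ⟨t (iota k).right, rfl⟩, ?_⟩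
    conv_lhs => rw [h1, hg (iota k).right, hw]
    rw [ksep_kz0, ← map_zpow, ← map_mul, ((bz_central (jj w)).zpow_right _).eq, mul_assoc]
  · have h2 : jj (FreeGroup.of true) = ba ^ 2 := by simp [jj]
    have e : g (iota (kg 0 ^ n * kz 0 ^ i)).right = FreeGroup.of true ^ (n / 2) := by
      refine hu (m' := i) (t' := if n % 2 = 0 then 0 else 1) ?_
      rw [map_mul, map_pow, map_zpow, iota_0, iota_kz0, ← map_pow, ← map_zpow, ← map_mul,
        right_inr, map_pow, h2, ← pow_mul, mul_assoc, ← ((bz_central _).zpow_right i).eq,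
        ← mul_assoc]
      congr 1
      conv_lhs => rw [← Nat.div_add_mod n 2, pow_add]
      rcases Nat.mod_two_eq_zero_or_one n with h | h <;> simp [h, rep]
    rw [e]
    simpa using pos_pow true [] (n / 2)
  · have h2 : jj (FreeGroup.of false) = bb ^ 2 := by simp [jj]
    have e : g (iota (kg 1 ^ n * kz 0 ^ i)).right = FreeGroup.of false ^ (n / 2) := by
      refine hu (m' := i) (t' := if n % 2 = 0 then 0 else 2) ?_
      rw [map_mul, map_pow, map_zpow, iota_1, iota_kz0, ← map_pow, ← map_zpow, ← map_mul,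
        right_inr, map_pow, h2, ← pow_mul, mul_assoc, ← ((bz_central _).zpow_right i).eq,
        ← mul_assoc]
      congr 1
      conv_lhs => rw [← Nat.div_add_mod n 2, pow_add]
      rcases Nat.mod_two_eq_zero_or_one n with h | h <;> simp [h, rep]
    rw [e]
    simpa using pos_pow false [] (n / 2)

theorem kphi : ∃ (φ : KK → F3) (J : KK → ℤ),
    (∀ k k', Commute k (kg 0) → Commute k' (kg 0) →
      φ (k * k') = φ k * φ k' ∧ J (k * k') = J k + J k') ∧
    (∀ k, Commute k (kg 0) → φ k = 1 → ∃ i : ℤ, k = kg 0 ^ i) ∧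
    φ (kg 0) = 1 ∧ φ (kz 0) = xx 0 * xx 1 * xx 2 ∧ φ (kz 2) = xx 2 * xx 0 * xx 1 ∧
    J (kg 0) = 0 ∧ J (kz 0) = 1 ∧ J (kz 2) = 1 := by
  have hex : ∀ β : B3, ∃ j : ℤ, Commute β ba → ∃ i : ℤ, β = ba ^ i * bz ^ j := fun β => by
    by_cases h : Commute β ba
    · obtain ⟨i, j, h⟩ := b3_cent_a h
      exact ⟨j, fun _ => ⟨i, h⟩⟩
    · exact ⟨0, fun h' => absurd h' h⟩
  choose J hJ using hex
  have cz := bz_central ba
  have hJ' : ∀ i j : ℤ, J (ba ^ i * bz ^ j) = j := fun i j => by
    obtain ⟨i', h⟩ := hJ (ba ^ i * bz ^ j)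
      (((Commute.refl ba).zpow_left i).mul_left (cz.symm.zpow_left j))
    exact (b3_az_inj h).symm
  have hc : ∀ k, Commute k (kg 0) →
      actA (iota k).left = (iota k).left ∧ Commute (iota k).right ba := fun k h => by
    have h0 := (h.map iota).eq
    rw [iota_0] at h0
    have h1 := congrArg SemidirectProduct.left h0
    have h2 := congrArg SemidirectProduct.right h0
    simp only [mul_left, left_inr, right_inr, map_one, mul_one, one_mul, act_ba] at h1
    exact ⟨h1.symm, h2⟩
  have hz : ∀ (j : ℤ) (f : F3), act (bz ^ j) f = del ^ j * f * (del ^ j)⁻¹ := fun j f => by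
    have : act bz = MulAut.conj del := MulEquiv.ext act_bz
    rw [map_zpow, this, ← map_zpow, MulAut.conj_apply]
  have ha : ∀ (i : ℤ) (f : F3), actA f = f → act (ba ^ i) f = f := fun i f hf => by
    rw [map_zpow, act_ba]
    exact MulAction.mem_stabilizer_iff.1
      ((MulAction.stabilizer (MulAut F3) f).zpow_mem (MulAction.mem_stabilizer_iff.2 hf) i)
  refine ⟨fun k => (iota k).left * del ^ J (iota k).right, fun k => J (iota k).right,
    fun k k' h h' => ?_, fun k h h1 => ?_, ?_, ?_, ?_, ?_, ?_, ?_⟩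
  · obtain ⟨i, hi⟩ := hJ _ (hc k h).2
    obtain ⟨i', hi'⟩ := hJ _ (hc k' h').2
    have e : J (iota (k * k')).right = J (iota k).right + J (iota k').right := by
      rw [map_mul, mul_right]
      conv_lhs => rw [hi, hi']
      rw [← hJ' (i + i') (J (iota k).right + J (iota k').right), zpow_add, zpow_add]
      congr 1
      rw [mul_assoc, mul_assoc, ← mul_assoc (bz ^ _), ← (cz.zpow_zpow i' _).eq, mul_assoc]
    refine ⟨?_, e⟩
    simp only [e]
    have e2 : act (iota k).right (iota k').left =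
        del ^ J (iota k).right * (iota k').left * (del ^ J (iota k).right)⁻¹ := by
      conv_lhs => rw [hi, (cz.zpow_zpow i _).eq, map_mul, MulAut.mul_apply, ha i _ (hc k' h').1, hz]
    rw [map_mul, mul_left, e2, zpow_add]
    group
  · obtain ⟨i, hi⟩ := hJ _ (hc k h).2
    have h2 : (iota k).left = del ^ (-J (iota k).right) := by
      rw [zpow_neg]
      exact eq_inv_of_mul_eq_one_left h1
    have h3 := neg_eq_zero.1 (ksep_esum_del _ (h2 ▸ esum_iota k))
    rw [h3] at hi h2
    refine ⟨i, iota_injective ?_⟩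
    rw [map_zpow, iota_0, ← map_zpow]
    ext
    · rw [left_inr, h2]
      simp
    · rw [right_inr, hi]
      simp
  · have := hJ' 1 0
    simp only [zpow_one, zpow_zero, mul_one] at this
    simp [iota_0, this]
  · have := hJ' 0 1
    simp only [zpow_one, zpow_zero, one_mul] at this
    simp [iota_kz0, this, del]
  · have := hJ' 0 1
    simp only [zpow_one, zpow_zero, one_mul] at this
    simp [iota_kz2, this]
  · simpa [iota_0] using hJ' 1 0
  · simpa [iota_kz0] using hJ' 0 1
  · simpa [iota_kz2] using hJ' 0 1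

theorem ksep_c0 : Commute (kg 0) (kz 0) := (braid_cube (kg_braid (by decide))).1

theorem ksep_c2 : Commute (kg 0) (kz 2) := (braid_cube (kg_braid (by decide))).2.1

theorem sepK_a : Sep (Subgroup.centralizer {kg 0}) (kz 2) (kg 0) (kz 0) := by
  obtain ⟨φ, J, hm, hk, h0, h1, h2, -⟩ := kphi
  let ψ : Subgroup.centralizer {kg 0} →* F3 := MonoidHom.mk' (fun k => φ k) fun a b =>
    (hm a b (Subgroup.mem_centralizer_singleton_iff.1 a.2)
      (Subgroup.mem_centralizer_singleton_iff.1 b.2)).1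
  have m0 : kg 0 ∈ Subgroup.centralizer {kg 0} := Subgroup.mem_centralizer_singleton_iff.2 rfl
  have hp : ∀ z (hz : z ∈ Subgroup.centralizer {kg 0}) (n : ℕ) (i : ℤ),
      φ (z ^ n * kg 0 ^ i) = φ z ^ n := fun z hz n i => by
    have := map_mul ψ (⟨z, hz⟩ ^ n) (⟨kg 0, m0⟩ ^ i)
    rw [map_pow, map_zpow] at this
    have e : ψ ⟨kg 0, m0⟩ = 1 := h0
    rw [e, one_zpow, mul_one] at this
    exact this
  refine sep_of_free φ (fun f hf => ⟨(φ f).norm, fun k hk => ⟨φ f, le_rfl,
    map_mul ψ ⟨k, hk⟩ ⟨f, hf⟩⟩⟩) (fun w => ?_) (x := (2, true)) (y := (0, true)) (by decide)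
    (fun n i => ?_) (fun n i => ?_)
  · by_cases hw : ∃ k₀ ∈ Subgroup.centralizer {kg 0}, φ k₀ = w
    · obtain ⟨k₀, hk₀, hw⟩ := hw
      refine ⟨{k₀}, Set.finite_singleton _, fun k hk' hw' => ?_⟩
      have e : φ (k * k₀⁻¹) = 1 := by
        have := map_mul ψ ⟨k, hk'⟩ ⟨k₀, hk₀⟩⁻¹
        rw [map_inv] at this
        have e1 : ψ ⟨k, hk'⟩ = w := hw'
        have e2 : ψ ⟨k₀, hk₀⟩ = w := hw
        rw [e1, e2, mul_inv_cancel] at this
        exact this
      obtain ⟨i, hi⟩ := hk _ (Subgroup.mem_centralizer_singleton_iff.1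
        (mul_mem hk' (inv_mem hk₀))) e
      exact ⟨i, k₀, rfl, by rw [← hi]; group⟩
    · exact ⟨∅, Set.finite_empty, fun k hk' hw' => absurd ⟨k, hk', hw'⟩ hw⟩
  · rw [hp _ (Subgroup.mem_centralizer_singleton_iff.2 ksep_c2.symm.eq), h2]
    simpa [xx, mul_assoc] using pos_pow (2 : Fin 3) [0, 1] n
  · rw [hp _ (Subgroup.mem_centralizer_singleton_iff.2 ksep_c0.symm.eq), h1]
    simpa [xx, mul_assoc] using pos_pow (0 : Fin 3) [1, 2] n

theorem ksep_und : ∃ lam : KK → ℝ, (∀ f ∈ Subgroup.centralizer {kg 0}, ∃ C : ℝ,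
    ∀ k ∈ Subgroup.centralizer {kg 0}, lam (k * f) ≤ lam k + C) ∧
    ∀ r, r = 0 ∨ r = 2 → ∀ i j : ℤ, |(i : ℝ)| + |(j : ℝ)| ≤ lam (kg 0 ^ i * kz r ^ j) := by
  obtain ⟨φ, J, hm, -, -, -, -, h0, h1, h2⟩ := kphi
  let ψ : Subgroup.centralizer {kg 0} →* Multiplicative ℤ :=
    MonoidHom.mk' (fun k => Multiplicative.ofAdd (J k)) fun a b => by
      rw [← ofAdd_add]
      exact congrArg _ (hm a b (Subgroup.mem_centralizer_singleton_iff.1 a.2)
        (Subgroup.mem_centralizer_singleton_iff.1 b.2)).2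
  have m0 : kg 0 ∈ Subgroup.centralizer {kg 0} := Subgroup.mem_centralizer_singleton_iff.2 rfl
  let ℓ : KK → ℤ := fun k => Multiplicative.toAdd (artLen _ k)
  refine ⟨fun k => |(ℓ k : ℝ)| + 7 * |(J k : ℝ)|, fun f hf =>
    ⟨|(ℓ f : ℝ)| + 7 * |(J f : ℝ)|, fun k hk => ?_⟩, fun r hr i j => ?_⟩
  · have e1 : ℓ (k * f) = ℓ k + ℓ f := by simp [ℓ]
    have e2 := (hm k f (Subgroup.mem_centralizer_singleton_iff.1 hk)
      (Subgroup.mem_centralizer_singleton_iff.1 hf)).2
    simp only [e1, e2, Int.cast_add]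
    linarith [abs_add_le (ℓ k : ℝ) (ℓ f), abs_add_le (J k : ℝ) (J f)]
  · have hz : kz r ∈ Subgroup.centralizer {kg 0} := by
      rcases hr with rfl | rfl
      · exact Subgroup.mem_centralizer_singleton_iff.2 ksep_c0.symm.eq
      · exact Subgroup.mem_centralizer_singleton_iff.2 ksep_c2.symm.eq
    have hJ : J (kz r) = 1 := by rcases hr with rfl | rfl; exacts [h1, h2]
    have e1 : ℓ (kg 0 ^ i * kz r ^ j) = i + 6 * j := by
      simp [ℓ, kz, kg]
      ring
    have e2 : J (kg 0 ^ i * kz r ^ j) = j := by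
      have a1 : ψ ⟨kg 0, m0⟩ = Multiplicative.ofAdd 0 := congrArg Multiplicative.ofAdd h0
      have a2 : ψ ⟨kz r, hz⟩ = Multiplicative.ofAdd 1 := congrArg Multiplicative.ofAdd hJ
      have : ψ (⟨kg 0, m0⟩ ^ i * ⟨kz r, hz⟩ ^ j) = Multiplicative.ofAdd j := by
        rw [map_mul, map_zpow, map_zpow, a1, a2, ← ofAdd_zsmul, ← ofAdd_zsmul, ← ofAdd_add]
        simp
      exact Multiplicative.ofAdd.injective this
    simp only [e1, e2]
    push_cast
    have := abs_add_le ((i : ℝ) + 6 * j) (-(6 * j))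
    rw [abs_neg, abs_mul, abs_of_pos (by norm_num : (0 : ℝ) < 6)] at this
    have e3 : (i : ℝ) + 6 * j + -(6 * j) = i := by ring
    rw [e3] at this
    linarith

theorem undK_next : Und (Subgroup.centralizer {kg 0}) (kg 0) (kz 0) := by
  obtain ⟨lam, h1, h2⟩ := ksep_und
  exact ⟨lam, h1, fun i j => h2 0 (.inl rfl) i j⟩

theorem undK_prev : Und (Subgroup.centralizer {kg 0}) (kz 2) (kg 0) := by
  obtain ⟨lam, h1, h2⟩ := ksep_und
  refine ⟨lam, h1, fun i j => ?_⟩
  rw [← (ksep_c2.zpow_zpow j i).eq, add_comm]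
  exact h2 2 (.inr rfl) j i

end Crest.Agent.R175C
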