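import Crest.Agent.R175C.AlgMat
import Crest.Agent.R175C.AlgKSep
import Crest.Agent.R175C.AlgBraid

/-! # Row 175, S0264: the Artin group with a fan (main theorem of the algebra part) -/

set_option autoImplicit false

namespace Crest.Agent.R175C

open Crest.GroupTheory

section Transport
variable {K G : Type*} [Group K] [Group G] {ι : K →* G} {H : Subgroup K} {H' : Subgroup G}

theorem Sep.map (hι : Function.Injective ι) (hH : ∀ x ∈ H', ∃ k ∈ H, ι k = x) {g e h : K}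
    (hs : Sep H g e h) : Sep H' (ι g) (ι e) (ι h) := by
  intro F hF
  obtain ⟨F', hF', hc⟩ := hs (ι ⁻¹' F) (hF.preimage hι.injOn)
  refine ⟨ι '' F', hF'.image _, fun N c hmem hstep h0 hN => ?_⟩
  have hex : ∀ l, ∃ k, l ≤ N → k ∈ H ∧ ι k = c l := fun l => by
    by_cases hl : l ≤ N
    · obtain ⟨k, hk, hk'⟩ := hH _ (hmem l hl)
      exact ⟨k, fun _ => ⟨hk, hk'⟩⟩
    · exact ⟨1, fun h => absurd h hl⟩
  choose d hd using hex
  obtain ⟨l, hl, r, f, hf, hlf⟩ := hc N d (fun l hl => (hd l hl).1)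
    (fun l hl => by
      obtain ⟨f, hf, hf'⟩ := hstep l hl
      refine ⟨(d l)⁻¹ * d (l + 1), ?_, by group⟩
      show ι _ ∈ F
      rw [map_mul, map_inv, (hd l hl.le).2, (hd (l + 1) hl).2, hf']
      simpa using hf)
    (by
      obtain ⟨n, i, h0⟩ := h0
      exact ⟨n, i, hι (by rw [(hd 0 (Nat.zero_le _)).2, h0]; simp)⟩)
    (by
      obtain ⟨n, i, hN⟩ := hN
      exact ⟨n, i, hι (by rw [(hd N le_rfl).2, hN]; simp)⟩)
  exact ⟨l, hl, r, ι f, ⟨f, hf, rfl⟩, by rw [← (hd l hl).2, hlf]; simp⟩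

theorem Und.map (hι : Function.Injective ι) (hH : ∀ x ∈ H', ∃ k ∈ H, ι k = x) {g h : K}
    (hu : Und H g h) : Und H' (ι g) (ι h) := by
  obtain ⟨lam, h1, h2⟩ := hu
  have hinv := Function.leftInverse_invFun hι
  refine ⟨fun x => lam (Function.invFun ι x), fun f hf => ?_, fun i j => ?_⟩
  · obtain ⟨f', hf', rfl⟩ := hH f hf
    obtain ⟨C, hC⟩ := h1 f' hf'
    refine ⟨C, fun k hk => ?_⟩
    obtain ⟨k', hk', rfl⟩ := hH k hk
    simp only [← map_mul, hinv _]
    exact hC k' hk'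
  · simp only [← map_zpow, ← map_mul, hinv _]
    exact h2 i j

end Transport

/-- the finite set attached to a ray -/
def EE (r : Fin 3) (e : KK) : Set GG :=
  {artinGen MM (tip true), artinGen MM (tip false), emb r e}

theorem EE_finite (r : Fin 3) (e : KK) : (EE r e).Finite := by
  unfold EE
  exact Set.toFinite _

theorem mem_EE {r : Fin 3} {e k : KK} (h : Commute e k) :
    emb r k ∈ Subgroup.centralizer (EE r e) := by
  have h1 : emb r k ∈ Subgroup.centralizer {artinGen MM (tip true), artinGen MM (tip false)} := by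
    rw [emb_range r]
    exact ⟨k, rfl⟩
  rintro x (rfl | rfl | rfl)
  · exact h1 _ (by simp)
  · exact h1 _ (by simp)
  · exact (h.map (emb r)).eq

theorem of_mem_EE (r : Fin 3) (e : KK) : ∀ x ∈ Subgroup.centralizer (EE r e),
    ∃ k ∈ Subgroup.centralizer {e}, emb r k = x := by
  intro x hx
  have h1 : x ∈ Subgroup.centralizer {artinGen MM (tip true), artinGen MM (tip false)} := by
    rintro y (rfl | rfl)
    · exact hx _ (by simp [EE])
    · exact hx _ (by simp [EE])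
  rw [emb_range r] at h1
  obtain ⟨k, rfl⟩ := h1
  refine ⟨k, Subgroup.mem_centralizer_singleton_iff.2 (emb_injective r ?_), rfl⟩
  rw [map_mul, map_mul]
  exact (hx (emb r e) (by simp [EE])).symm

theorem kz_comm (i : Fin 3) : Commute (kg i) (kz i) ∧ Commute (kg (i + 1)) (kz i) :=
  have h := braid_cube (kg_braid (i := i) (j := i + 1) (by revert i; decide))
  ⟨h.1, h.2.1⟩

theorem emb_z2 (r : Fin 3) : emb (r + 1) (kz 2) = emb r (kz 0) := by
  have h1 : (2 : Fin 3) + (r + 1) = 0 + r := by revert r; decide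
  have h2 : (2 : Fin 3) + 1 + (r + 1) = 0 + 1 + r := by revert r; decide
  simp only [kz, map_pow, map_mul, emb_kg, h1, h2]

theorem emb_g1 (r : Fin 3) : emb (r + 1) (kg 0) = emb r (kg 1) := by
  have h1 : (0 : Fin 3) + (r + 1) = 1 + r := by revert r; decide
  simp only [emb_kg, h1]

/-- the six rays -/
def ray : Fin 6 → GG :=
  ![emb 0 (kg 0), emb 0 (kz 0), emb 1 (kg 0), emb 1 (kz 0), emb 2 (kg 0), emb 2 (kz 0)]

/-- every index is of one of two types -/
theorem ray_cases (k : Fin 6) : ∃ r : Fin 3,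
    (ray k = emb r (kg 0) ∧ ray (k + 1) = emb r (kz 0) ∧ ray (k + 2) = emb (r + 1) (kg 0)) ∨
    (ray k = emb r (kz 0) ∧ ray (k + 1) = emb (r + 1) (kg 0) ∧ ray (k + 2) = emb (r + 1) (kz 0)) := by
  fin_cases k
  exacts [⟨0, .inl ⟨rfl, rfl, rfl⟩⟩, ⟨0, .inr ⟨rfl, rfl, rfl⟩⟩, ⟨1, .inl ⟨rfl, rfl, rfl⟩⟩,
    ⟨1, .inr ⟨rfl, rfl, rfl⟩⟩, ⟨2, .inl ⟨rfl, rfl, rfl⟩⟩, ⟨2, .inr ⟨rfl, rfl, rfl⟩⟩]

theorem fan_ray : Fan ray := by
  have ca := (kz_comm 0).1
  have cb : Commute (kg 1) (kz 0) := (kz_comm 0).2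
  have cc : Commute (kg 0) (kz 2) := (kz_comm 2).2
  refine ⟨fun k => ?_, fun k => ?_, fun k => ?_, fun ip hip hpos k => ?_⟩
  · obtain ⟨r, ⟨h0, h1, -⟩ | ⟨h0, h1, -⟩⟩ := ray_cases k
    · rw [h0, h1]
      exact ca.map _
    · rw [h0, h1, emb_g1]
      exact cb.symm.map _
  · obtain ⟨r, ⟨h0, h1, h2⟩ | ⟨h0, h1, h2⟩⟩ := ray_cases k
    · rw [h0, h1, h2, emb_g1]
      exact ⟨EE r (kz 0), EE_finite _ _, mem_EE ca.symm, mem_EE (Commute.refl _), mem_EE cb.symm,
        sepK_z.map (emb_injective r) (of_mem_EE r _)⟩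
    · rw [h0, h1, h2, ← emb_z2]
      exact ⟨EE (r + 1) (kg 0), EE_finite _ _, mem_EE cc, mem_EE (Commute.refl _), mem_EE ca,
        sepK_a.map (emb_injective _) (of_mem_EE _ _)⟩
  · obtain ⟨r, ⟨h0, h1, -⟩ | ⟨h0, h1, -⟩⟩ := ray_cases k
    · rw [h0, h1]
      exact ⟨EE r (kg 0), EE_finite _ _, mem_EE (Commute.refl _), mem_EE ca,
        undK_next.map (emb_injective r) (of_mem_EE r _)⟩
    · rw [h0, h1, ← emb_z2]
      exact ⟨EE (r + 1) (kg 0), EE_finite _ _, mem_EE cc, mem_EE (Commute.refl _),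
        undK_prev.map (emb_injective _) (of_mem_EE _ _)⟩
  · have key : ∀ r : Fin 3, ip (emb r (kg 1)) (emb r (kg 1)) = ip (emb r (kg 0)) (emb r (kg 0)) ∧
        ip (emb r (kg 1)) (emb r (kz 0)) = ip (emb r (kg 0)) (emb r (kz 0)) ∧
        ip (emb r (kz 0)) (emb r (kz 0)) = 6 * ip (emb r (kg 0)) (emb r (kz 0)) ∧
        14 * ip (emb r (kg 0)) (emb r (kg 0)) ≤ 9 * ip (emb r (kg 0)) (emb r (kz 0)) := by
      intro r
      have := braid_angle hip (path_braid r)
      have e0 : path r 0 = emb r (kg 0) := by simp [path]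
      have e1 : path r 1 = emb r (kg 1) := by simp [path, add_comm]
      have e2 : (emb r (kg 0) * emb r (kg 1)) ^ 3 = emb r (kz 0) := by
        simp only [kz, map_pow, map_mul, zero_add]
      rwa [e0, e1, e2] at this
    have p0 := hpos k
    have p1 := hpos (k + 1)
    obtain ⟨r, ⟨h0, h1, -⟩ | ⟨h0, h1, -⟩⟩ := ray_cases k
    · obtain ⟨-, -, k3, k4⟩ := key r
      rw [h0] at p0
      rw [h0, h1, k3]
      constructor <;> nlinarith
    · obtain ⟨k1, k2, k3, k4⟩ := key r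
      rw [h1, emb_g1, k1] at p1
      rw [h0, h1, emb_g1, hip.symm _ _ (cb.symm.map (emb r)), k1, k2, k3]
      constructor <;> nlinarith

theorem exists_fan : ∃ (S : Type) (_ : Fintype S) (M : CoxeterMatrix S),
    Fintype.card S = 116 ∧ (∀ s t : S, s ≠ t → M.M s t = 0 ∨ M.M s t = 2 ∨ M.M s t = 3) ∧
    ∃ e : Fin 6 → Crest.GroupTheory.ArtinGroup M, Fan e :=
  ⟨SS, inferInstance, MM, card_SS, fun _ _ h => lab_ne h, ray, fan_ray⟩

end Crest.Agent.R175C
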