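import Crest.Agent.R175C.AlgArt

/-!
# Row 175, S0264: free groups

`head_mul`: induction on the word of `u` (or on `n ≥ u.norm`), one letter at a time: multiplying a reduced word
of length `≥ 2` by a letter appends the letter or deletes the last one.  `comm_of`: induction on the norm; if `f`
starts with `(i, b)` strip that letter; otherwise `of i * f` starts with `(i, true)` (`startsWith_mk_mul`) and
`f * of i` starts like `f` (`head_mul` if the norm is `≥ 2`, direct for norm `1`).  `comm_del`: apply the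
automorphism `x₀ ↦ x₀ x₁ x₂`, `x₁ ↦ x₁`, `x₂ ↦ x₂`.  `sep_of_free`: take `C` larger than the bounds for the
`f ∈ F ∩ H`; if every `γ (c l)` had norm `> C` the first letter would be constant along the chain; so some
`γ (c l)` is in the finite ball and `F'` is the union of the sets given by `hP` over the ball.
-/

set_option autoImplicit false

namespace Crest.Agent.R175C

open Crest.GroupTheory

section
variable {α : Type} [DecidableEq α]

theorem algFree_norm {w v : FreeGroup α} (h : w.toWord[0]? ≠ v.toWord[0]?) :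
    (w⁻¹ * v).norm = w.norm + v.norm := by
  have h1 : FreeGroup.IsReduced (w⁻¹.toWord ++ v.toWord) := by
    refine List.isChain_append.2 ⟨FreeGroup.isReduced_toWord, FreeGroup.isReduced_toWord, ?_⟩
    intro x hx y hy hxy
    rw [FreeGroup.toWord_inv] at hx
    cases hw : w.toWord with
    | nil => simp [hw] at hx
    | cons a L =>
      cases hv : v.toWord with
      | nil => simp [hv] at hy
      | cons b M =>
        rw [hw, hv] at h
        simp only [hw, FreeGroup.invRev, List.map_cons, List.reverse_cons, List.getLast?_append,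
          List.getLast?_singleton, Option.some_or, Option.mem_def, Option.some.injEq] at hx
        simp only [hv, List.head?_cons, Option.mem_def, Option.some.injEq] at hy
        subst hx hy
        by_contra hc
        refine h (congrArg some (Prod.ext hxy ?_))
        revert hc
        cases a.2 <;> cases b.2 <;> simp
  rw [FreeGroup.norm, FreeGroup.toWord_mul, h1.reduce_eq, List.length_append]
  exact congrArg (· + v.norm) FreeGroup.norm_inv_eq

theorem algFree_pos (M : List α) :
    ((M.map FreeGroup.of).prod).toWord = M.map fun a => (a, true) := by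
  have h1 : (M.map FreeGroup.of).prod = FreeGroup.mk (M.map fun a => (a, true)) := by
    induction M with
    | nil => rfl
    | cons a M ih => rw [List.map_cons, List.prod_cons, ih]; rfl
  rw [h1, FreeGroup.toWord_mk]
  refine FreeGroup.IsReduced.reduce_eq ?_
  rw [FreeGroup.IsReduced, List.isChain_map]
  exact List.Pairwise.isChain (List.pairwise_of_forall fun _ _ _ => rfl)

theorem head_mul {w u : FreeGroup α} (h : u.norm < w.norm) :
    (w * u).toWord[0]? = w.toWord[0]? := by
  by_contra hne
  have h1 := algFree_norm (Ne.symm hne)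
  rw [inv_mul_cancel_left] at h1
  omega

theorem comm_of {i : α} {f : FreeGroup α} (h : Commute f (FreeGroup.of i)) :
    ∃ n : ℤ, f = FreeGroup.of i ^ n := by
  induction hn : f.norm using Nat.strong_induction_on generalizing f with
  | _ n ih =>
    by_cases hi : ∃ b L, f.toWord = (i, b) :: L
    · obtain ⟨b, L, hL⟩ := hi
      have h1 : f = FreeGroup.mk [(i, b)] * FreeGroup.mk L := by
        rw [FreeGroup.mul_mk, List.singleton_append, ← hL, FreeGroup.mk_toWord]
      obtain ⟨m, hm⟩ : ∃ m : ℤ, FreeGroup.mk [(i, b)] = FreeGroup.of i ^ m := by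
        cases b
        · exact ⟨-1, by rw [zpow_neg_one]; rfl⟩
        · exact ⟨1, by rw [zpow_one]; rfl⟩
      have h2 : FreeGroup.mk L = FreeGroup.of i ^ (-m) * f := by
        rw [h1, hm, zpow_neg, inv_mul_cancel_left]
      have h3 : (FreeGroup.mk L).norm < n := by
        refine FreeGroup.norm_mk_le.trans_lt ?_
        rw [← hn, FreeGroup.norm, hL]
        simp
      obtain ⟨r, hr⟩ := ih _ h3 (f := FreeGroup.mk L)
        (h2 ▸ ((Commute.refl _).zpow_left _).mul_left h) rfl
      exact ⟨m + r, by rw [h1, hm, hr, zpow_add]⟩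
    · have h0 : ∀ b, f ∉ FreeGroup.startsWith (i, b) := by
        intro b hb
        have hb' : f.toWord[0]? = some (i, b) := hb
        cases hL : f.toWord with
        | nil => simp [hL] at hb'
        | cons a L => exact hi ⟨b, L, by rw [hL] at hb'; rw [hL, Option.some.inj hb']⟩
      have h1 : FreeGroup.of i * f ∈ FreeGroup.startsWith (i, true) :=
        FreeGroup.startsWith_mk_mul (w := (i, true)) f (h0 _)
      have h2 := algFree_norm (w := f) (v := FreeGroup.of i * f) fun he => h0 true (he.trans h1)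
      have h3 := FreeGroup.norm_eq_zero.not.2 (FreeGroup.startsWith.ne_one _ h1)
      conv_lhs at h2 => rw [← h.eq, inv_mul_cancel_left, FreeGroup.norm_of]
      exact ⟨0, by rw [zpow_zero, ← FreeGroup.norm_eq_zero]; omega⟩

theorem comm_two {i j : α} (hij : i ≠ j) {f : FreeGroup α} (hi : Commute f (FreeGroup.of i))
    (hj : Commute f (FreeGroup.of j)) : f = 1 := by
  obtain ⟨n, hn⟩ := comm_of hi
  obtain ⟨m, hm⟩ := comm_of hj
  have h1 := congrArg (FreeGroup.lift fun k : α =>
    if k = i then Multiplicative.ofAdd (1 : ℤ) else 1) (hn.symm.trans hm)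
  simp only [map_zpow, FreeGroup.lift_apply_of, if_true, if_neg hij.symm, one_zpow] at h1
  have h2 : n = 0 := by simpa using congrArg Multiplicative.toAdd h1
  rw [hn, h2, zpow_zero]

theorem ball_finite [Finite α] (n : ℕ) : {w : FreeGroup α | w.norm ≤ n}.Finite := by
  exact (List.finite_length_le (α × Bool) n).preimage FreeGroup.toWord_injective.injOn

/-- powers of a positive word start with its first letter -/
theorem pos_pow (x : α) (L : List α) (n : ℕ) :
    (FreeGroup.of x * (L.map FreeGroup.of).prod) ^ n = 1 ∨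
      (FreeGroup.of x * (L.map FreeGroup.of).prod) ^ n ∈ FreeGroup.startsWith (x, true) := by
  cases n with
  | zero => exact Or.inl (pow_zero _)
  | succ n =>
    right
    have h1 : (FreeGroup.of x * (L.map FreeGroup.of).prod) ^ (n + 1) =
        ((x :: (L ++ (List.replicate n (x :: L)).flatten)).map FreeGroup.of).prod := by
      simp [pow_succ', List.map_flatten, List.prod_flatten, mul_assoc]
    rw [h1]
    change (FreeGroup.toWord _)[0]? = _
    rw [algFree_pos]
    rfl

theorem sep_of_free [Finite α] {G : Type*} [Group G] {H : Subgroup G} {g e h : G}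
    (γ : G → FreeGroup α)
    (hL : ∀ f ∈ H, ∃ C : ℕ, ∀ k ∈ H, ∃ w : FreeGroup α, w.norm ≤ C ∧ γ (k * f) = γ k * w)
    (hP : ∀ w, ∃ F' : Set G, F'.Finite ∧ ∀ k ∈ H, γ k = w → ∃ r : ℤ, ∃ f ∈ F', k = e ^ r * f)
    {x y : α × Bool} (hxy : x ≠ y)
    (hg : ∀ (n : ℕ) (i : ℤ), γ (g ^ n * e ^ i) = 1 ∨ γ (g ^ n * e ^ i) ∈ FreeGroup.startsWith x)
    (hh : ∀ (n : ℕ) (i : ℤ), γ (h ^ n * e ^ i) = 1 ∨ γ (h ^ n * e ^ i) ∈ FreeGroup.startsWith y) :
    Sep H g e h := by
  intro F hF
  have h1 : ∀ f : G, ∃ C : ℕ, f ∈ H → ∀ k ∈ H, ∃ w : FreeGroup α, w.norm ≤ C ∧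
      γ (k * f) = γ k * w := by
    intro f
    by_cases hf : f ∈ H
    · obtain ⟨C, hC⟩ := hL f hf
      exact ⟨C, fun _ => hC⟩
    · exact ⟨0, fun h => (hf h).elim⟩
  choose C hC using h1
  obtain ⟨D, hD⟩ := (hF.image C).bddAbove
  choose F' hF' hF'' using hP
  refine ⟨⋃ w ∈ {w : FreeGroup α | w.norm ≤ D}, F' w, (ball_finite D).biUnion fun w _ => hF' w,
    fun N c hc hs h0 hN => ?_⟩
  by_contra hcon
  have h2 : ∀ l ≤ N, D < (γ (c l)).norm := by
    intro l hl
    by_contra hlt
    obtain ⟨r, f, hf, he⟩ := hF'' _ (c l) (hc l hl) rfl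
    exact hcon ⟨l, hl, r, f, Set.mem_biUnion (not_lt.1 hlt) hf, he⟩
  have h3 : ∀ l ≤ N, (γ (c l)).toWord[0]? = (γ (c 0)).toWord[0]? := by
    intro l hl
    induction l with
    | zero => rfl
    | succ l ih =>
      obtain ⟨f, hf, he⟩ := hs l hl
      have hl' : l ≤ N := Nat.le_of_succ_le hl
      have hfH : f ∈ H := by
        rw [eq_inv_mul_of_mul_eq he.symm]
        exact H.mul_mem (H.inv_mem (hc l hl')) (hc _ hl)
      obtain ⟨w, hw, hw'⟩ := hC f hfH (c l) (hc l hl')
      rw [he, hw', head_mul ((hw.trans (hD ⟨f, hf, rfl⟩)).trans_lt (h2 l hl')), ih hl']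
  obtain ⟨n, i, h0⟩ := h0
  obtain ⟨m, j, hN⟩ := hN
  have h4 := h2 0 (Nat.zero_le _)
  have h5 := h2 N le_rfl
  have h6 := h3 N le_rfl
  rw [h0] at h4 h6
  rw [hN] at h5 h6
  rcases hg n i with a | a
  · simp [a] at h4
  rcases hh m j with b | b
  · simp [b] at h5
  exact hxy (Option.some.inj ((Eq.symm a).trans (h6.symm.trans b)))

end

theorem comm_del {f : F3} (h : Commute f del) : ∃ n : ℤ, f = del ^ n := by
  let φ : F3 →* F3 := FreeGroup.lift ![del, xx 1, xx 2]
  let ψ : F3 →* F3 := FreeGroup.lift ![xx 0 * (xx 2)⁻¹ * (xx 1)⁻¹, xx 1, xx 2]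
  have h1 : φ.comp ψ = MonoidHom.id _ :=
    f3_ext (by simp [φ, ψ, xx, del]) (by simp [φ, ψ, xx]) (by simp [φ, ψ, xx])
  have h2 : ψ del = FreeGroup.of 0 := by simp [ψ, xx, del]
  obtain ⟨n, hn⟩ := comm_of (h2 ▸ h.map ψ)
  refine ⟨n, ?_⟩
  have h3 : φ (ψ f) = f := DFunLike.congr_fun h1 f
  rw [← h3, hn, map_zpow]
  simp [φ]

end Crest.Agent.R175C
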