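import Crest.Agent.R175C.AlgFaith

/-!
# Row 175, S0264: `B3` embeds into a group with a long braid chain; extension of an edge

`exists_chain`: `s i ∈ MulAut (FreeGroup ℕ)`, `x i ↦ x i * x (i+1) * (x i)⁻¹`, `x (i+1) ↦ x i`, others fixed; `k = liftB (s 0) (s 1)`
is intertwined with `act` by the injective map `FreeGroup.map Fin.val` (the set of `β` with
`k β ∘ inc = inc ∘ act β` is a subgroup, `b3_mem`), so `act_injective` gives the injectivity.
`exists_ext`: `HNNExtension (Γ × B) A A' φ` with `A` the range of `β ↦ (j β, 1)`, `A'` the range of `β ↦ (1, k β)`,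
`φ = (MonoidHom.ofInjective _).symm.trans (MonoidHom.ofInjective _)`, `i γ = of (γ, 1)`,
`s' n = t⁻¹ * of (1, s n) * t`; `HNNExtension.of_injective`.
-/

set_option autoImplicit false

namespace Crest.Agent.R175C

open Crest.GroupTheory

/-- Artin's automorphism `σ_i` of the free group on `ℕ`. -/
def algInfS (i : ℕ) : MulAut (FreeGroup ℕ) :=
  MonoidHom.toMulEquiv
    (FreeGroup.lift fun n => if n = i then FreeGroup.of i * FreeGroup.of (i + 1) * (FreeGroup.of i)⁻¹
      else if n = i + 1 then FreeGroup.of i else FreeGroup.of n)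
    (FreeGroup.lift fun n => if n = i then FreeGroup.of (i + 1)
      else if n = i + 1 then (FreeGroup.of (i + 1))⁻¹ * FreeGroup.of i * FreeGroup.of (i + 1)
      else FreeGroup.of n)
    (by
      ext n : 1
      by_cases h1 : n = i
      · subst h1; simp [mul_assoc]
      · by_cases h2 : n = i + 1
        · subst h2; simp
        · simp [h1, h2])
    (by
      ext n : 1
      by_cases h1 : n = i
      · subst h1; simp
      · by_cases h2 : n = i + 1
        · subst h2; simp [mul_assoc]
        · simp [h1, h2])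

theorem algInfS_of (i n : ℕ) : algInfS i (FreeGroup.of n) =
    if n = i then FreeGroup.of i * FreeGroup.of (i + 1) * (FreeGroup.of i)⁻¹
      else if n = i + 1 then FreeGroup.of i else FreeGroup.of n := by
  simp [algInfS]

theorem algInfS_self (i : ℕ) : algInfS i (FreeGroup.of i) =
    FreeGroup.of i * FreeGroup.of (i + 1) * (FreeGroup.of i)⁻¹ := by
  simp [algInfS_of]

theorem algInfS_succ (i : ℕ) : algInfS i (FreeGroup.of (i + 1)) = FreeGroup.of i := by
  simp [algInfS_of]

theorem algInfS_ne {i n : ℕ} (h1 : n ≠ i) (h2 : n ≠ i + 1) :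
    algInfS i (FreeGroup.of n) = FreeGroup.of n := by
  simp [algInfS_of, h1, h2]

theorem algInf_ext {φ ψ : MulAut (FreeGroup ℕ)}
    (h : ∀ n, φ (FreeGroup.of n) = ψ (FreeGroup.of n)) : φ = ψ :=
  MulEquiv.toMonoidHom_injective (FreeGroup.ext_hom _ _ h)

theorem algInf_braid (i : ℕ) :
    algInfS i * algInfS (i + 1) * algInfS i = algInfS (i + 1) * algInfS i * algInfS (i + 1) := by
  have a1 := algInfS_self i
  have a2 := algInfS_succ i
  have a3 : algInfS i (FreeGroup.of (i + 1 + 1)) = FreeGroup.of (i + 1 + 1) :=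
    algInfS_ne (by omega) (by omega)
  have b1 := algInfS_self (i + 1)
  have b2 := algInfS_succ (i + 1)
  have b3 : algInfS (i + 1) (FreeGroup.of i) = FreeGroup.of i := algInfS_ne (by omega) (by omega)
  refine algInf_ext fun n => ?_
  simp only [MulAut.mul_apply]
  by_cases h1 : n = i
  · subst h1
    simp only [a1, a2, a3, b1, b2, b3, map_mul, map_inv]
    group
  · by_cases h2 : n = i + 1
    · subst h2
      simp only [a1, a2, a3, b1, b2, b3, map_mul, map_inv]
    · by_cases h3 : n = i + 1 + 1
      · subst h3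
        simp only [a1, a2, a3, b1, b2, b3]
      · rw [algInfS_ne h1 h2, algInfS_ne h2 h3, algInfS_ne h1 h2, algInfS_ne h2 h3]

theorem algInf_comm {i j : ℕ} (h : i + 2 ≤ j) : Commute (algInfS i) (algInfS j) := by
  have a1 := algInfS_self i
  have a2 := algInfS_succ i
  have a3 : algInfS i (FreeGroup.of j) = FreeGroup.of j := algInfS_ne (by omega) (by omega)
  have a4 : algInfS i (FreeGroup.of (j + 1)) = FreeGroup.of (j + 1) :=
    algInfS_ne (by omega) (by omega)
  have b1 := algInfS_self j
  have b2 := algInfS_succ j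
  have b3 : algInfS j (FreeGroup.of i) = FreeGroup.of i := algInfS_ne (by omega) (by omega)
  have b4 : algInfS j (FreeGroup.of (i + 1)) = FreeGroup.of (i + 1) :=
    algInfS_ne (by omega) (by omega)
  refine algInf_ext fun n => ?_
  simp only [MulAut.mul_apply]
  by_cases h1 : n = i
  · subst h1
    simp only [a1, b3, b4, map_mul, map_inv]
  · by_cases h2 : n = i + 1
    · subst h2
      simp only [a2, b3, b4]
    · by_cases h3 : n = j
      · subst h3
        simp only [b1, a3, a4, map_mul, map_inv]
      · by_cases h4 : n = j + 1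
        · subst h4
          simp only [b2, a3, a4]
        · rw [algInfS_ne h1 h2, algInfS_ne h3 h4, algInfS_ne h1 h2]

theorem algInf_inter (k : B3 →* MulAut (FreeGroup ℕ)) (ha : k ba = algInfS 0)
    (hb : k bb = algInfS 1) (β : B3) (f : F3) :
    k β (FreeGroup.map Fin.val f) = FreeGroup.map Fin.val (act β f) := by
  let P : Subgroup B3 :=
    { carrier := {β | ∀ f : F3, k β (FreeGroup.map Fin.val f) = FreeGroup.map Fin.val (act β f)}
      mul_mem' := by
        intro a b h1 h2 f
        simp only [map_mul, MulAut.mul_apply]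
        rw [h2, h1]
      one_mem' := by
        intro f
        simp
      inv_mem' := by
        intro a h1 f
        have := h1 (act a⁻¹ f)
        rw [← MulAut.mul_apply, ← map_mul, mul_inv_cancel, map_one, MulAut.one_apply] at this
        rw [← this, ← MulAut.mul_apply, ← map_mul, inv_mul_cancel, map_one, MulAut.one_apply] }
  have e0 : FreeGroup.map Fin.val (xx 0) = FreeGroup.of 0 := by simp [xx]
  have e1 : FreeGroup.map Fin.val (xx 1) = FreeGroup.of 1 := by simp [xx]
  have e2 : FreeGroup.map Fin.val (xx 2) = FreeGroup.of 2 := by simp [xx]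
  refine b3_mem P ?_ ?_ β f
  · intro f
    rw [ha, act_ba]
    have : (algInfS 0).toMonoidHom.comp (FreeGroup.map Fin.val) =
        (FreeGroup.map Fin.val).comp actA.toMonoidHom := by
      refine f3_ext ?_ ?_ ?_ <;> simp [e0, e1, e2, algInfS_of]
    exact DFunLike.congr_fun this f
  · intro f
    rw [hb, act_bb]
    have : (algInfS 1).toMonoidHom.comp (FreeGroup.map Fin.val) =
        (FreeGroup.map Fin.val).comp actB.toMonoidHom := by
      refine f3_ext ?_ ?_ ?_ <;> simp [e0, e1, e2, algInfS_of]
    exact DFunLike.congr_fun this f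

theorem algInf_map {H H' : Type*} [Group H] [Group H'] (φ : H →* H') {n : ℕ} {s : ℕ → H}
    (h : Braid n s) : Braid n (fun i => φ (s i)) := by
  refine ⟨fun i hi => ?_, fun i j h1 h2 => (h.2 i j h1 h2).map φ⟩
  simp only [← map_mul]
  rw [h.1 i hi]

theorem exists_chain : ∃ (B : Type) (_ : Group B) (s : ℕ → B) (k : B3 →* B),
    (∀ n, Braid n s) ∧ Function.Injective k ∧ k ba = s 0 ∧ k bb = s 1 := by
  refine ⟨MulAut (FreeGroup ℕ), inferInstance, algInfS, liftB (algInfS 0) (algInfS 1) (algInf_braid 0),
    fun n => ⟨fun i _ => algInf_braid i, fun i j h _ => algInf_comm h⟩, ?_, liftB_a .., liftB_b ..⟩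
  rw [injective_iff_map_eq_one]
  intro β hβ
  refine act_injective ?_
  rw [map_one]
  ext f : 1
  have := algInf_inter _ (liftB_a _ _ (algInf_braid 0)) (liftB_b ..) β f
  rw [hβ, MulAut.one_apply] at this
  exact (FreeGroup.map_injective Fin.val_injective this).symm

theorem exists_ext {Γ : Type} [Group Γ] (j : B3 →* Γ) (hj : Function.Injective j) :
    ∃ (Γ' : Type) (_ : Group Γ') (i : Γ →* Γ') (s : ℕ → Γ'),
      Function.Injective i ∧ (∀ n, Braid n s) ∧ s 0 = i (j ba) ∧ s 1 = i (j bb) := by
  obtain ⟨B, _, s, k, hs, hk, ha, hb⟩ := exists_chain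
  let j' : B3 →* Γ × B := (MonoidHom.inl Γ B).comp j
  let k' : B3 →* Γ × B := (MonoidHom.inr Γ B).comp k
  have hj' : Function.Injective j' := fun a b h => hj (congrArg Prod.fst h)
  have hk' : Function.Injective k' := fun a b h => hk (congrArg Prod.snd h)
  let φ : j'.range ≃* k'.range := (MonoidHom.ofInjective hj').symm.trans (MonoidHom.ofInjective hk')
  have hφ : ∀ β : B3, (φ ⟨j' β, β, rfl⟩ : Γ × B) = k' β := by
    intro β
    have : (MonoidHom.ofInjective hj').symm ⟨j' β, β, rfl⟩ = β := by
      rw [MulEquiv.symm_apply_eq]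
      rfl
    simp only [φ, MulEquiv.trans_apply, this]
    rfl
  let ψ : B →* HNNExtension (Γ × B) j'.range k'.range φ :=
    (MulAut.conj (HNNExtension.t)⁻¹).toMonoidHom.comp (HNNExtension.of.comp (MonoidHom.inr Γ B))
  have hψ : ∀ β : B3, ψ (k β) = HNNExtension.of (j' β) := by
    intro β
    have h1 := HNNExtension.equiv_eq_conj (φ := φ) ⟨j' β, β, rfl⟩
    rw [hφ] at h1
    have h2 : ψ (k β) = (HNNExtension.t)⁻¹ * HNNExtension.of (k' β) * HNNExtension.t := by
      simp [ψ, k']
    rw [h2, h1]
    group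
  refine ⟨HNNExtension (Γ × B) j'.range k'.range φ, inferInstance,
    HNNExtension.of.comp (MonoidHom.inl Γ B), fun n => ψ (s n), ?_, fun n => algInf_map ψ (hs n),
    ?_, ?_⟩
  · intro a b h
    exact congrArg Prod.fst (HNNExtension.of_injective φ h)
  · show ψ (s 0) = _
    rw [← ha, hψ]
    rfl
  · show ψ (s 1) = _
    rw [← hb, hψ]
    rfl

end Crest.Agent.R175C
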