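import Crest.Agent.R175C.AlgArt

/-!
# Row 175, S0264: `KK` embeds into `F3 ⋊ B3`

The relations: with `ρ = inl x₀⁻¹ * inr (ba * bb)` conjugation by `ρ` maps `a ↦ b ↦ c ↦ a` (or check the two new braid
relations directly with `SemidirectProduct.ext`; values of `act ba⁻¹`: `x₀ ↦ x₁`, `x₁ ↦ x₁⁻¹ x₀ x₁`).
Injectivity: let `L = KK ⋊[zpowersHom _ (rot 1)] Multiplicative ℤ`, `t = inr (ofAdd 1)` (`t a t⁻¹ = b`, …).  Map
`F3 ⋊ B3 → L` (`SemidirectProduct.lift`) by `x₀ ↦ a b t⁻¹`, `x₁ ↦ b c t⁻¹`, `x₂ ↦ c a t⁻¹`, `β ↦ inl (secB β)`; the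
compatibility holds for `ba`, `bb` (six identities; each is trivial or one braid relation of `KK`) and the set of `β` where
it holds is a subgroup (`b3_mem`).  The composite with `iota` is `inl` (`art_ext`).
`iota_kz2`: `(c a)³ = (x₂ x₀ x₁ · del⁻¹, bz)`.
-/

set_option autoImplicit false

namespace Crest.Agent.R175C

open Crest.GroupTheory

open SemidirectProduct

theorem algK_Ai0 : actA.symm (xx 0) = xx 1 := by
  rw [← actA_1]
  exact actA.symm_apply_apply _

theorem iota_rel : ∀ i j : Fin 3, i ≠ j →
    (![inr ba, inr bb, inl (xx 2 * (xx 0)⁻¹) * inr (ba * bb * ba⁻¹)] : Fin 3 → KH) i *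
      ![inr ba, inr bb, inl (xx 2 * (xx 0)⁻¹) * inr (ba * bb * ba⁻¹)] j *
      ![inr ba, inr bb, inl (xx 2 * (xx 0)⁻¹) * inr (ba * bb * ba⁻¹)] i =
    (![inr ba, inr bb, inl (xx 2 * (xx 0)⁻¹) * inr (ba * bb * ba⁻¹)] : Fin 3 → KH) j *
      ![inr ba, inr bb, inl (xx 2 * (xx 0)⁻¹) * inr (ba * bb * ba⁻¹)] i *
      ![inr ba, inr bb, inl (xx 2 * (xx 0)⁻¹) * inr (ba * bb * ba⁻¹)] j := by
  have h01 : (inr ba : KH) * inr bb * inr ba = inr bb * inr ba * inr bb := by
    simp only [← map_mul, bab]
  set ρ : KH := inl (xx 0)⁻¹ * inr (ba * bb) with hρ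
  set c : KH := inl (xx 2 * (xx 0)⁻¹) * inr (ba * bb * ba⁻¹) with hc
  have e1 : ρ * inr ba = inr bb * ρ := by
    ext
    · simp [hρ]
    · simp [hρ, ← mul_assoc, bab]
  have e2 : ρ * inr bb = c * ρ := by
    ext
    · simp [hρ, hc, algK_Ai0]
    · simp [hρ, hc, mul_assoc]
  have e3 : ρ * c = inr ba * ρ := by
    ext
    · simp [hρ, hc, mul_assoc]
    · simp only [hρ, hc, mul_right, right_inl, right_inr, one_mul]
      calc ba * bb * (ba * bb * ba⁻¹) = ba * (bb * ba * bb) * ba⁻¹ := by simp [mul_assoc]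
        _ = _ := by rw [← bab]; simp [mul_assoc]
  have f1 : inr bb = ρ * inr ba * ρ⁻¹ := by rw [e1]; simp
  have f2 : c = ρ * inr bb * ρ⁻¹ := by rw [e2]; simp
  have f3 : inr ba = ρ * c * ρ⁻¹ := by rw [e3]; simp
  have conj : ∀ x y : KH, x * y * x = y * x * y →
      (ρ * x * ρ⁻¹) * (ρ * y * ρ⁻¹) * (ρ * x * ρ⁻¹) =
        (ρ * y * ρ⁻¹) * (ρ * x * ρ⁻¹) * (ρ * y * ρ⁻¹) := by
    intro x y h
    calc _ = ρ * (x * y * x) * ρ⁻¹ := by group
      _ = ρ * (y * x * y) * ρ⁻¹ := by rw [h]
      _ = _ := by group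
  have h12 := conj _ _ h01
  clear_value ρ c
  rw [← f1, ← f2] at h12
  have h20 := conj _ _ h12
  rw [← f2, ← f3] at h20
  intro i j hij
  fin_cases i <;> fin_cases j
  exacts [absurd rfl hij, h01, h20.symm, h01.symm, absurd rfl hij, h12, h20, h12.symm,
    absurd rfl hij]

/-- the embedding into the annular braid group -/
def iota : KK →* KH := lift3 _ iota_rel

theorem iota_0 : iota (kg 0) = inr ba := lift3_gen ..
theorem iota_1 : iota (kg 1) = inr bb := lift3_gen ..
theorem iota_2 : iota (kg 2) = inl (xx 2 * (xx 0)⁻¹) * inr (ba * bb * ba⁻¹) := lift3_gen ..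

theorem iota_secB (β : B3) : iota (secB β) = inr β := by
  have : iota.comp secB = inr := b3_ext (by simp [secB, iota_0]) (by simp [secB, iota_1])
  exact DFunLike.congr_fun this β

theorem secB_injective : Function.Injective secB := by
  intro β β' h
  have := congrArg iota h
  rwa [iota_secB, iota_secB, inr_inj] at this

theorem esum_xx (i : Fin 3) : esum (xx i) = Multiplicative.ofAdd 1 := by simp [esum, xx]

theorem esum_act (β : B3) (f : F3) : esum (act β f) = esum f := by
  let P : Subgroup B3 :=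
    { carrier := {β | ∀ f, esum (act β f) = esum f}
      one_mem' := fun f => by simp
      mul_mem' := fun {a b} ha hb f => by rw [map_mul, MulAut.mul_apply, ha, hb]
      inv_mem' := fun {a} ha f => by
        rw [← ha (act a⁻¹ f), ← MulAut.mul_apply, ← map_mul, mul_inv_cancel, map_one,
          MulAut.one_apply] }
  have ha : esum.comp (actA : F3 →* F3) = esum :=
    f3_ext (by simp [esum_xx]) (by simp [esum_xx]) (by simp [esum_xx])
  have hb : esum.comp (actB : F3 →* F3) = esum :=
    f3_ext (by simp [esum_xx]) (by simp [esum_xx]) (by simp [esum_xx])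
  refine b3_mem P (fun f => ?_) (fun f => ?_) β f
  · rw [act_ba]
    exact DFunLike.congr_fun ha f
  · rw [act_bb]
    exact DFunLike.congr_fun hb f

theorem esum_iota (k : KK) : esum (iota k).left = 1 := by
  let P : Subgroup KK :=
    { carrier := {k | esum (iota k).left = 1}
      one_mem' := by simp
      mul_mem' := fun {a b} ha hb => by
        simp only [Set.mem_ofPred_eq] at ha hb ⊢
        rw [map_mul, mul_left, map_mul, esum_act, ha, hb, mul_one]
      inv_mem' := fun {a} ha => by
        simp only [Set.mem_ofPred_eq] at ha ⊢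
        rw [map_inv, inv_left, esum_act, map_inv, ha, inv_one] }
  refine art_mem P (fun i => ?_) k
  fin_cases i
  · show esum (iota (kg 0)).left = 1
    simp [iota_0]
  · show esum (iota (kg 1)).left = 1
    simp [iota_1]
  · show esum (iota (kg 2)).left = 1
    simp [iota_2, esum_xx]

theorem iota_kz0 : iota (kz 0) = inr bz := by
  rw [← iota_secB]
  simp [kz, bz, secB]

theorem iota_kz2 : iota (kz 2) = inl (xx 2 * xx 0 * xx 1 * del⁻¹) * inr bz := by
  have e : iota (kg 2 * kg (2 + 1)) = inl (xx 2 * (xx 0)⁻¹) * inr (ba * bb) := by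
    rw [show (2 + 1 : Fin 3) = 0 from rfl, map_mul, iota_2, iota_0, mul_assoc, ← map_mul]
    simp
  rw [kz, map_pow, e]
  ext
  · simp [pow_succ, del, mul_assoc]
  · simp [pow_succ, bz]

/-- `KK` extended by the rotation -/
abbrev algKL : Type := KK ⋊[zpowersHom (MulAut KK) (rot 1)] Multiplicative ℤ

/-- the image of the free group -/
def algKf : F3 →* algKL :=
  FreeGroup.lift fun i => ⟨kg i * kg (i + 1), Multiplicative.ofAdd (-1)⟩

theorem algKf_0 : algKf (xx 0) = ⟨kg 0 * kg 1, Multiplicative.ofAdd (-1)⟩ := by simp [algKf, xx]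
theorem algKf_1 : algKf (xx 1) = ⟨kg 1 * kg 2, Multiplicative.ofAdd (-1)⟩ := by simp [algKf, xx]
theorem algKf_2 : algKf (xx 2) = ⟨kg 2 * kg 0, Multiplicative.ofAdd (-1)⟩ := by simp [algKf, xx]

theorem algK_rot (i : Fin 3) : (rot 1).symm (kg i) = kg (i + 2) := by
  rw [MulEquiv.symm_apply_eq, rot_kg]
  congr 1
  revert i
  decide

theorem algK_rot2 (i : Fin 3) : (rot 1 ^ 2).symm (kg i) = kg (i + 1) := by
  rw [MulEquiv.symm_apply_eq, pow_two, MulAut.mul_apply, rot_kg, rot_kg]
  congr 1
  revert i
  decide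

theorem iota_injective : Function.Injective iota := by
  have hc : ∀ β : B3, algKf.comp (act β).toMonoidHom =
      (MulAut.conj ((inl.comp secB : B3 →* algKL) β)).toMonoidHom.comp algKf := by
    let P : Subgroup B3 :=
      { carrier := {β | ∀ f, algKf (act β f) = inl (secB β) * algKf f * (inl (secB β))⁻¹}
        one_mem' := fun f => by simp
        mul_mem' := fun {a b} ha hb f => by
          rw [map_mul, MulAut.mul_apply, ha, hb, map_mul, map_mul]
          group
        inv_mem' := fun {a} ha f => by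
          have := ha (act a⁻¹ f)
          rw [← MulAut.mul_apply, ← map_mul, mul_inv_cancel, map_one, MulAut.one_apply] at this
          rw [this, map_inv secB, map_inv inl]
          generalize algKf (act a⁻¹ f) = y
          group }
    have h01 := kg_braid (i := 0) (j := 1) (by decide)
    have h12 := kg_braid (i := 1) (j := 2) (by decide)
    have h20 := kg_braid (i := 2) (j := 0) (by decide)
    have ha : algKf.comp (actA : F3 →* F3) =
        (MulAut.conj (inl (kg 0) : algKL) : algKL →* algKL).comp algKf := by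
      refine f3_ext ?_ ?_ ?_
      · ext
        · simp [algKf_0, algKf_1, algK_rot, algK_rot2]
          calc _ = kg 0 * (kg 1 * kg 0 * kg 1) * (kg 0)⁻¹ * (kg 2)⁻¹ := by group
            _ = _ := by rw [← h01]; group
        · simp [algKf_0, algKf_1]
      · ext <;> simp [algKf_0, algKf_1, algK_rot, mul_assoc]
      · ext
        · simp [algKf_2, algK_rot]
          calc _ = kg 2 * kg 0 * kg 2 * (kg 2)⁻¹ := by group
            _ = _ := by rw [h20]; group
        · simp [algKf_2]
    have hb : algKf.comp (actB : F3 →* F3) =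
        (MulAut.conj (inl (kg 1) : algKL) : algKL →* algKL).comp algKf := by
      refine f3_ext ?_ ?_ ?_
      · ext
        · simp [algKf_0, algK_rot]
          calc _ = kg 0 * kg 1 * kg 0 * (kg 0)⁻¹ := by group
            _ = _ := by rw [h01]; group
        · simp [algKf_0]
      · ext
        · simp [algKf_1, algKf_2, algK_rot, algK_rot2]
          calc _ = kg 1 * (kg 2 * kg 1 * kg 2) * (kg 1)⁻¹ * (kg 0)⁻¹ := by group
            _ = _ := by rw [← h12]; group
        · simp [algKf_1, algKf_2]
      · ext <;> simp [algKf_1, algKf_2, algK_rot, mul_assoc]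
    intro β
    have hβ : β ∈ P := by
      refine b3_mem P (fun f => ?_) (fun f => ?_) β
      · simpa [secB] using DFunLike.congr_fun ha f
      · simpa [secB] using DFunLike.congr_fun hb f
    exact MonoidHom.ext hβ
  have key : (SemidirectProduct.lift algKf (inl.comp secB) hc).comp iota = inl := by
    refine art_ext fun i => ?_
    fin_cases i
    · show SemidirectProduct.lift algKf (inl.comp secB) hc (iota (kg 0)) = inl (kg 0)
      simp [iota_0, secB]
    · show SemidirectProduct.lift algKf (inl.comp secB) hc (iota (kg 1)) = inl (kg 1)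
      simp [iota_1, secB]
    · show SemidirectProduct.lift algKf (inl.comp secB) hc (iota (kg 2)) = inl (kg 2)
      rw [iota_2, map_mul, lift_inl, lift_inr]
      ext <;> simp [algKf_0, algKf_2, algK_rot, secB, mul_assoc]
  intro k k' h
  have := congrArg (SemidirectProduct.lift algKf (inl.comp secB) hc) h
  rw [← MonoidHom.comp_apply, ← MonoidHom.comp_apply, key] at this
  exact inl_injective this

end Crest.Agent.R175C
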