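import Crest.Agent.R175C.AlgInf
import Crest.Agent.R175C.AlgK
import Crest.Agent.R175C.AlgCent

/-!
# Row 175, S0264: the Coxeter matrix

`emb_injective`: apply `exists_ext` three times (to `secB`, then to `i₁ ∘ rot 1 ∘ secB`, then to `i₂ ∘ i₁ ∘ rot 2 ∘ secB`), define
`G →* Γ₃` by `artLift` (`tri i ↦ i₃ i₂ i₁ (kg i)`, `arm r k ↦` the image of `s_r (k + 2)`, all other generators `↦ 1`); its
composite with `emb 0` is `i₃ ∘ i₂ ∘ i₁`, and `emb r = emb 0 ∘ rot r`.  `emb_range`: `cent_eq` with `Y = range tri`.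
-/

set_option autoImplicit false

namespace Crest.Agent.R175C

open Crest.GroupTheory

/-- the index set -/
abbrev SS : Type := Fin 3 ⊕ (Fin 3 × Fin 8) ⊕ Bool ⊕ Fin 87

/-- the triangle -/
abbrev tri (i : Fin 3) : SS := Sum.inl i
/-- the arms -/
abbrev arm (r : Fin 3) (k : Fin 8) : SS := Sum.inr (Sum.inl (r, k))
/-- the two cone points -/
abbrev tip (b : Bool) : SS := Sum.inr (Sum.inr (Sum.inl b))

/-- label between the triangle and an arm -/
def labTA (i : Fin 3) (d : Fin 3 × Fin 8) : ℕ :=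
  if i = d.1 + 1 ∧ d.2 = 0 then 3 else if i = d.1 ∨ i = d.1 + 1 then 2 else 0

/-- the labels -/
def lab : SS → SS → ℕ
  | .inl i, .inl j => if i = j then 1 else 3
  | .inl i, .inr (.inl d) => labTA i d
  | .inr (.inl d), .inl i => labTA i d
  | .inr (.inl d), .inr (.inl d') =>
      if d.1 = d'.1 then
        (if d.2 = d'.2 then 1 else if d.2.val + 1 = d'.2.val ∨ d'.2.val + 1 = d.2.val then 3 else 2)
      else 0
  | .inl _, .inr (.inr (.inl _)) => 2
  | .inr (.inr (.inl _)), .inl _ => 2
  | s, t => if s = t then 1 else 0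

theorem lab_symm (s t : SS) : lab s t = lab t s := by
  rcases s with i | d | b | x <;> rcases t with j | d' | b' | x' <;>
    simp only [lab, eq_comm, or_comm]

theorem lab_self (s : SS) : lab s s = 1 := by
  rcases s with i | d | b | x <;> simp [lab]

theorem lab_ne {s t : SS} (h : s ≠ t) : lab s t = 0 ∨ lab s t = 2 ∨ lab s t = 3 := by
  rcases s with i | d | b | x <;> rcases t with j | d' | b' | x' <;>
    simp only [lab, labTA, if_neg h, true_or, or_true]
  · have : i ≠ j := fun e => h (by rw [e])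
    simp [this]
  · split_ifs <;> simp
  · split_ifs <;> simp
  · split_ifs with h1 h2
    · exact absurd (by rw [Prod.ext h1 h2]) h
    all_goals simp

/-- the Coxeter matrix -/
def MM : CoxeterMatrix SS where
  M := Matrix.of lab
  isSymm := by
    ext s t
    exact lab_symm t s
  diagonal := lab_self
  off_diagonal := by
    intro s t h
    have := lab_ne h
    show lab s t ≠ 1
    omega

theorem card_SS : Fintype.card SS = 116 := by simp

/-- the Artin group -/
abbrev GG : Type := ArtinGroup MM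

/-- the path of type `A₁₀` through the edge `r, r + 1` -/
def path (r : Fin 3) : ℕ → GG
  | 0 => artinGen MM (tri r)
  | 1 => artinGen MM (tri (r + 1))
  | k + 2 => if h : k < 8 then artinGen MM (arm r ⟨k, h⟩) else 1

theorem path_braid (r : Fin 3) : Braid 10 (path r) := by
  have hr : r ≠ r + 1 := by revert r; decide
  refine ⟨fun i hi => ?_, fun i j hij hj => ?_⟩
  · match i, hi with
    | 0, _ => exact art_braid (show lab (tri r) (tri (r + 1)) = 3 by simp [lab])
    | 1, _ => exact art_braid (show lab (tri (r + 1)) (arm r ⟨0, by norm_num⟩) = 3 by simp [lab, labTA])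
    | k + 2, hi =>
      have h1 : k < 8 := by omega
      have h2 : k + 1 < 8 := by omega
      simp only [path, dif_pos h1, dif_pos h2]
      exact art_braid (show lab (arm r ⟨k, h1⟩) (arm r ⟨k + 1, h2⟩) = 3 by simp [lab])
  · obtain ⟨l, rfl⟩ : ∃ l, j = l + 2 := ⟨j - 2, by omega⟩
    have h2 : l < 8 := by omega
    match i, hij with
    | 0, _ =>
      simp only [path, dif_pos h2]
      exact art_comm (show lab (tri r) (arm r ⟨l, h2⟩) = 2 by simp [lab, labTA])
    | 1, hij =>
      have h3 : l ≠ 0 := by omega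
      simp only [path, dif_pos h2]
      exact art_comm (show lab (tri (r + 1)) (arm r ⟨l, h2⟩) = 2 by simp [lab, labTA, h3])
    | k + 2, hij =>
      have h1 : k < 8 := by omega
      have a1 : k ≠ l := by omega
      have a2 : k + 1 ≠ l := by omega
      have a3 : l + 1 ≠ k := by omega
      simp only [path, dif_pos h1, dif_pos h2]
      exact art_comm (show lab (arm r ⟨k, h1⟩) (arm r ⟨l, h2⟩) = 2 by simp [lab, a1, a2, a3])

/-- the triangle subgroup, rotated -/
def emb (r : Fin 3) : KK →* GG :=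
  lift3 (fun i => artinGen MM (tri (i + r))) fun i j h =>
    art_braid (show lab (tri (i + r)) (tri (j + r)) = 3 by simp [lab, h])

@[simp] theorem emb_kg (r i : Fin 3) : emb r (kg i) = artinGen MM (tri (i + r)) := lift3_gen ..

theorem AlgMat_braid_map {H H' : Type*} [Group H] [Group H'] (φ : H →* H') {n : ℕ} {s : ℕ → H}
    (h : Braid n s) : Braid n (fun k => φ (s k)) :=
  ⟨fun i hi => by simpa only [map_mul] using congrArg φ (h.1 i hi),
    fun i j hij hj => (h.2 i j hij hj).map φ⟩

/-- the images of the generators -/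
def AlgMat_f {Γ : Type} [Group Γ] (t : Fin 3 → Γ) (s : Fin 3 → ℕ → Γ) : SS → Γ
  | .inl i => t i
  | .inr (.inl d) => s d.1 (d.2.val + 2)
  | .inr (.inr _) => 1

theorem AlgMat_TA {Γ : Type} [Group Γ] {t : Fin 3 → Γ} {s : Fin 3 → ℕ → Γ}
    (hs : ∀ r, Braid 10 (s r)) (h0 : ∀ r, s r 0 = t r) (h1 : ∀ r, s r 1 = t (r + 1))
    (i : Fin 3) (d : Fin 3 × Fin 8) :
    alt (t i) (s d.1 (d.2.val + 2)) (labTA i d) = alt (s d.1 (d.2.val + 2)) (t i) (labTA i d) := by
  obtain ⟨r, k⟩ := d
  have hk := k.isLt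
  unfold labTA
  split_ifs with a b
  · obtain ⟨rfl, a2⟩ := a
    have a3 : k = 0 := a2
    subst a3
    rw [alt_three, alt_three, ← h1]
    exact (hs r).1 1 (by norm_num)
  · rw [alt_two, alt_two]
    rcases b with rfl | rfl
    · rw [← h0]
      exact ((hs _).2 0 _ (by simp) (by simp only []; omega)).eq
    · rw [← h1]
      have a3 : k.val ≠ 0 := fun e => a ⟨rfl, Fin.ext e⟩
      exact ((hs _).2 1 _ (by simp only []; omega) (by simp only []; omega)).eq
  · rfl

theorem AlgMat_one {Γ : Type} [Group Γ] (x : Γ) : alt x 1 2 = alt 1 x 2 := by simp [alt_two]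

theorem AlgMat_rel {Γ : Type} [Group Γ] {t : Fin 3 → Γ} {s : Fin 3 → ℕ → Γ}
    (ht : ∀ i j, i ≠ j → t i * t j * t i = t j * t i * t j)
    (hs : ∀ r, Braid 10 (s r)) (h0 : ∀ r, s r 0 = t r) (h1 : ∀ r, s r 1 = t (r + 1)) (a b : SS) :
    alt (AlgMat_f t s a) (AlgMat_f t s b) (lab a b) =
      alt (AlgMat_f t s b) (AlgMat_f t s a) (lab a b) := by
  by_cases h : a = b
  · rw [h]
  rcases a with i | d | b₁ | x <;> rcases b with j | d' | b' | x' <;>
    simp only [lab, AlgMat_f, if_neg h, alt_zero]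
  · have : i ≠ j := fun e => h (by rw [e])
    rw [if_neg this, alt_three, alt_three, ht i j this]
  · exact AlgMat_TA hs h0 h1 i d'
  · exact AlgMat_one _
  · exact (AlgMat_TA hs h0 h1 j d).symm
  · obtain ⟨r, k⟩ := d
    obtain ⟨r', k'⟩ := d'
    have hk := k.isLt
    have hk' := k'.isLt
    split_ifs with c1 c2 c3
    · exact absurd (by rw [Prod.ext c1 c2]) h
    · obtain rfl : r = r' := c1
      rw [alt_three, alt_three]
      rcases c3 with c3 | c3
      · have c4 : k'.val + 2 = k.val + 2 + 1 := by simp only [] at c3; omega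
        simp only [c4]
        exact (hs r).1 _ (by omega)
      · have c4 : k.val + 2 = k'.val + 2 + 1 := by simp only [] at c3; omega
        simp only [c4]
        exact ((hs r).1 _ (by omega)).symm
    · obtain rfl : r = r' := c1
      rw [alt_two, alt_two]
      have c4 : k.val ≠ k'.val := fun e => c2 (Fin.ext e)
      simp only [not_or] at c3
      rcases lt_or_gt_of_ne c4 with c5 | c5
      · exact ((hs r).2 (k.val + 2) (k'.val + 2) (by omega) (by omega)).eq
      · exact ((hs r).2 (k'.val + 2) (k.val + 2) (by omega) (by omega)).eq.symm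
    · rfl
  · exact (AlgMat_one _).symm

theorem AlgMat_inj0 : Function.Injective (emb 0) := by
  obtain ⟨Γ₁, _, i₁, s₁, j₁, b₁, p₁, q₁⟩ := exists_ext secB secB_injective
  obtain ⟨Γ₂, _, i₂, s₂, j₂, b₂, p₂, q₂⟩ := exists_ext (i₁.comp ((rot 1).toMonoidHom.comp secB))
    (j₁.comp ((rot 1).injective.comp secB_injective))
  obtain ⟨Γ₃, _, i₃, s₃, j₃, b₃, p₃, q₃⟩ :=
    exists_ext (i₂.comp (i₁.comp ((rot 2).toMonoidHom.comp secB)))
      (j₂.comp (j₁.comp ((rot 2).injective.comp secB_injective)))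
  let ψ : KK →* Γ₃ := i₃.comp (i₂.comp i₁)
  let s : Fin 3 → ℕ → Γ₃ := ![fun k => (i₃.comp i₂) (s₁ k), fun k => i₃ (s₂ k), s₃]
  have hs : ∀ r, Braid 10 (s r) := by
    intro r
    fin_cases r
    exacts [AlgMat_braid_map _ (b₁ 10), AlgMat_braid_map _ (b₂ 10), b₃ 10]
  have h0 : ∀ r, s r 0 = ψ (kg r) := by
    intro r
    fin_cases r <;> simp [s, ψ, p₁, p₂, p₃, secB]
  have h1 : ∀ r, s r 1 = ψ (kg (r + 1)) := by
    intro r
    fin_cases r <;> simp [s, ψ, q₁, q₂, q₃, secB]
  have ht : ∀ i j, i ≠ j → ψ (kg i) * ψ (kg j) * ψ (kg i) = ψ (kg j) * ψ (kg i) * ψ (kg j) :=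
    fun i j h => by simpa only [map_mul] using congrArg ψ (kg_braid h)
  let φ : GG →* Γ₃ := artLift MM (AlgMat_f (fun i => ψ (kg i)) s) (AlgMat_rel ht hs h0 h1)
  have e : φ.comp (emb 0) = ψ := art_ext fun i => by
    show φ (emb 0 (kg i)) = ψ (kg i)
    rw [emb_kg, add_zero]
    exact artLift_gen ..
  have hψ : Function.Injective ψ := j₃.comp (j₂.comp j₁)
  rw [← e] at hψ
  exact Function.Injective.of_comp (f := φ) hψ

theorem AlgMat_tip (b : Bool) (s : SS) (hs : s ∉ Set.range tri) (h : s ≠ tip b) :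
    MM.M (tip b) s = 0 := by
  show lab (tip b) s = 0
  rcases s with i | d | b' | x
  · exact absurd ⟨i, rfl⟩ hs
  all_goals simp only [lab, if_neg h.symm]

theorem emb_injective (r : Fin 3) : Function.Injective (emb r) := by
  have e : emb r = (emb 0).comp (rot r).toMonoidHom := art_ext fun i => by
    show emb r (kg i) = emb 0 (rot r (kg i))
    simp
  rw [e]
  exact AlgMat_inj0.comp (rot r).injective

theorem emb_range (r : Fin 3) :
    Subgroup.centralizer {artinGen MM (tip true), artinGen MM (tip false)} = (emb r).range := by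
  rw [cent_eq MM (Set.range tri) (p := tip true) (q := tip false) (by simp) (by simp) (by simp)
    (by rintro _ ⟨i, rfl⟩; rfl) (by rintro _ ⟨i, rfl⟩; rfl) (AlgMat_tip true) (AlgMat_tip false)]
  apply le_antisymm
  · refine (Subgroup.closure_le _).2 ?_
    rintro _ ⟨_, ⟨i, rfl⟩, rfl⟩
    exact ⟨kg (i - r), by simp⟩
  · rintro _ ⟨k, rfl⟩
    refine art_mem ((stdParabolic MM (Set.range tri)).comap (emb r)) (fun i => ?_) k
    show emb r (kg i) ∈ stdParabolic MM (Set.range tri)
    rw [emb_kg]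
    exact Subgroup.subset_closure ⟨_, ⟨_, rfl⟩, rfl⟩

end Crest.Agent.R175C
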