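import Crest.Agent.R175C.GeoW

/-! Row 175 (S0264): centralisers of finite sets are quasi-convex; gluing along `⟨e⟩`. -/

set_option autoImplicit false

namespace Crest.Agent.R175C

open Crest.Geometry

variable {G X : Type*} [Group G] [MetricSpace X] [ProperSpace X] [MulAction G X]

/-- Properness for the compact set `closedBall x R`. -/
theorem finite_disp (hG : IsGeometricAction G X) (x : X) (R : ℝ) :
    {g : G | dist x (g • x) ≤ R}.Finite := by
  refine (hG.2.1 (Metric.closedBall x R) (isCompact_closedBall x R)).subset fun g hg => ?_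
  have hg' : dist x (g • x) ≤ R := hg
  exact ⟨g • x, ⟨x, Metric.mem_closedBall_self (dist_nonneg.trans hg'), rfl⟩,
    Metric.mem_closedBall'.2 hg'⟩

/-- Let `K ⊆ closedBall x ρ` be the compact set of cocompactness, `y = g • k`.  Then
`g⁻¹ e g ∈ T = {γ | dist x (γ x) ≤ R + 2ρ}` for all `e ∈ E`; the map `g ↦ (e ↦ g⁻¹ e g) : G → (E → G)`
takes finitely many values on such `g`; two elements `g, g₀` with the same value have
`g g₀⁻¹ ∈ centralizer E`.  Take `D = ρ + max dist x (g₀ x)` over chosen representatives `g₀`. -/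
theorem near_centralizer (hG : IsGeometricAction G X) (x : X) {E : Set G} (hE : E.Finite) (R : ℝ) :
    ∃ D : ℝ, ∀ y : X, (∀ e ∈ E, dist y (e • y) ≤ R) →
      ∃ h ∈ Subgroup.centralizer E, dist y (h • x) ≤ D := by
  have := hG.1
  obtain ⟨K, hK, hcov⟩ := hG.2.2
  obtain ⟨ρ, hρ⟩ := hK.isBounded.subset_closedBall x
  have hT := finite_disp hG x (R + 2 * ρ)
  have := hE.to_subtype
  let Φ : G → (E → G) := fun g e => g⁻¹ * e.1 * g
  let A : Set G := {g | ∀ e : E, dist x (Φ g e • x) ≤ R + 2 * ρ}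
  have hfin : (Φ '' A).Finite := by
    refine (Set.Finite.pi' (fun _ : E => hT)).subset ?_
    rintro _ ⟨g, hg, rfl⟩ e
    exact hg e
  obtain ⟨B, hBA, hB, hBim⟩ := Set.Finite.exists_subset_finite_image_eq hfin (subset_refl _)
  obtain ⟨D, hD⟩ := (hB.image fun g => dist x (g • x)).bddAbove
  refine ⟨ρ + D, fun y hy => ?_⟩
  obtain ⟨g, k, hk, rfl⟩ := hcov y
  have hkx : dist k x ≤ ρ := hρ hk
  have hgA : g ∈ A := fun e => by
    have h1 := hy e.1 e.2
    have h2 : dist x (Φ g e • x) = dist (g • x) (e.1 • g • x) := by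
      rw [← dist_smul g x]
      simp [Φ, mul_smul]
    have h3 := dist_triangle4 (g • x) (g • k) (e.1 • g • k) (e.1 • g • x)
    simp only [dist_smul] at h3 h1
    rw [dist_comm x k] at h3
    rw [h2]
    linarith
  obtain ⟨g₀, hg₀, hΦ⟩ : Φ g ∈ Φ '' B := hBim.symm ▸ Set.mem_image_of_mem Φ hgA
  refine ⟨g * g₀⁻¹, Subgroup.mem_centralizer_iff.2 fun e he => ?_, ?_⟩
  · have h1 : g₀⁻¹ * e * g₀ = g⁻¹ * e * g := congrFun hΦ ⟨e, he⟩
    calc e * (g * g₀⁻¹) = g * (g⁻¹ * e * g) * g₀⁻¹ := by group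
      _ = g * (g₀⁻¹ * e * g₀) * g₀⁻¹ := by rw [h1]
      _ = g * g₀⁻¹ * e := by group
  · have h1 : dist x (g₀ • x) ≤ D := hD ⟨g₀, hg₀, rfl⟩
    have h2 : dist x (g₀⁻¹ • x) = dist x (g₀ • x) := by
      rw [← dist_smul g₀ x, smul_inv_smul, dist_comm]
    have h3 := dist_triangle k x (g₀⁻¹ • x)
    simp only [mul_smul, dist_smul]
    linarith

/-- CHAIN LEMMA.  `R` bounds `dist x (e x)`, `e ∈ E`; orbit points `h x` (`h` centralising `E`) have
the same displacements, so do the points of a geodesic `γ` from `h x` to `h' x` (`cat0_disp`).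
`M = ⌈dist⌉₊ + 1`, `y l = γ (l * dist / M)`, `c l` from `near_centralizer` for `0 < l < M`,
`c 0 = h`, `c l = h'` for `l ≥ M`; `F = {f ∈ H | dist x (f x) ≤ 2 D + 1}`, `C = 2 D` (`D ≥ 0`). -/
theorem chain_lemma (hX : IsCAT0Space X) (hG : IsGeometricAction G X) (x : X) {E : Set G}
    (hE : E.Finite) :
    ∃ (F : Set G) (C : ℝ), F.Finite ∧ F ⊆ Subgroup.centralizer E ∧
      ∀ h ∈ Subgroup.centralizer E, ∀ h' ∈ Subgroup.centralizer E,
        ∃ (M : ℕ) (c : ℕ → G), (M : ℝ) ≤ dist (h • x) (h' • x) + 2 ∧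
          (∀ l, c l ∈ Subgroup.centralizer E) ∧
          (∀ l < M, ∃ f ∈ F, c (l + 1) = c l * f) ∧ c 0 = h ∧ c M = h' ∧
          ∀ l ≤ M, dist (h • x) (c l • x) + dist (c l • x) (h' • x) ≤ dist (h • x) (h' • x) + C := by
  classical
  have := hG.1
  obtain ⟨R, hR⟩ := (hE.image fun e => dist x (e • x)).bddAbove
  have hRe : ∀ h ∈ Subgroup.centralizer E, ∀ e ∈ E, dist (h • x) (e • h • x) ≤ R := by
    intro h hh e he
    rw [← mul_smul, Subgroup.mem_centralizer_iff.1 hh e he, mul_smul, dist_smul]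
    exact hR ⟨e, he, rfl⟩
  obtain ⟨D₀, hD₀⟩ := near_centralizer hG x hE R
  obtain ⟨D, hD0, hD⟩ : ∃ D : ℝ, 0 ≤ D ∧ ∀ y : X, (∀ e ∈ E, dist y (e • y) ≤ R) →
      ∃ h ∈ Subgroup.centralizer E, dist y (h • x) ≤ D :=
    ⟨max D₀ 0, le_max_right _ _, fun y hy => by
      obtain ⟨h, hh, h1⟩ := hD₀ y hy
      exact ⟨h, hh, h1.trans (le_max_left _ _)⟩⟩
  refine ⟨{f | f ∈ Subgroup.centralizer E ∧ dist x (f • x) ≤ 2 * D + 1}, 2 * D,
    (finite_disp hG x (2 * D + 1)).subset fun f hf => hf.2, fun f hf => hf.1, fun h hh h' hh' => ?_⟩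
  obtain ⟨γ, hγ⟩ := hX.1 (h • x) (h' • x)
  set L := dist (h • x) (h' • x) with hL
  have hL0 : 0 ≤ L := dist_nonneg
  set M : ℕ := ⌈L⌉₊ + 1 with hM
  have hM0 : (0 : ℝ) < M := by rw [hM]; positivity
  have hLM : L ≤ M := by
    rw [hM]; push_cast; linarith [Nat.le_ceil L]
  have hmem : ∀ l ≤ M, (l : ℝ) * L / M ∈ Set.Icc (0 : ℝ) L := fun l hl => by
    have : (l : ℝ) ≤ M := by exact_mod_cast hl
    refine ⟨by positivity, ?_⟩
    rw [div_le_iff₀ hM0]
    nlinarith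
  have hex : ∀ l : ℕ, ∃ k ∈ Subgroup.centralizer E, (l = 0 → k = h) ∧ (l = M → k = h') ∧
      (l ≤ M → dist (γ (l * L / M)) (k • x) ≤ D) := by
    intro l
    by_cases h0 : l = 0
    · subst h0
      refine ⟨h, hh, fun _ => rfl, fun h1 => absurd h1 (by omega), fun _ => ?_⟩
      simp [hγ.1, hD0]
    by_cases h1 : l = M
    · refine ⟨h', hh', fun h2 => absurd h2 h0, fun _ => rfl, fun _ => ?_⟩
      rw [h1, mul_div_cancel_left₀ _ hM0.ne', hγ.2.1]
      simpa using hD0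
    by_cases h2 : l ≤ M
    · obtain ⟨k, hk, h3⟩ := hD (γ (l * L / M)) fun e he =>
        cat0_disp hX e hγ (hmem l h2) (hRe h hh e he) (hRe h' hh' e he)
      exact ⟨k, hk, fun h4 => absurd h4 h0, fun h4 => absurd h4 h1, fun _ => h3⟩
    · exact ⟨1, one_mem _, fun h4 => absurd h4 h0, fun h4 => absurd h4 h1, fun h4 => absurd h4 h2⟩
  choose c hc hc0 hcM hcD using hex
  refine ⟨M, c, ?_, hc, fun l hl => ⟨(c l)⁻¹ * c (l + 1), ⟨mul_mem (inv_mem (hc l)) (hc _), ?_⟩,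
    by group⟩, hc0 0 rfl, hcM M rfl, fun l hl => ?_⟩
  · rw [hM]; push_cast; linarith [Nat.ceil_lt_add_one hL0]
  · rw [← dist_smul (c l), mul_smul, smul_inv_smul]
    have h1 := hcD l hl.le
    have h2 := hcD (l + 1) hl
    have h3 := hγ.2.2 _ (hmem l hl.le) _ (hmem (l + 1) hl)
    have h4 : |(l : ℝ) * L / M - ((l + 1 : ℕ) : ℝ) * L / M| ≤ 1 := by
      rw [show (l : ℝ) * L / M - ((l + 1 : ℕ) : ℝ) * L / M = -(L / M) by push_cast; ring, abs_neg,
        abs_of_nonneg (by positivity), div_le_one hM0]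
      exact hLM
    have h5 := dist_triangle4 (c l • x) (γ (l * L / M)) (γ ((l + 1 : ℕ) * L / M)) (c (l + 1) • x)
    rw [dist_comm] at h1
    linarith
  · have h1 := hcD l hl
    have h2 := hγ.2.2 0 ⟨le_rfl, hL0⟩ _ (hmem l hl)
    have h3 := hγ.2.2 _ (hmem l hl) L ⟨hL0, le_rfl⟩
    rw [hγ.1, zero_sub, abs_neg, abs_of_nonneg (hmem l hl).1] at h2
    rw [hγ.2.1, abs_of_nonpos (sub_nonpos.2 (hmem l hl).2)] at h3
    have h4 := dist_triangle (h • x) (γ (l * L / M)) (c l • x)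
    have h5 := dist_triangle (c l • x) (γ (l * L / M)) (h' • x)
    rw [dist_comm (c l • x) (γ _)] at h5
    linarith

/-- `chain_lemma` and `Sep`: the chain point `c l = eʳ f` is within `max_{f ∈ F'} dist x (f x)` of
`eʳ x`. -/
theorem glue_const (hX : IsCAT0Space X) (hG : IsGeometricAction G X) (x : X) {E : Set G}
    (hE : E.Finite) {e g h : G} (he : e ∈ Subgroup.centralizer E) (hg : g ∈ Subgroup.centralizer E)
    (hh : h ∈ Subgroup.centralizer E) (hS : Sep (Subgroup.centralizer E) g e h) :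
    ∃ C : ℝ, ∀ (n m : ℕ) (i j : ℤ), ∃ r : ℤ,
      dist ((g ^ n * e ^ i) • x) (e ^ r • x) + dist (e ^ r • x) ((h ^ m * e ^ j) • x) ≤
        dist ((g ^ n * e ^ i) • x) ((h ^ m * e ^ j) • x) + C := by
  have := hG.1
  obtain ⟨F, C, hF, -, H⟩ := chain_lemma hX hG x hE
  obtain ⟨F', hF', H'⟩ := hS F hF
  obtain ⟨B, hB⟩ := (hF'.image fun f => dist x (f • x)).bddAbove
  refine ⟨C + 2 * B, fun n m i j => ?_⟩
  obtain ⟨M, c, -, h1, h2, h3, h4, h5⟩ := H _ (mul_mem (pow_mem hg n) (zpow_mem he i)) _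
    (mul_mem (pow_mem hh m) (zpow_mem he j))
  obtain ⟨l, hl, r, f, hf, h6⟩ := H' M c (fun l _ => h1 l) h2 ⟨n, i, h3⟩ ⟨m, j, h4⟩
  refine ⟨r, ?_⟩
  have h7 := h5 l hl
  have h8 : dist (e ^ r • x) (c l • x) ≤ B := by
    rw [h6, mul_smul, dist_smul]
    exact hB ⟨f, hf, rfl⟩
  have h9 := dist_triangle ((g ^ n * e ^ i) • x) (c l • x) (e ^ r • x)
  have h10 := dist_triangle (e ^ r • x) (c l • x) ((h ^ m * e ^ j) • x)
  rw [dist_comm (c l • x)] at h9
  linarith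

/-- `chain_lemma` from `1` to `gⁱ hʲ`: `lam (gⁱ hʲ) ≤ lam 1 + C₀ M`, `C₀ ≥ 0` a common Lipschitz
constant for the finitely many `f ∈ F`. -/
theorem und_lower (hX : IsCAT0Space X) (hG : IsGeometricAction G X) (x : X) {E : Set G}
    (hE : E.Finite) {g h : G} (hg : g ∈ Subgroup.centralizer E) (hh : h ∈ Subgroup.centralizer E)
    (hU : Und (Subgroup.centralizer E) g h) :
    ∃ C : ℝ, 0 < C ∧ ∀ i j : ℤ, |(i : ℝ)| + |(j : ℝ)| ≤ C * dist x ((g ^ i * h ^ j) • x) + C := by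
  obtain ⟨F, C, hF, hFH, H⟩ := chain_lemma hX hG x hE
  obtain ⟨lam, h1, h2⟩ := hU
  choose! Cf hCf using h1
  obtain ⟨B₀, hB₀⟩ := (hF.image Cf).bddAbove
  set B := max B₀ 1 with hB
  have hB1 : 1 ≤ B := le_max_right _ _
  refine ⟨2 * B + |lam 1|, by positivity, fun i j => ?_⟩
  obtain ⟨M, c, h3, h4, h5, h6, h7, -⟩ := H 1 (one_mem _) _ (mul_mem (zpow_mem hg i) (zpow_mem hh j))
  have h8 : ∀ l ≤ M, lam (c l) ≤ lam 1 + B * l := by
    intro l
    induction l with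
    | zero => intro _; simp [h6]
    | succ l ih =>
      intro hl
      obtain ⟨f, hf, h9⟩ := h5 l hl
      have h10 := hCf f (hFH hf) (c l) (h4 l)
      have h11 : Cf f ≤ B := (hB₀ ⟨f, hf, rfl⟩).trans (le_max_left _ _)
      have h12 := ih (Nat.le_of_succ_le hl)
      rw [h9]
      push_cast
      linarith
  have h9 := h8 M le_rfl
  rw [h7] at h9
  rw [one_smul] at h3
  have h10 := h2 i j
  have h11 : 0 ≤ dist x ((g ^ i * h ^ j) • x) := dist_nonneg
  have h12 := le_abs_self (lam 1)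
  have h13 := abs_nonneg (lam 1)
  nlinarith

end Crest.Agent.R175C
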