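import Crest.Agent.R175C.GeoDefs

/-! Row 175 (S0264): the asymptotic cone of an orbit. -/

set_option autoImplicit false

namespace Crest.Agent.R175C

open Filter Topology

variable {G X : Type*} [Group G] [PseudoMetricSpace X] [MulAction G X]

/-- Sequences of group elements moving `x` at most linearly. -/
def Lin (G : Type*) [Group G] [MulAction G X] (x : X) : Type _ :=
  {u : ℕ → G // ∃ C : ℝ, ∀ n : ℕ, dist x (u n • x) ≤ C * n + C}

/-- The cone pseudo-distance. -/
noncomputable def Dc {x : X} (u v : Lin G x) : ℝ :=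
  limUnder (hyperfilter ℕ : Filter ℕ) (fun n : ℕ => dist (u.1 n • x) (v.1 n • x) / n)

/-- A bounded real sequence converges along an ultrafilter
(`isCompact_Icc.ultrafilter_le_nhds` for `Ultrafilter.map`, then `tendsto_nhds_limUnder`). -/
theorem tendsto_Dc {x : X} (u v : Lin G x) :
    Tendsto (fun n : ℕ => dist (u.1 n • x) (v.1 n • x) / n) (hyperfilter ℕ : Filter ℕ)
      (𝓝 (Dc u v)) := by
  obtain ⟨C, hC⟩ := u.2
  obtain ⟨C', hC'⟩ := v.2
  have h0 : 0 ≤ C := by simpa using dist_nonneg.trans (hC 0)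
  have h0' : 0 ≤ C' := by simpa using dist_nonneg.trans (hC' 0)
  have hb : ∀ n : ℕ, dist (u.1 n • x) (v.1 n • x) / n ∈ Set.Icc (0 : ℝ) (2 * (C + C')) := by
    intro n
    refine ⟨by positivity, ?_⟩
    rcases Nat.eq_zero_or_pos n with rfl | hn
    · simp only [Nat.cast_zero, div_zero]; positivity
    · have hn1 : (1 : ℝ) ≤ n := by exact_mod_cast hn
      rw [div_le_iff₀ (by linarith)]
      have h1 := dist_triangle_left (u.1 n • x) (v.1 n • x) x
      nlinarith [hC n, hC' n]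
  obtain ⟨a, -, ha⟩ := isCompact_Icc.ultrafilter_le_nhds
    ((hyperfilter ℕ).map fun n : ℕ => dist (u.1 n • x) (v.1 n • x) / n)
    (by
      rw [Ultrafilter.coe_map, le_principal_iff, mem_map]
      exact Eventually.of_forall hb)
  exact tendsto_nhds_limUnder ⟨a, ha⟩

theorem Dc_nonneg {x : X} (u v : Lin G x) : 0 ≤ Dc u v := by
  exact ge_of_tendsto' (tendsto_Dc u v) fun n => by positivity

theorem Dc_symm {x : X} (u v : Lin G x) : Dc u v = Dc v u := by
  unfold Dc
  simp only [dist_comm]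

theorem Dc_tri {x : X} (u v w : Lin G x) : Dc u w ≤ Dc u v + Dc v w := by
  refine le_of_tendsto_of_tendsto' (tendsto_Dc u w) ((tendsto_Dc u v).add (tendsto_Dc v w))
    fun n => ?_
  rw [← add_div]
  exact div_le_div_of_nonneg_right (dist_triangle _ _ _) (Nat.cast_nonneg n)

theorem Dc_W (hW : WIneq (fun p q : X => dist p q)) (x : X) :
    WIneq (fun u v : Lin G x => Dc u v) := by
  intro p q r u s t hs0 hs1 ht0 ht1
  refine le_of_tendsto_of_tendsto'
    ((((tendsto_Dc p r).pow 2).const_mul (t * (1 - t))).add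
      (((tendsto_Dc q u).pow 2).const_mul (s * (1 - s))))
    ((((((tendsto_Dc p q).pow 2).const_mul ((1 - t) * (1 - s))).add
      (((tendsto_Dc p u).pow 2).const_mul ((1 - t) * s))).add
      (((tendsto_Dc r q).pow 2).const_mul (t * (1 - s)))).add
      (((tendsto_Dc r u).pow 2).const_mul (t * s))) fun n => ?_
  have h := div_le_div_of_nonneg_right
    (hW (p.1 n • x) (q.1 n • x) (r.1 n • x) (u.1 n • x) s t hs0 hs1 ht0 ht1) (sq_nonneg (n : ℝ))
  simp only [div_pow]
  simp only [add_div, mul_div_assoc] at h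
  exact h

theorem dist_zpow_le [IsIsometricSMul G X] (x : X) (g : G) (i : ℤ) :
    dist x (g ^ i • x) ≤ |(i : ℝ)| * dist x (g • x) := by
  have hn : ∀ n : ℕ, dist x (g ^ n • x) ≤ n * dist x (g • x) := by
    intro n
    induction n with
    | zero => simp
    | succ n ih =>
      have h1 := dist_triangle x (g ^ n • x) (g ^ (n + 1) • x)
      rw [pow_succ, mul_smul, dist_smul] at h1
      rw [pow_succ, mul_smul]
      push_cast
      linarith
  obtain ⟨n, rfl | rfl⟩ := Int.eq_nat_or_neg i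
  · simpa using hn n
  · have h1 : dist x (g ^ (-(n : ℤ)) • x) = dist x (g ^ n • x) := by
      rw [← dist_smul (g ^ n), zpow_neg, zpow_natCast, smul_inv_smul, dist_comm]
    rw [h1]
    simpa using hn n

/-- `|⌊α n⌋| ≤ |α| n + 1` and `dist_zpow_le`. -/
theorem seq2_lin [IsIsometricSMul G X] (x : X) (g h : G) (α β : ℝ) :
    ∃ C : ℝ, ∀ n : ℕ, dist x ((g ^ ⌊α * n⌋ * h ^ ⌊β * n⌋) • x) ≤ C * n + C := by
  have hf : ∀ (γ : ℝ) (n : ℕ), |((⌊γ * n⌋ : ℤ) : ℝ)| ≤ |γ| * n + 1 := by
    intro γ n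
    have h1 := Int.floor_le (γ * n)
    have h2 := Int.lt_floor_add_one (γ * n)
    have h3 : |γ * n| = |γ| * n := by rw [abs_mul, Nat.abs_cast]
    have h4 := le_abs_self (γ * n)
    have h5 := neg_abs_le (γ * n)
    rw [abs_le]
    constructor <;> linarith
  set a := dist x (g • x)
  set b := dist x (h • x)
  have ha : 0 ≤ a := dist_nonneg
  have hb : 0 ≤ b := dist_nonneg
  refine ⟨(|α| + 1) * a + (|β| + 1) * b, fun n => ?_⟩
  have h1 := dist_triangle x (g ^ ⌊α * n⌋ • x) ((g ^ ⌊α * n⌋ * h ^ ⌊β * n⌋) • x)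
  rw [mul_smul, dist_smul] at h1
  rw [mul_smul]
  have h2 := (dist_zpow_le x g ⌊α * n⌋).trans (mul_le_mul_of_nonneg_right (hf α n) ha)
  have h3 := (dist_zpow_le x h ⌊β * n⌋).trans (mul_le_mul_of_nonneg_right (hf β n) hb)
  have hn : (0 : ℝ) ≤ n := Nat.cast_nonneg n
  have h4 := mul_nonneg ha hn
  have h5 := mul_nonneg hb hn
  have h6 := mul_nonneg (abs_nonneg α) ha
  have h7 := mul_nonneg (abs_nonneg β) hb
  nlinarith

/-- The cone point `[g^⌊α n⌋ h^⌊β n⌋]`. -/
noncomputable def seq2 [IsIsometricSMul G X] (x : X) (g h : G) (α β : ℝ) : Lin G x :=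
  ⟨fun n => g ^ ⌊α * n⌋ * h ^ ⌊β * n⌋, seq2_lin x g h α β⟩

theorem seq2_ray [IsIsometricSMul G X] (x : X) (g e h : G) (t : ℝ) :
    seq2 x g e 0 t = seq2 x e h t 0 := by
  refine Subtype.ext (funext fun n => ?_)
  simp [seq2]

end Crest.Agent.R175C
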