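import Crest.Agent.R175C.Alg0

/-! Row 175 (S0264): definitions shared by the geometric and the algebraic half. -/

set_option autoImplicit false

namespace Crest.Agent.R175C

open Filter Topology

/-- The four-point inequality (W): for `m` on `[p,r]` at parameter `t` and `m'` on `[q,u]` at
parameter `s` it says `0 ≤ d(m,m')²`. -/
def WIneq {P : Type*} (D : P → P → ℝ) : Prop :=
  ∀ (p q r u : P) (s t : ℝ), 0 ≤ s → s ≤ 1 → 0 ≤ t → t ≤ 1 →
    t * (1 - t) * D p r ^ 2 + s * (1 - s) * D q u ^ 2 ≤
      (1 - t) * (1 - s) * D p q ^ 2 + (1 - t) * s * D p u ^ 2 + t * (1 - s) * D r q ^ 2 +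
        t * s * D r u ^ 2

/-- The quadrilateral inequality (diagonals `pr`, `qu`). -/
def Quad (X : Type*) [PseudoMetricSpace X] : Prop :=
  ∀ p q r u : X, dist p r ^ 2 + dist q u ^ 2 ≤
    dist p q ^ 2 + dist p u ^ 2 + dist r q ^ 2 + dist r u ^ 2

theorem WIneq.quad {X : Type*} [PseudoMetricSpace X] (h : WIneq (fun p q : X => dist p q)) :
    Quad X := by
  intro p q r u
  have := h p q r u (1 / 2) (1 / 2) (by norm_num) (by norm_num) (by norm_num) (by norm_num)
  simp only at this
  linarith

/-- Stable translation length `lim d(x, gⁿ x) / n`. -/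
noncomputable def tl {G X : Type*} [Group G] [PseudoMetricSpace X] [MulAction G X] (x : X)
    (g : G) : ℝ :=
  limUnder atTop (fun n : ℕ => dist x (g ^ n • x) / n)

/-- The polarised pairing of the squared translation length. -/
noncomputable def pr {G X : Type*} [Group G] [PseudoMetricSpace X] [MulAction G X] (x : X)
    (g h : G) : ℝ :=
  (tl x (g * h) ^ 2 - tl x (g * h⁻¹) ^ 2) / 4

end Crest.Agent.R175C
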