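import Crest.Agent.R175C.GeoQn

/-! Row 175 (S0264): six Euclidean sectors of angle `< π/3` cannot be glued to a full disc in a
space satisfying (W). -/

set_option autoImplicit false

namespace Crest.Agent.R175C

/-- Sector `f` is isometric to the plane spanned by two unit vectors with inner product `c`. -/
def IsSector {P : Type*} (D : P → P → ℝ) (c : ℝ) (f : ℝ → ℝ → P) : Prop :=
  ∀ s t s' t', D (f s t) (f s' t') = qn c (s - s') (t - t')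

/-- The second ray of `f` is the first ray of `f'`, and every path from the open half plane `s > 0`
of `f` to the open half plane `t' > 0` of `f'` goes through the common line. -/
def IsGlued {P : Type*} (D : P → P → ℝ) (c c' : ℝ) (f f' : ℝ → ℝ → P) : Prop :=
  (∀ t, f 0 t = f' t 0) ∧
    ∀ s t s' t' δ : ℝ, 0 < s → 0 < t' → (∀ r, δ ≤ qn c s (t - r) + qn c' (s' - r) t') →
      δ ≤ D (f s t) (f' s' t')

theorem fan_qn_unfold (α β γ s t r : ℝ) :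
    qn (Real.cos (γ - α)) s (-t) ≤
      qn (Real.cos (β - α)) s (0 - r) + qn (Real.cos (γ - β)) (0 - r) t := by
  rw [zero_sub, ← qn_neg (Real.cos (γ - β)), neg_neg, qn_eq_norm, qn_eq_norm, qn_eq_norm]
  refine le_trans (le_of_eq ?_) (norm_add_le _ _)
  congr 1
  push_cast
  ring

theorem fan_qn_line {α β k : ℝ} (hk : 0 ≤ k) (ha : Real.cos α ≠ 0) (hb : Real.cos β ≠ 0)
    (h : Real.tan α ≤ Real.tan β) :
    qn (Real.cos (β - α)) (k / Real.cos α) (-(k / Real.cos β)) =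
      k * (Real.tan β - Real.tan α) := by
  unfold qn
  rw [← Real.sqrt_sq (mul_nonneg hk (sub_nonneg.2 h))]
  congr 1
  rw [Real.cos_sub, Real.tan_eq_sin_div_cos, Real.tan_eq_sin_div_cos]
  have h1 := Real.sin_sq_add_cos_sq α
  have h2 := Real.sin_sq_add_cos_sq β
  field_simp
  linear_combination (-(k ^ 2 * Real.cos β ^ 2)) * h1 - (k ^ 2 * Real.cos α ^ 2) * h2

theorem fan_arccos {c : ℝ} (hc : 1 / 2 < c ∧ c < 1) :
    ∃ θ : ℝ, 0 < θ ∧ θ < Real.pi / 3 ∧ Real.cos θ = c := by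
  refine ⟨Real.arccos c, Real.arccos_pos.2 hc.2, ?_, Real.cos_arccos (by linarith) hc.2.le⟩
  have h : Real.arccos (1 / 2) = Real.pi / 3 := by
    rw [← Real.cos_pi_div_three]
    exact Real.arccos_cos (by positivity) (by linarith [Real.pi_pos])
  rw [← h]
  exact Real.strictAntiOn_arccos ⟨by norm_num, by norm_num⟩ ⟨by linarith, hc.2.le⟩ hc.1

/-- HALF FAN.  `θ i = arccos (c i) ∈ (0, π/3)`; unfold in `ℂ`: `u 0 = 1`, `u 1 = e^{iθ₀}`,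
`u 2 = e^{i(θ₀+θ₁)}`, `u 3 = e^{i(θ₀+θ₁+θ₂)}`, total angle `< π`.  The chord from `u 0` to `u 3` meets
ray `1` at `m₁ = r₁ u 1` and ray `2` at `m₂ = r₂ u 2`, `r₁, r₂ > 0`, in this order (with
`ψ` half the total angle, `r_i = cos ψ / cos (φ_i - ψ)`; after rotating by `-ψ` the four points
have real part `cos ψ` and increasing imaginary parts `cos ψ tan (φ_i - ψ)`).  Gluing and
`qn_eq_norm` give `D u₀ m₂ ≥ ‖u₀ - m₂‖ = D u₀ m₁ + D m₁ m₂` and `D m₁ u₃ ≥ D m₁ m₂ + D m₂ u₃`;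
`WIneq.concat` gives `D u₀ u₃ = D u₀ m₁ + D m₁ m₂ + D m₂ u₃`.  The points
`w = f₀ (1 - λ) (λ r₁)`, `0 < λ < 1`, lie on this geodesic with `D u₀ w = λ D u₀ m₁`. -/
theorem half_fan {P : Type*} {D : P → P → ℝ} (hW : WIneq D) (h0 : ∀ p q, 0 ≤ D p q)
    (hs : ∀ p q, D p q = D q p) (ht : ∀ p q r, D p r ≤ D p q + D q r)
    {c₀ c₁ c₂ : ℝ} (hc₀ : 1 / 2 < c₀ ∧ c₀ < 1) (hc₁ : 1 / 2 < c₁ ∧ c₁ < 1)
    (hc₂ : 1 / 2 < c₂ ∧ c₂ < 1) {f₀ f₁ f₂ : ℝ → ℝ → P}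
    (i₀ : IsSector D c₀ f₀) (i₁ : IsSector D c₁ f₁) (i₂ : IsSector D c₂ f₂)
    (g₁ : IsGlued D c₀ c₁ f₀ f₁) (g₂ : IsGlued D c₁ c₂ f₁ f₂) :
    ∃ ε₀ : ℝ, 0 < ε₀ ∧ ∀ ε : ℝ, 0 < ε → ε < ε₀ → ∃ s t : ℝ, 0 < t ∧
      D (f₀ 1 0) (f₀ s t) = ε ∧
      D (f₀ 1 0) (f₂ 0 1) = D (f₀ 1 0) (f₀ s t) + D (f₀ s t) (f₂ 0 1) := by
  obtain ⟨θ₀, p₀, q₀, rfl⟩ := fan_arccos hc₀
  obtain ⟨θ₁, p₁, q₁, rfl⟩ := fan_arccos hc₁
  obtain ⟨θ₂, p₂, q₂, rfl⟩ := fan_arccos hc₂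
  obtain ⟨ψ, hψ⟩ : ∃ ψ : ℝ, ψ = (θ₀ + θ₁ + θ₂) / 2 := ⟨_, rfl⟩
  obtain ⟨α₁, hα₁⟩ : ∃ a : ℝ, a = θ₀ - ψ := ⟨_, rfl⟩
  obtain ⟨α₂, hα₂⟩ : ∃ a : ℝ, a = θ₀ + θ₁ - ψ := ⟨_, rfl⟩
  have e₀ : θ₀ = α₁ - -ψ := by linarith
  have e₁ : θ₁ = α₂ - α₁ := by linarith
  have e₂ : θ₂ = ψ - α₂ := by linarith
  have m0 : -ψ ∈ Set.Ioo (-(Real.pi / 2)) (Real.pi / 2) := ⟨by linarith, by linarith⟩
  have m1 : α₁ ∈ Set.Ioo (-(Real.pi / 2)) (Real.pi / 2) := ⟨by linarith, by linarith⟩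
  have m2 : α₂ ∈ Set.Ioo (-(Real.pi / 2)) (Real.pi / 2) := ⟨by linarith, by linarith⟩
  have m3 : ψ ∈ Set.Ioo (-(Real.pi / 2)) (Real.pi / 2) := ⟨by linarith, by linarith⟩
  have c0 := Real.cos_pos_of_mem_Ioo m0
  have c1 := Real.cos_pos_of_mem_Ioo m1
  have c2 := Real.cos_pos_of_mem_Ioo m2
  have c3 := Real.cos_pos_of_mem_Ioo m3
  have t01 := Real.strictMonoOn_tan m0 m1 (by linarith)
  have t12 := Real.strictMonoOn_tan m1 m2 (by linarith)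
  have t23 := Real.strictMonoOn_tan m2 m3 (by linarith)
  have r0 : Real.cos ψ / Real.cos (-ψ) = 1 := by rw [Real.cos_neg, div_self c3.ne']
  have r3 : Real.cos ψ / Real.cos ψ = 1 := div_self c3.ne'
  have L01 := fan_qn_line c3.le c0.ne' c1.ne' t01.le
  have L12 := fan_qn_line c3.le c1.ne' c2.ne' t12.le
  have L23 := fan_qn_line c3.le c2.ne' c3.ne' t23.le
  have L02 := fan_qn_line c3.le c0.ne' c2.ne' (t01.le.trans t12.le)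
  have L13 := fan_qn_line c3.le c1.ne' c3.ne' (t12.le.trans t23.le)
  rw [r0] at L01 L02
  rw [r3] at L23 L13
  have hr₁ : 0 < Real.cos ψ / Real.cos α₁ := div_pos c3 c1
  have hr₂ : 0 < Real.cos ψ / Real.cos α₂ := div_pos c3 c2
  rw [e₀] at i₀ g₁
  rw [e₁] at i₁ g₁ g₂
  rw [e₂] at i₂ g₂
  generalize Real.cos ψ / Real.cos α₁ = r₁ at *
  generalize Real.cos ψ / Real.cos α₂ = r₂ at *
  have d01 : D (f₀ 1 0) (f₀ 0 r₁) = Real.cos ψ * (Real.tan α₁ - Real.tan (-ψ)) := by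
    rw [i₀, sub_zero, zero_sub, L01]
  have d12 : D (f₀ 0 r₁) (f₁ 0 r₂) = Real.cos ψ * (Real.tan α₂ - Real.tan α₁) := by
    rw [g₁.1, i₁, sub_zero, zero_sub, L12]
  have d23 : D (f₁ 0 r₂) (f₂ 0 1) = Real.cos ψ * (Real.tan ψ - Real.tan α₂) := by
    rw [g₂.1, i₂, sub_zero, zero_sub, L23]
  have d02 : D (f₀ 1 0) (f₁ 0 r₂) = D (f₀ 1 0) (f₀ 0 r₁) + D (f₀ 0 r₁) (f₁ 0 r₂) := by
    refine le_antisymm (ht _ _ _) ?_
    have := g₁.2 1 0 0 r₂ _ one_pos hr₂ fun r => fan_qn_unfold (-ψ) α₁ α₂ 1 r₂ r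
    rw [L02] at this
    rw [d01, d12]
    linarith
  have d13 : D (f₀ 0 r₁) (f₂ 0 1) = D (f₀ 0 r₁) (f₁ 0 r₂) + D (f₁ 0 r₂) (f₂ 0 1) := by
    refine le_antisymm (ht _ _ _) ?_
    have := g₂.2 r₁ 0 0 1 _ hr₁ one_pos fun r => fan_qn_unfold α₁ α₂ ψ r₁ 1 r
    rw [L13, ← g₁.1] at this
    rw [d12, d23]
    linarith
  have d03 := hW.concat h0 hs ht d02 d13 (by rw [d12]; exact mul_pos c3 (sub_pos.2 t12))
  have ha : 0 < D (f₀ 1 0) (f₀ 0 r₁) := by rw [d01]; exact mul_pos c3 (sub_pos.2 t01)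
  refine ⟨_, ha, fun ε h1 h2 => ?_⟩
  obtain ⟨l, hl⟩ : ∃ l : ℝ, l = ε / D (f₀ 1 0) (f₀ 0 r₁) := ⟨_, rfl⟩
  have l0 : 0 < l := hl ▸ div_pos h1 ha
  have l1 : l < 1 := hl ▸ (div_lt_one ha).2 h2
  have w1 : D (f₀ 1 0) (f₀ (1 - l) (l * r₁)) = l * D (f₀ 1 0) (f₀ 0 r₁) := by
    rw [i₀, i₀, show 1 - (1 - l) = l * (1 - 0) by ring, show 0 - l * r₁ = l * (0 - r₁) by ring,
      qn_smul, abs_of_pos l0]
  have w2 : D (f₀ (1 - l) (l * r₁)) (f₀ 0 r₁) = (1 - l) * D (f₀ 1 0) (f₀ 0 r₁) := by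
    rw [i₀, i₀, show 1 - l - 0 = (1 - l) * (1 - 0) by ring,
      show l * r₁ - r₁ = (1 - l) * (0 - r₁) by ring, qn_smul, abs_of_pos (sub_pos.2 l1)]
  refine ⟨1 - l, l * r₁, mul_pos l0 hr₁, ?_, le_antisymm (ht _ _ _) ?_⟩
  · rw [w1, hl, div_mul_cancel₀ _ ha.ne']
  · have := ht (f₀ (1 - l) (l * r₁)) (f₀ 0 r₁) (f₂ 0 1)
    rw [w2, d13] at this
    rw [w1, d03]
    linarith

theorem IsSector.swap {P : Type*} {D : P → P → ℝ} {c : ℝ} {f : ℝ → ℝ → P} (h : IsSector D c f) :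
    IsSector D c (fun s t => f t s) := by
  intro s t s' t'
  rw [qn_comm]
  exact h t s t' s'

theorem IsGlued.swap {P : Type*} {D : P → P → ℝ} (hs : ∀ p q, D p q = D q p) {c c' : ℝ}
    {f f' : ℝ → ℝ → P} (h : IsGlued D c c' f f') :
    IsGlued D c' c (fun s t => f' t s) (fun s t => f t s) := by
  refine ⟨fun t => (h.1 t).symm, fun s t s' t' δ h1 h2 h3 => ?_⟩
  rw [hs]
  refine h.2 t' s' t s δ h2 h1 fun r => ?_
  have := h3 r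
  rw [qn_comm c' s, qn_comm c (s' - r)] at this
  linarith

/-- FAN LEMMA. -/
theorem fan_lemma {P : Type*} {D : P → P → ℝ} (hW : WIneq D) (h0 : ∀ p q, 0 ≤ D p q)
    (hs : ∀ p q, D p q = D q p) (ht : ∀ p q r, D p r ≤ D p q + D q r)
    (c : Fin 6 → ℝ) (hc : ∀ k, 1 / 2 < c k ∧ c k < 1) (f : Fin 6 → ℝ → ℝ → P)
    (hi : ∀ k, IsSector D (c k) (f k))
    (hg : ∀ k, IsGlued D (c k) (c (k + 1)) (f k) (f (k + 1))) : False := by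
  obtain ⟨ε₁, h1, H1⟩ := half_fan hW h0 hs ht (hc 0) (hc 1) (hc 2) (hi 0) (hi 1) (hi 2) (hg 0) (hg 1)
  obtain ⟨ε₂, h2, H2⟩ := half_fan hW h0 hs ht (hc 5) (hc 4) (hc 3) (hi 5).swap (hi 4).swap
    (hi 3).swap ((hg 4).swap hs) ((hg 3).swap hs)
  have hε : 0 < min ε₁ ε₂ / 2 := half_pos (lt_min h1 h2)
  obtain ⟨s, t, ht0, a1, a2⟩ := H1 _ hε (by linarith [min_le_left ε₁ ε₂])
  obtain ⟨s', t', ht0', b1, b2⟩ := H2 _ hε (by linarith [min_le_right ε₁ ε₂])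
  have e0 : f 5 0 1 = f 0 1 0 := (hg 5).1 1
  have e3 : f 2 0 1 = f 3 1 0 := (hg 2).1 1
  simp only [e0] at b1 b2
  rw [← e3] at b2
  have hpos : 0 < D (f 0 1 0) (f 2 0 1) := by
    rw [a2, a1]; linarith [h0 (f 0 s t) (f 2 0 1)]
  have hz := hW.unique h0 hs b2 a2 (b1.trans a1.symm) hpos
  have hc5 : |c 5| ≤ 1 := abs_le.2 ⟨by linarith [(hc 5).1], (hc 5).2.le⟩
  have hq : 0 < Real.sqrt (1 - c 5 ^ 2) * |t'| :=
    mul_pos (Real.sqrt_pos.2 (by nlinarith [(hc 5).1, (hc 5).2])) (abs_pos.2 ht0'.ne')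
  have := (hg 5).2 t' s' s t _ ht0' ht0 fun r =>
    (le_qn hc5 t' (s' - r)).trans (le_add_of_nonneg_right (qn_nonneg _ _ _))
  have e5 : (5 : Fin 6) + 1 = 0 := rfl
  rw [e5, hz] at this
  linarith

end Crest.Agent.R175C
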