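import Crest.Agent.R175C.GeoDefs

/-! Row 175 (S0264): the plane norm `qn` and two consequences of (W). -/

set_option autoImplicit false

namespace Crest.Agent.R175C

/-- Length of `s u + t v` for unit vectors `u, v` with inner product `c`. -/
noncomputable def qn (c s t : ℝ) : ℝ := Real.sqrt (s ^ 2 + 2 * c * s * t + t ^ 2)

theorem qn_comm (c s t : ℝ) : qn c s t = qn c t s := by
  unfold qn; congr 1; ring

theorem qn_neg (c s t : ℝ) : qn c (-s) (-t) = qn c s t := by
  unfold qn; congr 1; ring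

theorem qn_nonneg (c s t : ℝ) : 0 ≤ qn c s t := Real.sqrt_nonneg _

/-- `‖s u + t v‖² = s² + 2 s t cos (β - α) + t²`. -/
theorem qn_eq_norm (α β s t : ℝ) :
    qn (Real.cos (β - α)) s t =
      ‖(s : ℂ) * Complex.exp (α * Complex.I) + (t : ℂ) * Complex.exp (β * Complex.I)‖ := by
  unfold qn
  rw [Complex.norm_eq_sqrt_sq_add_sq]
  congr 1
  simp only [Complex.add_re, Complex.add_im, Complex.re_ofReal_mul, Complex.im_ofReal_mul,
    Complex.exp_ofReal_mul_I_re, Complex.exp_ofReal_mul_I_im]
  rw [Real.cos_sub]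
  have h1 := Real.sin_sq_add_cos_sq α
  have h2 := Real.sin_sq_add_cos_sq β
  linear_combination (-s ^ 2) * h1 - t ^ 2 * h2

/-- Write `c = cos (arccos c - 0)` and use `qn_eq_norm`. -/
theorem qn_add_le {c : ℝ} (hc : |c| ≤ 1) (s t s' t' : ℝ) :
    qn c (s + s') (t + t') ≤ qn c s t + qn c s' t' := by
  have e : c = Real.cos (Real.arccos c - 0) := by
    rw [sub_zero, Real.cos_arccos (abs_le.1 hc).1 (abs_le.1 hc).2]
  rw [e, qn_eq_norm, qn_eq_norm, qn_eq_norm]
  refine le_trans (le_of_eq ?_) (norm_add_le _ _)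
  congr 1
  push_cast
  ring

theorem qn_le {c : ℝ} (hc : |c| ≤ 1) (s t : ℝ) : qn c s t ≤ |s| + |t| := by
  unfold qn
  refine Real.sqrt_le_iff.2 ⟨by positivity, ?_⟩
  have h1 : c * (s * t) ≤ |s| * |t| := by
    refine (le_abs_self _).trans ?_
    rw [abs_mul, abs_mul]
    exact mul_le_of_le_one_left (by positivity) hc
  nlinarith [sq_abs s, sq_abs t]

theorem qn_smul (c l s t : ℝ) : qn c (l * s) (l * t) = |l| * qn c s t := by
  unfold qn
  rw [← Real.sqrt_sq_eq_abs, ← Real.sqrt_mul (sq_nonneg l)]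
  congr 1
  ring

/-- `s² + 2 c s t + t² = (t + c s)² + (1 - c²) s²`. -/
theorem le_qn {c : ℝ} (hc : |c| ≤ 1) (s t : ℝ) : Real.sqrt (1 - c ^ 2) * |s| ≤ qn c s t := by
  unfold qn
  have h : 0 ≤ 1 - c ^ 2 := by nlinarith [sq_abs c, abs_nonneg c]
  rw [← Real.sqrt_sq_eq_abs, ← Real.sqrt_mul h]
  refine Real.sqrt_le_sqrt ?_
  nlinarith [sq_nonneg (t + c * s)]

/-- Local-to-global for geodesics.  With `a = D p q`, `b = D q r`, `c = D r u`, apply (W) to the
diagonals `p r` (parameter `t = (a + b/2)/(a+b)`) and `q u` (parameter `s = (b/2)/(b+c)`); for four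
points `0, a, a+b, a+b+c` of the real line (W) is an equality at these parameters, and the
coefficient `(1-t) s` of `D p u ^ 2` is positive. -/
theorem WIneq.concat {P : Type*} {D : P → P → ℝ} (hW : WIneq D) (h0 : ∀ p q, 0 ≤ D p q)
    (hs : ∀ p q, D p q = D q p) (ht : ∀ p q r, D p r ≤ D p q + D q r) {p q r u : P}
    (h1 : D p r = D p q + D q r) (h2 : D q u = D q r + D r u) (hb : 0 < D q r) :
    D p u = D p q + D q r + D r u := by
  have ha := h0 p q
  have hc := h0 r u
  have hX := h0 p u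
  have hle : D p u ≤ D p q + D q r + D r u := by
    have := ht p r u
    linarith
  refine le_antisymm hle ?_
  have hab : 0 < D p q + D q r := by linarith
  have hbc : 0 < D q r + D r u := by linarith
  have key := hW p q r u ((D q r / 2) / (D q r + D r u)) ((D p q + D q r / 2) / (D p q + D q r))
    (by positivity) (by rw [div_le_one hbc]; linarith) (by positivity)
    (by rw [div_le_one hab]; linarith)
  rw [h1, h2, hs r q] at key
  generalize D p q = a at *
  generalize D q r = b at *
  generalize D r u = c at *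
  generalize D p u = X at *
  have e : (a + b / 2) / (a + b) * (1 - (a + b / 2) / (a + b)) * (a + b) ^ 2 +
      b / 2 / (b + c) * (1 - b / 2 / (b + c)) * (b + c) ^ 2 =
      (1 - (a + b / 2) / (a + b)) * (1 - b / 2 / (b + c)) * a ^ 2 +
        (1 - (a + b / 2) / (a + b)) * (b / 2 / (b + c)) * (a + b + c) ^ 2 +
        (a + b / 2) / (a + b) * (1 - b / 2 / (b + c)) * b ^ 2 +
        (a + b / 2) / (a + b) * (b / 2 / (b + c)) * c ^ 2 := by
    field_simp
    ring
  have hpos : 0 < (1 - (a + b / 2) / (a + b)) * (b / 2 / (b + c)) := by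
    refine mul_pos (sub_pos.2 ?_) (by positivity)
    rw [div_lt_one hab]
    linarith
  have h3 : (a + b + c) ^ 2 ≤ X ^ 2 := le_of_mul_le_mul_left (by linarith) hpos
  exact (pow_le_pow_iff_left₀ (by positivity) hX two_ne_zero).1 h3

/-- Uniqueness of geodesics: (W) for the diagonals `p r` (parameter `D p q / D p r`) and `q q'`
(parameter `1/2`). -/
theorem WIneq.unique {P : Type*} {D : P → P → ℝ} (hW : WIneq D) (h0 : ∀ p q, 0 ≤ D p q)
    (hs : ∀ p q, D p q = D q p) {p q q' r : P} (h1 : D p r = D p q + D q r)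
    (h2 : D p r = D p q' + D q' r) (h3 : D p q = D p q') (hpos : 0 < D p r) : D q q' = 0 := by
  have ha := h0 p q
  have hb := h0 q r
  have key := hW p q r q' (1 / 2) (D p q / D p r) (by norm_num) (by norm_num) (by positivity)
    (by rw [div_le_one hpos]; linarith)
  have e1 : D r q = D p r - D p q := by rw [hs r q]; linarith
  have e2 : D r q' = D p r - D p q := by rw [hs r q']; linarith
  rw [e1, e2, ← h3] at key
  generalize D p q = a at *
  generalize D p r = L at *
  have e : a / L * (1 - a / L) * L ^ 2 = (1 - a / L) * (1 - 1 / 2) * a ^ 2 +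
      (1 - a / L) * (1 / 2) * a ^ 2 + a / L * (1 - 1 / 2) * (L - a) ^ 2 +
      a / L * (1 / 2) * (L - a) ^ 2 := by
    field_simp
    ring
  have h4 : D q q' ^ 2 ≤ 0 := by linarith
  exact pow_eq_zero_iff (two_ne_zero) |>.1 (le_antisymm h4 (sq_nonneg _))

end Crest.Agent.R175C
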