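import Crest.Agent.R175C.GeoN
import Crest.Agent.R175C.GeoCone
import Crest.Agent.R175C.GeoQn

/-! Row 175 (S0264): commuting pairs give Euclidean planes in the cone. -/

set_option autoImplicit false

namespace Crest.Agent.R175C

open Filter Topology

variable {G X : Type*} [Group G] [PseudoMetricSpace X] [MulAction G X] [IsIsometricSMul G X]

theorem flat_dist_natAbs (x : X) (g : G) (i : ℤ) :
    dist x (g ^ i • x) = dist x (g ^ i.natAbs • x) := by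
  rcases Int.natAbs_eq i with h | h
  · conv_lhs => rw [h, zpow_natCast]
  · conv_lhs => rw [h, zpow_neg, zpow_natCast, ← dist_smul (g ^ i.natAbs), smul_inv_smul, dist_comm]

/-- For every `ε > 0` there is `K` with `dist x (gⁱ x)² - i² tl g² ≤ ε i² + K` for all `i : ℤ`
(`tendsto_tl`; negative `i` by the isometry `g^|i|`). -/
theorem dist_zpow_sq_le (x : X) (g : G) {ε : ℝ} (hε : 0 < ε) :
    ∃ K : ℝ, ∀ i : ℤ, dist x (g ^ i • x) ^ 2 ≤ i ^ 2 * tl x g ^ 2 + ε * i ^ 2 + K := by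
  have h1 : Tendsto (fun n : ℕ => (dist x (g ^ n • x) / n) ^ 2) atTop (𝓝 (tl x g ^ 2)) :=
    (tendsto_tl x g).pow 2
  obtain ⟨N, hN⟩ := eventually_atTop.1
    ((h1.eventually (gt_mem_nhds (lt_add_of_pos_right _ hε))).and (eventually_gt_atTop 0))
  have key : ∀ n : ℕ, dist x (g ^ n • x) ^ 2 ≤ (n : ℝ) ^ 2 * tl x g ^ 2 + ε * (n : ℝ) ^ 2 +
      ∑ m ∈ Finset.range N, dist x (g ^ m • x) ^ 2 := by
    intro n
    have h0 : 0 ≤ ∑ m ∈ Finset.range N, dist x (g ^ m • x) ^ 2 :=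
      Finset.sum_nonneg fun _ _ => by positivity
    rcases lt_or_ge n N with hn | hn
    · have := Finset.single_le_sum (f := fun m => dist x (g ^ m • x) ^ 2)
        (fun _ _ => by positivity) (Finset.mem_range.2 hn)
      have h2 : 0 ≤ (n : ℝ) ^ 2 * tl x g ^ 2 + ε * (n : ℝ) ^ 2 := by positivity
      linarith
    · obtain ⟨h2, h3⟩ := hN n hn
      have hn' : (0 : ℝ) < n := by exact_mod_cast h3
      rw [div_pow, div_lt_iff₀ (by positivity)] at h2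
      linarith
  refine ⟨∑ m ∈ Finset.range N, dist x (g ^ m • x) ^ 2, fun i => ?_⟩
  rw [flat_dist_natAbs]
  have := key i.natAbs
  rwa [Nat.cast_natAbs, Int.cast_abs, sq_abs] at this

theorem flat_err (hQ : Quad X) (x : X) {g h : G} (hc : Commute g h) (i j : ℤ) :
    0 ≤ dist x ((g ^ i * h ^ j) • x) ^ 2 -
        (i ^ 2 * tl x g ^ 2 + 2 * i * j * pr x g h + j ^ 2 * tl x h ^ 2) ∧
      dist x ((g ^ i * h ^ j) • x) ^ 2 -
        (i ^ 2 * tl x g ^ 2 + 2 * i * j * pr x g h + j ^ 2 * tl x h ^ 2) ≤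
      2 * (dist x (g ^ i • x) ^ 2 - i ^ 2 * tl x g ^ 2) +
        2 * (dist x (h ^ j • x) ^ 2 - j ^ 2 * tl x h ^ 2) := by
  have h0 : ∀ k : G, tl x k ^ 2 ≤ dist x (k • x) ^ 2 := fun k =>
    pow_le_pow_left₀ (tl_nonneg x k) (tl_le x k) 2
  have hc' : Commute (g ^ i) (h ^ j) := hc.zpow_zpow i j
  have h1 := quad_comm hQ x hc'
  have h2 := tl_parallelogram hQ x hc'
  have h3 := tl_zpow_sq hQ x hc i 0
  have h4 := tl_zpow_sq hQ x hc 0 j
  rw [zpow_zero, mul_one] at h3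
  rw [zpow_zero, one_mul] at h4
  rw [← tl_zpow_sq hQ x hc i j]
  have h5 := h0 (g ^ i * h ^ j)
  have h6 := h0 (g ^ i * (h ^ j)⁻¹)
  push_cast at h3 h4
  constructor <;> linarith

/-- `Γ γ = dist x (γ x)² - tl γ² ≥ 0` (`tl_le`) satisfies `Γ (γ γ') ≤ 2 Γ γ + 2 Γ γ'` on commuting
elements (`quad_comm`, `tl_parallelogram`); so `0 ≤ dist x (gⁱ hʲ x)² - Q(i,j) ≤ 2ε(i²+j²) + 2K`
(`tl_zpow_sq`, `dist_zpow_sq_le`). -/
theorem flat_tendsto (hQ : Quad X) (x : X) {g h : G} (hc : Commute g h) (a b : ℕ → ℤ) (α β : ℝ)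
    (ha : Tendsto (fun n : ℕ => (a n : ℝ) / n) atTop (𝓝 α))
    (hb : Tendsto (fun n : ℕ => (b n : ℝ) / n) atTop (𝓝 β)) :
    Tendsto (fun n : ℕ => (dist x ((g ^ a n * h ^ b n) • x) / n) ^ 2) atTop
      (𝓝 (α ^ 2 * tl x g ^ 2 + 2 * α * β * pr x g h + β ^ 2 * tl x h ^ 2)) := by
  have hq : Tendsto (fun n : ℕ => ((a n : ℝ) / n) ^ 2 * tl x g ^ 2 +
      2 * ((a n : ℝ) / n) * ((b n : ℝ) / n) * pr x g h + ((b n : ℝ) / n) ^ 2 * tl x h ^ 2) atTop
      (𝓝 (α ^ 2 * tl x g ^ 2 + 2 * α * β * pr x g h + β ^ 2 * tl x h ^ 2)) :=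
    (((ha.pow 2).mul_const _).add (((ha.const_mul 2).mul hb).mul_const _)).add
      ((hb.pow 2).mul_const _)
  have he : Tendsto (fun n : ℕ => (dist x ((g ^ a n * h ^ b n) • x) ^ 2 -
      ((a n) ^ 2 * tl x g ^ 2 + 2 * (a n) * (b n) * pr x g h + (b n) ^ 2 * tl x h ^ 2)) / (n : ℝ) ^ 2)
      atTop (𝓝 0) := by
    refine tendsto_order.2 ⟨fun c hc' => Eventually.of_forall fun n =>
      hc'.trans_le (div_nonneg (flat_err hQ x hc _ _).1 (by positivity)), fun c hc' => ?_⟩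
    have hS : 0 < α ^ 2 + β ^ 2 + 1 := by positivity
    have hε : 0 < c / (2 * (α ^ 2 + β ^ 2 + 1)) := by positivity
    obtain ⟨K₁, h1⟩ := dist_zpow_sq_le x g hε
    obtain ⟨K₂, h2⟩ := dist_zpow_sq_le x h hε
    have hlt : 2 * (c / (2 * (α ^ 2 + β ^ 2 + 1))) * (α ^ 2 + β ^ 2) + 2 * (K₁ + K₂) * 0 ^ 2 < c := by
      have e : 2 * (c / (2 * (α ^ 2 + β ^ 2 + 1))) * (α ^ 2 + β ^ 2 + 1) = c := by field_simp
      nlinarith
    generalize c / (2 * (α ^ 2 + β ^ 2 + 1)) = ε at *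
    have h3 : Tendsto (fun n : ℕ => 2 * ε * (((a n : ℝ) / n) ^ 2 + ((b n : ℝ) / n) ^ 2) +
        2 * (K₁ + K₂) * (1 / (n : ℝ)) ^ 2) atTop
        (𝓝 (2 * ε * (α ^ 2 + β ^ 2) + 2 * (K₁ + K₂) * 0 ^ 2)) :=
      (((ha.pow 2).add (hb.pow 2)).const_mul _).add
        ((tendsto_one_div_atTop_nhds_zero_nat.pow 2).const_mul _)
    filter_upwards [h3.eventually (gt_mem_nhds hlt)] with n hn
    refine lt_of_le_of_lt ?_ hn
    have e : 2 * ε * (((a n : ℝ) / n) ^ 2 + ((b n : ℝ) / n) ^ 2) +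
        2 * (K₁ + K₂) * (1 / (n : ℝ)) ^ 2 =
        (2 * ε * ((a n : ℝ) ^ 2 + (b n : ℝ) ^ 2) + 2 * (K₁ + K₂)) / (n : ℝ) ^ 2 := by ring
    rw [e]
    refine div_le_div_of_nonneg_right ?_ (by positivity)
    have := (flat_err hQ x hc (a n) (b n)).2
    have := h1 (a n)
    have := h2 (b n)
    linarith
  have := hq.add he
  rw [add_zero] at this
  refine this.congr fun n => ?_
  ring

theorem flat_floor (α : ℝ) : Tendsto (fun n : ℕ => ((⌊α * n⌋ : ℤ) : ℝ) / n) atTop (𝓝 α) := by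
  have h1 : Tendsto (fun n : ℕ => α - 1 / (n : ℝ)) atTop (𝓝 α) := by
    simpa using (tendsto_const_nhds (x := α)).sub tendsto_one_div_atTop_nhds_zero_nat
  refine tendsto_of_tendsto_of_tendsto_of_le_of_le' h1 tendsto_const_nhds ?_ ?_
  · filter_upwards [eventually_gt_atTop 0] with n hn
    have hn' : (0 : ℝ) < n := by exact_mod_cast hn
    rw [le_div_iff₀ hn', sub_mul, one_div, inv_mul_cancel₀ hn'.ne']
    exact (Int.sub_one_lt_floor _).le
  · filter_upwards [eventually_gt_atTop 0] with n hn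
    have hn' : (0 : ℝ) < n := by exact_mod_cast hn
    rw [div_le_iff₀ hn']
    exact Int.floor_le _

theorem flat_floor_sub (α α' : ℝ) :
    Tendsto (fun n : ℕ => ((⌊α * n⌋ - ⌊α' * n⌋ : ℤ) : ℝ) / n) atTop (𝓝 (α - α')) := by
  refine ((flat_floor α).sub (flat_floor α')).congr fun n => ?_
  rw [Int.cast_sub, sub_div]

/-- `flat_tendsto` for `a n = ⌊α' n⌋ - ⌊α n⌋` etc., `hyperfilter ℕ ≤ atTop`, uniqueness of limits. -/
theorem Dc_seq2 (hQ : Quad X) (x : X) {g h : G} (hc : Commute g h) (hg : 0 < tl x g)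
    (hh : 0 < tl x h) (s t s' t' : ℝ) :
    Dc (seq2 x g h (s / tl x g) (t / tl x h)) (seq2 x g h (s' / tl x g) (t' / tl x h)) =
      qn (pr x g h / (tl x g * tl x h)) (s - s') (t - t') := by
  have h1 := (flat_tendsto hQ x hc _ _ _ _ (flat_floor_sub (s / tl x g) (s' / tl x g))
    (flat_floor_sub (t / tl x h) (t' / tl x h))).sqrt
  have e : (s / tl x g - s' / tl x g) ^ 2 * tl x g ^ 2 +
      2 * (s / tl x g - s' / tl x g) * (t / tl x h - t' / tl x h) * pr x g h +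
      (t / tl x h - t' / tl x h) ^ 2 * tl x h ^ 2 =
      (s - s') ^ 2 + 2 * (pr x g h / (tl x g * tl x h)) * (s - s') * (t - t') + (t - t') ^ 2 := by
    field_simp
  rw [e] at h1
  refine tendsto_nhds_unique (tendsto_Dc _ _) ((h1.mono_left Nat.hyperfilter_le_atTop).congr fun n => ?_)
  rw [Real.sqrt_sq (div_nonneg dist_nonneg (Nat.cast_nonneg _))]
  congr 1
  show _ = dist ((g ^ ⌊s / tl x g * n⌋ * h ^ ⌊t / tl x h * n⌋) • x)
    ((g ^ ⌊s' / tl x g * n⌋ * h ^ ⌊t' / tl x h * n⌋) • x)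
  generalize ⌊s / tl x g * n⌋ = i
  generalize ⌊t / tl x h * n⌋ = j
  generalize ⌊s' / tl x g * n⌋ = i'
  generalize ⌊t' / tl x h * n⌋ = j'
  rw [← dist_smul (g ^ i' * h ^ j'), dist_comm, ← mul_smul,
    (hc.symm.zpow_zpow j' (i - i')).mul_mul_mul_comm, ← zpow_add, ← zpow_add, add_sub_cancel,
    add_sub_cancel]

end Crest.Agent.R175C
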