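import Crest.Agent.R175C.GeoN
import Crest.Agent.R175C.GeoCone
import Crest.Agent.R175C.GeoQn

/-! Row 175 (S0264): gluing of two planes in the cone. -/

set_option autoImplicit false

namespace Crest.Agent.R175C

open Filter Topology

variable {G X : Type*} [Group G] [PseudoMetricSpace X] [MulAction G X] [IsIsometricSMul G X]

/-- `tl_zpow_sq` in normalised form, and `tl_le`. -/
theorem qn_le_dist (hQ : Quad X) (x : X) {g h : G} (hc : Commute g h) (hg : 0 < tl x g)
    (hh : 0 < tl x h) (i j : ℤ) :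
    qn (pr x g h / (tl x g * tl x h)) (i * tl x g) (j * tl x h) ≤ dist x ((g ^ i * h ^ j) • x) := by
  refine le_trans (le_of_eq ?_) (tl_le x (g ^ i * h ^ j))
  unfold qn
  rw [← Real.sqrt_sq (tl_nonneg x (g ^ i * h ^ j)), tl_zpow_sq hQ x hc]
  congr 1
  field_simp

/-- For large `n` the exponents `a = ⌊s n / tl g⌋`, `b' = ⌊t' n / tl h⌋` are `≥ 0`; `hC` gives `r`;
by `qn_le_dist` the two distances are at least `qn c (a tl g) ((b - r) tl e)` and
`qn c' ((a' - r) tl e) (b' tl h)`, which by `qn_add_le`, `qn_le`, `qn_smul` are at least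
`n qn c s (t - ρ) - tl g - tl e` and `n qn c' (s' - ρ) t' - tl e - tl h` for `ρ = r tl e / n`.
So `n δ ≤ dist + C + K`; divide by `n` and pass to the limit (`tendsto_Dc`). -/
theorem Dc_glue (hQ : Quad X) (x : X) {g e h : G} (hge : Commute g e) (heh : Commute e h)
    (hg : 0 < tl x g) (he : 0 < tl x e) (hh : 0 < tl x h)
    (h1 : |pr x g e / (tl x g * tl x e)| ≤ 1) (h2 : |pr x e h / (tl x e * tl x h)| ≤ 1) {C : ℝ}
    (hC : ∀ (n m : ℕ) (i j : ℤ), ∃ r : ℤ,
      dist ((g ^ n * e ^ i) • x) (e ^ r • x) + dist (e ^ r • x) ((h ^ m * e ^ j) • x) ≤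
        dist ((g ^ n * e ^ i) • x) ((h ^ m * e ^ j) • x) + C)
    (s t s' t' δ : ℝ) (hs : 0 < s) (ht' : 0 < t')
    (hδ : ∀ r : ℝ, δ ≤ qn (pr x g e / (tl x g * tl x e)) s (t - r) +
      qn (pr x e h / (tl x e * tl x h)) (s' - r) t') :
    δ ≤ Dc (seq2 x g e (s / tl x g) (t / tl x e)) (seq2 x e h (s' / tl x e) (t' / tl x h)) := by
  set c := pr x g e / (tl x g * tl x e) with hc
  set c' := pr x e h / (tl x e * tl x h) with hc'
  have fl : ∀ (a τ : ℝ) (n : ℕ), 0 < τ → |n * a - (⌊a / τ * n⌋ : ℝ) * τ| ≤ τ := by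
    intro a τ n hτ
    have e1 : n * a - (⌊a / τ * n⌋ : ℝ) * τ = (a / τ * n - ⌊a / τ * n⌋) * τ := by
      field_simp
    rw [e1, abs_mul, abs_of_pos hτ]
    refine mul_le_of_le_one_left hτ.le (abs_le.2 ⟨?_, ?_⟩)
    · linarith [Int.floor_le (a / τ * n)]
    · linarith [Int.lt_floor_add_one (a / τ * n)]
  have key : ∀ n : ℕ, 1 ≤ n → δ ≤
      dist ((seq2 x g e (s / tl x g) (t / tl x e)).1 n • x)
        ((seq2 x e h (s' / tl x e) (t' / tl x h)).1 n • x) / n +
        (C + tl x g + 2 * tl x e + tl x h) / n := by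
    intro n hn
    have hn0 : (0 : ℝ) < n := by exact_mod_cast hn
    obtain ⟨a, ha⟩ := Int.eq_ofNat_of_zero_le
      (Int.floor_nonneg.2 (show 0 ≤ s / tl x g * n by positivity))
    obtain ⟨b', hb'⟩ := Int.eq_ofNat_of_zero_le
      (Int.floor_nonneg.2 (show 0 ≤ t' / tl x h * n by positivity))
    have f1 := fl s _ n hg
    have f2 := fl t _ n he
    have f3 := fl s' _ n he
    have f4 := fl t' _ n hh
    simp only [seq2]
    rw [ha] at f1 ⊢
    rw [hb'] at f4 ⊢
    generalize ⌊t / tl x e * n⌋ = b at *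
    generalize ⌊s' / tl x e * n⌋ = a' at *
    obtain ⟨r, hr⟩ := hC a b' b a'
    have e1 : dist ((g ^ a * e ^ b) • x) (e ^ r • x) =
        dist x ((g ^ (-(a : ℤ)) * e ^ (r - b)) • x) := by
      rw [← dist_smul (g ^ a * e ^ b) x, ← mul_smul]
      congr 2
      rw [mul_assoc, ← mul_assoc (e ^ b), ← ((hge.zpow_zpow (-(a : ℤ)) b)).eq, ← zpow_natCast]
      group
    have e2 : dist (e ^ r • x) ((h ^ b' * e ^ a') • x) =
        dist x ((e ^ (a' - r) * h ^ (b' : ℤ)) • x) := by
      rw [← dist_smul (e ^ r) x, ← mul_smul]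
      congr 2
      rw [← zpow_natCast, ← (heh.zpow_zpow a' b').eq]
      group
    have e3 : h ^ b' * e ^ a' = e ^ a' * h ^ (b' : ℤ) := by
      rw [← zpow_natCast, (heh.zpow_zpow a' b').eq]
    have l1 := qn_le_dist hQ x hge hg he (-(a : ℤ)) (r - b)
    have l2 := qn_le_dist hQ x heh he hh (a' - r) b'
    rw [← hc, ← qn_neg] at l1
    rw [← hc'] at l2
    rw [e1, e2, e3] at hr
    have m := hδ (r * tl x e / n)
    have m1 : n * qn c s (t - r * tl x e / n) ≤
        qn c (-((-(a : ℤ) : ℤ) * tl x g)) (-((r - b : ℤ) * tl x e)) + (tl x g + tl x e) := by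
      rw [← show |(n : ℝ)| * _ = n * qn c s (t - r * tl x e / n) by rw [abs_of_pos hn0], ← qn_smul]
      have := qn_add_le h1 (-((-(a : ℤ) : ℤ) * tl x g)) (-((r - b : ℤ) * tl x e))
        (n * s - ((a : ℤ) : ℝ) * tl x g) (n * t - b * tl x e)
      have h5 := qn_le h1 (n * s - ((a : ℤ) : ℝ) * tl x g) (n * t - b * tl x e)
      refine le_trans (le_of_eq ?_) (this.trans (by linarith))
      congr 1
      · push_cast; ring
      · push_cast; field_simp; ring
    have m2 : n * qn c' (s' - r * tl x e / n) t' ≤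
        qn c' ((a' - r : ℤ) * tl x e) (((b' : ℕ) : ℤ) * tl x h) + (tl x e + tl x h) := by
      rw [← show |(n : ℝ)| * _ = n * qn c' (s' - r * tl x e / n) t' by rw [abs_of_pos hn0],
        ← qn_smul]
      have := qn_add_le h2 ((a' - r : ℤ) * tl x e) (((b' : ℕ) : ℤ) * tl x h)
        (n * s' - a' * tl x e) (n * t' - ((b' : ℤ) : ℝ) * tl x h)
      have h5 := qn_le h2 (n * s' - a' * tl x e) (n * t' - ((b' : ℤ) : ℝ) * tl x h)
      refine le_trans (le_of_eq ?_) (this.trans (by linarith))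
      congr 1
      · push_cast; field_simp; ring
      · push_cast; ring
    rw [← add_div, le_div_iff₀ hn0, zpow_natCast g]
    nlinarith
  have lim := (tendsto_Dc (seq2 x g e (s / tl x g) (t / tl x e))
    (seq2 x e h (s' / tl x e) (t' / tl x h))).add
    ((tendsto_const_div_atTop_nhds_zero_nat (C + tl x g + 2 * tl x e + tl x h)).mono_left
      Nat.hyperfilter_le_atTop)
  rw [add_zero] at lim
  exact ge_of_tendsto lim (((eventually_ge_atTop 1).mono key).filter_mono Nat.hyperfilter_le_atTop)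

end Crest.Agent.R175C
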