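import Crest.Agent.R175C.GeoN

/-! Row 175 (S0264): `pr x g ·` is a homomorphism on the centraliser of `g`. -/

set_option autoImplicit false

namespace Crest.Agent.R175C

open Filter Topology

variable {G X : Type*} [Group G] [PseudoMetricSpace X] [MulAction G X] [IsIsometricSMul G X]

/-- With `D m = φ (m+1) - φ m`: `D m ≤ D (m-1) + C`, so `0 ≤ φ M ≤ φ 0 + M D 0 + C M²` and
`0 ≤ φ (-M) ≤ φ 0 - M D 0 + C M²`. -/
theorem semiconcave_slope (φ : ℤ → ℝ) (C : ℝ) (hC : 0 ≤ C) (h0 : ∀ m, 0 ≤ φ m)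
    (h2 : ∀ m, φ (m + 1) + φ (m - 1) ≤ 2 * φ m + C) (M : ℕ) (hM : 1 ≤ M) :
    |φ 1 - φ 0| ≤ φ 0 / M + C * M := by
  have a1 : ∀ n : ℕ, φ (n + 1) - φ n ≤ (φ 1 - φ 0) + n * C := by
    intro n
    induction n with
    | zero => simp
    | succ n ih =>
      have := h2 (n + 1)
      rw [add_sub_cancel_right] at this
      push_cast
      linarith
  have a2 : ∀ n : ℕ, φ n ≤ φ 0 + n * (φ 1 - φ 0) + C * n ^ 2 := by
    intro n
    induction n with
    | zero => simp
    | succ n ih =>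
      have := a1 n
      have h3 : (0 : ℝ) ≤ n * C := by positivity
      push_cast
      nlinarith
  have b1 : ∀ n : ℕ, (φ 1 - φ 0) - n * C ≤ φ (-n + 1) - φ (-n) := by
    intro n
    induction n with
    | zero => simp
    | succ n ih =>
      have := h2 (-n)
      have e1 : (-((n + 1 : ℕ) : ℤ) + 1) = -n := by push_cast; ring
      have e2 : (-((n + 1 : ℕ) : ℤ)) = -n - 1 := by push_cast; ring
      rw [e1, e2]
      push_cast
      linarith
  have b2 : ∀ n : ℕ, φ (-n) ≤ φ 0 - n * (φ 1 - φ 0) + C * n ^ 2 := by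
    intro n
    induction n with
    | zero => simp
    | succ n ih =>
      have := b1 (n + 1)
      have e1 : (-((n + 1 : ℕ) : ℤ) + 1) = -n := by push_cast; ring
      rw [e1] at this
      have h3 : (0 : ℝ) ≤ n * C := by positivity
      push_cast at this ⊢
      nlinarith
  have hM' : (0 : ℝ) < M := by exact_mod_cast hM
  have c1 := (h0 _).trans (a2 M)
  have c2 := (h0 _).trans (b2 M)
  have e : φ 0 / M + C * M = (φ 0 + C * M ^ 2) / M := by field_simp
  rw [e, le_div_iff₀ hM', ← abs_of_pos hM', ← abs_mul, abs_of_pos hM', abs_le]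
  constructor <;> linarith

/-- Put `Γ γ = dist x (γ • x)² - tl γ² ≥ 0`.  By `quad_comm` and `tl_parallelogram`,
`φ m = Γ (gᵏ hᵐ)` satisfies `semiconcave_slope` with `C = 2 Γ h`, and `φ 0 = Γ (gᵏ) = o(k²)`
(`tendsto_tl`, `tl_pow`).  With `M = ⌈η k⌉`: `|φ 1 - φ 0| / k ≤ Γ(gᵏ) / (η k²) + C (η + 1/k)`.
Finally `tl (gᵏ h)² - tl (gᵏ)² = 2 k pr g h + tl h²` (`tl_zpow_sq`). -/
theorem tendsto_pr (hQ : Quad X) (x : X) {g h : G} (hc : Commute g h) :
    Tendsto (fun k : ℕ => (dist x ((g ^ k * h) • x) ^ 2 - dist x (g ^ k • x) ^ 2) / k) atTop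
      (𝓝 (2 * pr x g h)) := by
  set Γ : G → ℝ := fun γ => dist x (γ • x) ^ 2 - tl x γ ^ 2 with hΓ
  have hΓ0 : ∀ γ, 0 ≤ Γ γ := fun γ =>
    sub_nonneg.2 (pow_le_pow_left₀ (tl_nonneg x γ) (tl_le x γ) 2)
  set C := 2 * Γ h with hC
  have hC0 : 0 ≤ C := by have := hΓ0 h; positivity
  have hslope : ∀ (k M : ℕ), 1 ≤ M → |Γ (g ^ k * h) - Γ (g ^ k)| ≤ Γ (g ^ k) / M + C * M := by
    intro k M hM
    have := semiconcave_slope (fun m => Γ (g ^ k * h ^ m)) C hC0 (fun m => hΓ0 _) (fun m => by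
      have hcm : Commute (g ^ k * h ^ m) h :=
        (hc.pow_left k).mul_left ((Commute.refl h).zpow_left m)
      have q1 := quad_comm hQ x hcm
      have q2 := tl_parallelogram hQ x hcm
      simp only [hΓ, hC, zpow_add_one, zpow_sub_one, ← mul_assoc]
      linarith) M hM
    simpa using this
  have hsmall : Tendsto (fun k : ℕ => Γ (g ^ k) / (k : ℝ) ^ 2) atTop (𝓝 0) := by
    have h1 := ((tendsto_tl x g).pow 2).sub_const (tl x g ^ 2)
    rw [sub_self] at h1
    refine h1.congr' ?_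
    filter_upwards [eventually_ge_atTop 1] with k hk
    have hk' : (k : ℝ) ≠ 0 := by positivity
    simp only [hΓ, tl_pow]
    field_simp
  have hinv : Tendsto (fun k : ℕ => 1 / (k : ℝ)) atTop (𝓝 0) := tendsto_one_div_atTop_nhds_zero_nat
  have hΔ : Tendsto (fun k : ℕ => (Γ (g ^ k * h) - Γ (g ^ k)) / k) atTop (𝓝 0) := by
    rw [Metric.tendsto_nhds]
    intro ε hε
    set η := ε / (4 * (C + 1)) with hη
    have hη0 : 0 < η := by positivity
    have hCη : C * η ≤ ε / 4 := by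
      rw [hη, mul_div_assoc', div_le_div_iff₀ (by positivity) (by norm_num)]
      nlinarith
    filter_upwards [eventually_ge_atTop 1, hsmall.eventually_lt_const
      (show (0 : ℝ) < ε / 4 * η by positivity), hinv.eventually_lt_const hη0] with k hk h1 h2
    have hk' : (0 : ℝ) < k := by exact_mod_cast hk
    have hM0 : 0 < η * k := by positivity
    have hM1 : η * k ≤ (⌈η * k⌉₊ : ℝ) := Nat.le_ceil _
    have hM2 : (⌈η * k⌉₊ : ℝ) < η * k + 1 := Nat.ceil_lt_add_one hM0.le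
    have h3 := hslope k ⌈η * k⌉₊ (Nat.ceil_pos.2 hM0)
    rw [div_lt_iff₀ hk'] at h2
    rw [div_lt_iff₀ (by positivity)] at h1
    have h4 : Γ (g ^ k) / (⌈η * k⌉₊ : ℝ) ≤ ε / 4 * k := by
      rw [div_le_iff₀ (hM0.trans_le hM1)]
      have : ε / 4 * k * (η * k) ≤ ε / 4 * k * (⌈η * k⌉₊ : ℝ) :=
        mul_le_mul_of_nonneg_left hM1 (by positivity)
      nlinarith
    have h5 : C * (⌈η * k⌉₊ : ℝ) ≤ ε / 2 * k := by
      have a1 : C * (⌈η * k⌉₊ : ℝ) ≤ C * (2 * (η * k)) :=
        mul_le_mul_of_nonneg_left (by linarith) hC0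
      have a2 : C * η * k ≤ ε / 4 * k := mul_le_mul_of_nonneg_right hCη hk'.le
      nlinarith
    rw [dist_zero_right, Real.norm_eq_abs, abs_div, abs_of_pos hk', div_lt_iff₀ hk']
    nlinarith
  have hfin := (hΔ.add_const (2 * pr x g h)).add (hinv.const_mul (tl x h ^ 2))
  rw [zero_add, mul_zero, add_zero] at hfin
  refine hfin.congr' ?_
  filter_upwards [eventually_ge_atTop 1] with k hk
  have hk' : (k : ℝ) ≠ 0 := by positivity
  have e := tl_zpow_sq hQ x hc k 1
  rw [zpow_natCast, zpow_one] at e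
  simp only [hΓ, tl_pow, e]
  push_cast
  field_simp
  ring

/-- `Quad` twice (points `y = h⁻¹ x`, `y' = x`, `z = gᵏ x`, `z' = gᵏ h' x`) gives
`|τ k (h h') - τ k h - τ k h'| ≤ dist x (h x)² + dist x (h' x)²` for
`τ k h = dist x (gᵏ h x)² - dist x (gᵏ x)²`; divide by `k` and use `tendsto_pr`. -/
theorem pr_mul (hQ : Quad X) (x : X) {g h h' : G} (hc : Commute g h) (hc' : Commute g h') :
    pr x g (h * h') = pr x g h + pr x g h' := by
  have h1 := ((tendsto_pr hQ x (hc.mul_right hc')).sub (tendsto_pr hQ x hc)).sub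
    (tendsto_pr hQ x hc')
  set K := dist x (h • x) ^ 2 + dist x (h' • x) ^ 2 with hK
  have h2 : Tendsto (fun k : ℕ => K / (k : ℝ)) atTop (𝓝 0) :=
    tendsto_const_div_atTop_nhds_zero_nat K
  have h3 : Tendsto (fun k : ℕ =>
      (dist x ((g ^ k * (h * h')) • x) ^ 2 - dist x (g ^ k • x) ^ 2) / k -
        (dist x ((g ^ k * h) • x) ^ 2 - dist x (g ^ k • x) ^ 2) / k -
        (dist x ((g ^ k * h') • x) ^ 2 - dist x (g ^ k • x) ^ 2) / k) atTop (𝓝 0) := by
    refine squeeze_zero_norm (fun k => ?_) h2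
    rw [← sub_div, ← sub_div, Real.norm_eq_abs, abs_div, Nat.abs_cast]
    refine div_le_div_of_nonneg_right ?_ (Nat.cast_nonneg _)
    have e1 : dist x ((g ^ k * (h * h')) • x) = dist (h⁻¹ • x) ((g ^ k * h') • x) := by
      rw [← dist_smul h (h⁻¹ • x), smul_inv_smul, smul_smul, ← mul_assoc, ← mul_assoc,
        (hc.pow_left k).eq]
    have e2 : dist x ((g ^ k * h) • x) = dist (h⁻¹ • x) (g ^ k • x) := by
      rw [← dist_smul h (h⁻¹ • x), smul_inv_smul, smul_smul, (hc.pow_left k).eq]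
    have e3 : dist (h⁻¹ • x) x = dist x (h • x) := by
      rw [← dist_smul h (h⁻¹ • x), smul_inv_smul]
    have e4 : dist (g ^ k • x) ((g ^ k * h') • x) = dist x (h' • x) := by
      rw [mul_smul, dist_smul]
    have q1 := hQ (h⁻¹ • x) x ((g ^ k * h') • x) (g ^ k • x)
    have q2 := hQ (h⁻¹ • x) x (g ^ k • x) ((g ^ k * h') • x)
    rw [dist_comm ((g ^ k * h') • x) x, dist_comm ((g ^ k * h') • x) (g ^ k • x), e3, e4] at q1
    rw [dist_comm (g ^ k • x) x, e3, e4] at q2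
    rw [e1, e2, abs_le]
    constructor <;> linarith
  have := tendsto_nhds_unique h1 h3
  linarith

theorem pairing_pr (hQ : Quad X) (x : X) : Pairing (pr (G := G) x) where
  symm _ _ hc := pr_symm x hc
  add _ _ _ hc hc' := pr_mul hQ x hc hc'
  nonneg g := by rw [pr_self]; positivity
  conj k g := by rw [pr_self, pr_self, tl_conj]

end Crest.Agent.R175C
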