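import Crest.Agent.R175C.GeoN

/-! Row 175 (S0264): undistorted planes are non-degenerate. -/

set_option autoImplicit false

namespace Crest.Agent.R175C

open Filter Topology

variable {G X : Type*} [Group G] [PseudoMetricSpace X] [MulAction G X] [IsIsometricSMul G X]

/-- Apply `hC` to `(n i, n j)` and `tendsto_tl`: `|i| + |j| ≤ C tl (gⁱ hʲ)`.  So
`Q (i, j) ≥ ε (i² + j²)`, `ε = 1 / C²` (`tl_zpow_sq`), hence
`(tl g² - ε) q² + 2 pr q + (tl h² - ε) ≥ 0` for rational, so for all real `q`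
(`Rat.denseRange_cast`), and `discrim_le_zero`. -/
theorem strict_cs (hQ : Quad X) (x : X) {g h : G} (hc : Commute g h) {C : ℝ} (hC0 : 0 < C)
    (hC : ∀ i j : ℤ, |(i : ℝ)| + |(j : ℝ)| ≤ C * dist x ((g ^ i * h ^ j) • x) + C) :
    0 < tl x g ∧ 0 < tl x h ∧ pr x g h ^ 2 < tl x g ^ 2 * tl x h ^ 2 := by
  have h1 : ∀ i j : ℤ, |(i : ℝ)| + |(j : ℝ)| ≤ C * tl x (g ^ i * h ^ j) := fun i j => by
    have lim := ((tendsto_tl x (g ^ i * h ^ j)).const_mul C).add
      (tendsto_const_div_atTop_nhds_zero_nat C)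
    rw [add_zero] at lim
    refine ge_of_tendsto lim (eventually_atTop.2 ⟨1, fun n hn => ?_⟩)
    have hn' : (0 : ℝ) < n := by exact_mod_cast hn
    have a := hC (i * n) (j * n)
    rw [zpow_mul, zpow_mul, zpow_natCast, zpow_natCast, ← (hc.zpow_zpow i j).mul_pow] at a
    push_cast at a
    rw [abs_mul, abs_mul, abs_of_pos hn'] at a
    rw [← mul_div_assoc, ← add_div, le_div_iff₀ hn']
    linarith
  have hg : 0 < tl x g := by
    have a := h1 1 0
    simp only [Int.cast_one, abs_one, Int.cast_zero, abs_zero, add_zero, zpow_one, zpow_zero,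
      mul_one] at a
    exact pos_of_mul_pos_left (by linarith) hC0.le
  have hh : 0 < tl x h := by
    have a := h1 0 1
    simp only [Int.cast_one, abs_one, Int.cast_zero, abs_zero, zero_add, zpow_one, zpow_zero,
      one_mul] at a
    exact pos_of_mul_pos_left (by linarith) hC0.le
  refine ⟨hg, hh, ?_⟩
  have h2 : ∀ q : ℝ, 1 ≤ C ^ 2 * (q ^ 2 * tl x g ^ 2 + 2 * q * pr x g h + tl x h ^ 2) := by
    intro q
    refine Rat.denseRange_cast.induction_on q (isClosed_le (by fun_prop) (by fun_prop)) fun r => ?_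
    have hd : (0 : ℝ) < r.den := by exact_mod_cast r.den_pos
    have a : ((r.den : ℤ) : ℝ) ≤ C * tl x (g ^ r.num * h ^ (r.den : ℤ)) := by
      have := h1 r.num r.den
      have b := abs_nonneg (r.num : ℝ)
      have c := le_abs_self ((r.den : ℤ) : ℝ)
      linarith
    have b := pow_le_pow_left₀ (by positivity) a 2
    rw [mul_pow, tl_zpow_sq hQ x hc] at b
    push_cast at b
    have e : (r.num : ℝ) = r * r.den := by
      rw [Rat.cast_def]
      field_simp
    rw [e] at b
    refine le_of_mul_le_mul_left ?_ (pow_pos hd 2)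
    nlinarith
  have a := h2 (-(pr x g h) / tl x g ^ 2)
  have e : (-(pr x g h) / tl x g ^ 2) ^ 2 * tl x g ^ 2 + 2 * (-(pr x g h) / tl x g ^ 2) * pr x g h +
      tl x h ^ 2 = (tl x g ^ 2 * tl x h ^ 2 - pr x g h ^ 2) / tl x g ^ 2 := by
    field_simp
    ring
  rw [e] at a
  by_contra hcon
  have b : (tl x g ^ 2 * tl x h ^ 2 - pr x g h ^ 2) / tl x g ^ 2 ≤ 0 :=
    div_nonpos_of_nonpos_of_nonneg (by linarith [not_lt.1 hcon]) (by positivity)
  have c := mul_nonpos_of_nonneg_of_nonpos (sq_nonneg C) b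
  linarith

end Crest.Agent.R175C
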