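import Crest.Agent.R175C.GeoHom
import Crest.Agent.R175C.GeoPos
import Crest.Agent.R175C.GeoChain
import Crest.Agent.R175C.GeoFan
import Crest.Agent.R175C.GeoFlat
import Crest.Agent.R175C.GeoGlue

/-! Row 175 (S0264): a group containing a fan has no geometric action on a CAT(0) space. -/

set_option autoImplicit false

namespace Crest.Agent.R175C

open Crest.Geometry

theorem no_fan {G : Type*} [Group G] {X : Type*} [MetricSpace X] [ProperSpace X] [Nonempty X]
    [MulAction G X] (hX : IsCAT0Space X) (hG : IsGeometricAction G X) {e : Fin 6 → G}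
    (hF : Fan e) : False := by
  obtain ⟨x⟩ := ‹Nonempty X›
  have : IsIsometricSMul G X := hG.1
  have hW := cat0_W hX
  have hQ := hW.quad
  have hU : ∀ k, 0 < tl x (e k) ∧ 0 < tl x (e (k + 1)) ∧
      pr x (e k) (e (k + 1)) ^ 2 < tl x (e k) ^ 2 * tl x (e (k + 1)) ^ 2 := fun k => by
    obtain ⟨E, hE, h1, h2, h3⟩ := hF.und k
    obtain ⟨C, hC0, hC⟩ := und_lower hX hG x hE h1 h2 h3
    exact strict_cs hQ x (hF.comm k) hC0 hC
  have hpos : ∀ k, 0 < tl x (e k) := fun k => (hU k).1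
  have hA := hF.angle (pr x) (pairing_pr hQ x) fun k => by
    rw [pr_self]; exact pow_pos (hpos k) 2
  simp only [pr_self] at hA
  set c : Fin 6 → ℝ := fun k => pr x (e k) (e (k + 1)) / (tl x (e k) * tl x (e (k + 1))) with hc
  have hcb : ∀ k, 1 / 2 < c k ∧ c k < 1 := fun k => by
    obtain ⟨h2, h3⟩ := hA k
    have h4 := (hU k).2.2
    have hp := mul_pos (hpos k) (hpos (k + 1))
    simp only [hc]
    rw [lt_div_iff₀ hp, div_lt_one hp]
    constructor
    · refine lt_of_pow_lt_pow_left₀ 2 h2.le ?_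
      nlinarith
    · refine lt_of_pow_lt_pow_left₀ 2 hp.le ?_
      nlinarith
  have habs : ∀ k, |c k| ≤ 1 := fun k => abs_le.2 ⟨by linarith [(hcb k).1], (hcb k).2.le⟩
  refine fan_lemma (Dc_W hW x) Dc_nonneg Dc_symm Dc_tri c hcb
    (fun k s t => seq2 x (e k) (e (k + 1)) (s / tl x (e k)) (t / tl x (e (k + 1))))
    (fun k s t s' t' => Dc_seq2 hQ x (hF.comm k) (hpos k) (hpos (k + 1)) s t s' t')
    fun k => ⟨fun t => ?_, fun s t s' t' δ hs ht' hδ => ?_⟩
  · simp only [zero_div]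
    exact seq2_ray x _ _ _ _
  · have e2 : k + 2 = k + 1 + 1 := by rw [add_assoc]; rfl
    obtain ⟨E, hE, h1, h2, h3, hS⟩ := hF.sep k
    rw [e2] at hS h3
    obtain ⟨C, hC⟩ := glue_const hX hG x hE h2 h1 h3 hS
    exact Dc_glue hQ x (hF.comm k) (hF.comm (k + 1)) (hpos k) (hpos (k + 1)) (hpos (k + 1 + 1))
      (habs k) (habs (k + 1)) hC s t s' t' δ hs ht' hδ

end Crest.Agent.R175C
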