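import Crest.Agent.R175C.GeoDefs

/-! Row 175 (S0264): the stable translation length is a Euclidean norm on commuting pairs. -/

set_option autoImplicit false

namespace Crest.Agent.R175C

open Filter Topology

variable {G X : Type*} [Group G] [PseudoMetricSpace X] [MulAction G X] [IsIsometricSMul G X]

/-- Fekete: `n ↦ dist x (g ^ n • x)` is `Subadditive` (`Subadditive.tendsto_lim`). -/
theorem tendsto_tl (x : X) (g : G) :
    Tendsto (fun n : ℕ => dist x (g ^ n • x) / n) atTop (𝓝 (tl x g)) := by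
  have hs : Subadditive (fun n : ℕ => dist x (g ^ n • x)) := by
    intro m n
    calc dist x (g ^ (m + n) • x) ≤ dist x (g ^ m • x) + dist (g ^ m • x) (g ^ (m + n) • x) :=
          dist_triangle _ _ _
      _ = dist x (g ^ m • x) + dist x (g ^ n • x) := by rw [pow_add, mul_smul, dist_smul]
  have hb : BddBelow (Set.range fun n : ℕ => dist x (g ^ n • x) / n) :=
    ⟨0, by rintro _ ⟨n, rfl⟩; positivity⟩
  exact tendsto_nhds_limUnder ⟨_, hs.tendsto_lim hb⟩

theorem tl_nonneg (x : X) (g : G) : 0 ≤ tl x g := by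
  exact ge_of_tendsto' (tendsto_tl x g) fun n => by positivity

/-- `Subadditive.lim_le_div` with `n = 1`, or `dist x (g ^ n • x) ≤ n * dist x (g • x)`. -/
theorem tl_le (x : X) (g : G) : tl x g ≤ dist x (g • x) := by
  have h : ∀ n : ℕ, dist x (g ^ n • x) ≤ n * dist x (g • x) := by
    intro n
    induction n with
    | zero => simp
    | succ n ih =>
      calc dist x (g ^ (n + 1) • x) ≤ dist x (g ^ n • x) + dist (g ^ n • x) (g ^ (n + 1) • x) :=
            dist_triangle _ _ _
        _ = dist x (g ^ n • x) + dist x (g • x) := by rw [pow_succ, mul_smul, dist_smul]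
        _ ≤ ((n + 1 : ℕ) : ℝ) * dist x (g • x) := by push_cast; linarith
  refine le_of_tendsto' (tendsto_tl x g) fun n => ?_
  rcases Nat.eq_zero_or_pos n with rfl | hn
  · simp
  · rw [div_le_iff₀ (by exact_mod_cast hn)]
    linarith [h n]

private theorem geoN_base_le (x y : X) (g : G) : tl x g ≤ tl y g := by
  have h1 : Tendsto (fun n : ℕ => dist y (g ^ n • y) / n + 2 * dist x y / n) atTop
      (𝓝 (tl y g + 0)) :=
    (tendsto_tl y g).add (tendsto_const_div_atTop_nhds_zero_nat _)
  rw [add_zero] at h1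
  refine le_of_tendsto_of_tendsto' (tendsto_tl x g) h1 fun n => ?_
  rw [← add_div]
  have h2 : dist x (g ^ n • x) ≤ dist y (g ^ n • y) + 2 * dist x y := by
    have a1 := dist_triangle4 x y (g ^ n • y) (g ^ n • x)
    rw [dist_smul, dist_comm y x] at a1
    linarith
  gcongr

theorem tl_base (x y : X) (g : G) : tl x g = tl y g := by
  exact le_antisymm (geoN_base_le x y g) (geoN_base_le y x g)

theorem tl_one (x : X) : tl x (1 : G) = 0 := by
  refine le_antisymm ?_ (tl_nonneg _ _)
  simpa using tl_le x (1 : G)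

theorem tl_inv (x : X) (g : G) : tl x g⁻¹ = tl x g := by
  unfold tl
  congr 1
  funext n
  rw [inv_pow, ← dist_smul (g ^ n) x, smul_inv_smul, dist_comm]

theorem tl_conj (x : X) (k g : G) : tl x (k * g * k⁻¹) = tl x g := by
  rw [tl_base x (k • x)]
  unfold tl
  congr 1
  funext n
  rw [conj_pow, mul_smul, mul_smul, inv_smul_smul, dist_smul]

theorem tl_pow (x : X) (g : G) (n : ℕ) : tl x (g ^ n) = n * tl x g := by
  rcases Nat.eq_zero_or_pos n with rfl | hn
  · simp [tl_one]
  have h1 : Tendsto (fun m : ℕ => n * m) atTop atTop := tendsto_id.const_mul_atTop' hn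
  have h2 := ((tendsto_tl x g).comp h1).const_mul (n : ℝ)
  refine tendsto_nhds_unique (tendsto_tl x (g ^ n)) (h2.congr fun m => ?_)
  have hn' : (n : ℝ) ≠ 0 := by exact_mod_cast hn.ne'
  simp only [Function.comp, Nat.cast_mul, pow_mul]
  rw [← mul_div_assoc, mul_div_mul_left _ _ hn']

/-- `Quad` for `x, g x, g h x, h x`. -/
theorem quad_comm (hQ : Quad X) (x : X) {g h : G} (hc : Commute g h) :
    dist x ((g * h) • x) ^ 2 + dist x ((g * h⁻¹) • x) ^ 2 ≤
      2 * dist x (g • x) ^ 2 + 2 * dist x (h • x) ^ 2 := by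
  have h1 := hQ x (g • x) ((g * h) • x) (h • x)
  have e1 : dist (g • x) (h • x) = dist x ((g * h⁻¹) • x) := by
    rw [hc.inv_right.eq, mul_smul, ← dist_smul h x, smul_inv_smul, dist_comm]
  have e2 : dist ((g * h) • x) (g • x) = dist x (h • x) := by
    rw [mul_smul, dist_smul, dist_comm]
  have e3 : dist ((g * h) • x) (h • x) = dist x (g • x) := by
    rw [hc.eq, mul_smul, dist_smul, dist_comm]
  rw [e1, e2, e3] at h1
  linarith

private theorem geoN_par_le (hQ : Quad X) (x : X) {g h : G} (hc : Commute g h) :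
    tl x (g * h) ^ 2 + tl x (g * h⁻¹) ^ 2 ≤ 2 * tl x g ^ 2 + 2 * tl x h ^ 2 := by
  refine le_of_tendsto_of_tendsto'
    (((tendsto_tl x (g * h)).pow 2).add ((tendsto_tl x (g * h⁻¹)).pow 2))
    ((((tendsto_tl x g).pow 2).const_mul 2).add (((tendsto_tl x h).pow 2).const_mul 2))
    fun n => ?_
  have h1 := quad_comm hQ x (hc.pow_pow n n)
  simp only [div_pow]
  rw [hc.mul_pow, hc.inv_right.mul_pow, inv_pow, ← add_div, ← mul_div_assoc, ← mul_div_assoc,
    ← add_div]
  gcongr

/-- `≤`: `quad_comm` for `gⁿ, hⁿ`, divide by `n²`.  `≥`: the same for the pair `g h, g h⁻¹`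
and `tl_pow _ _ 2`. -/
theorem tl_parallelogram (hQ : Quad X) (x : X) {g h : G} (hc : Commute g h) :
    tl x (g * h) ^ 2 + tl x (g * h⁻¹) ^ 2 = 2 * tl x g ^ 2 + 2 * tl x h ^ 2 := by
  refine le_antisymm (geoN_par_le hQ x hc) ?_
  have hc' : Commute (g * h) (g * h⁻¹) :=
    Commute.mul_left (Commute.mul_right (Commute.refl g) hc.inv_right)
      (Commute.mul_right hc.symm (Commute.refl h).inv_right)
  have h1 := geoN_par_le hQ x hc'
  have e1 : g * h * (g * h⁻¹) = g ^ 2 := by
    rw [hc.inv_right.eq, mul_assoc, mul_inv_cancel_left, sq]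
  have e2 : g * h * (g * h⁻¹)⁻¹ = h ^ 2 := by
    rw [mul_inv_rev, inv_inv, hc.eq, ← hc.inv_left.eq, mul_assoc, mul_inv_cancel_left, sq]
  rw [e1, e2, tl_pow, tl_pow] at h1
  push_cast at h1
  linarith

theorem pr_self (x : X) (g : G) : pr x g g = tl x g ^ 2 := by
  unfold pr
  rw [mul_inv_cancel, tl_one, ← sq g, tl_pow]
  push_cast
  ring

theorem pr_symm (x : X) {g h : G} (hc : Commute g h) : pr x g h = pr x h g := by
  unfold pr
  rw [hc.eq, ← tl_inv x (g * h⁻¹), mul_inv_rev, inv_inv]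

private theorem geoN_one (hQ : Quad X) (x : X) {g h : G} (hc : Commute g h) (m : ℤ) :
    tl x (g * h ^ m) ^ 2 = tl x g ^ 2 + 2 * m * pr x g h + m ^ 2 * tl x h ^ 2 := by
  have step : ∀ k : ℤ, tl x (g * h ^ (k + 1)) ^ 2 + tl x (g * h ^ (k - 1)) ^ 2 =
      2 * tl x (g * h ^ k) ^ 2 + 2 * tl x h ^ 2 := by
    intro k
    have hk : Commute (g * h ^ k) h := Commute.mul_left hc ((Commute.refl h).zpow_left k)
    have := tl_parallelogram hQ x hk
    rwa [mul_assoc, mul_assoc, ← zpow_add_one, ← zpow_sub_one] at this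
  have key : ∀ k : ℤ,
      tl x (g * h ^ k) ^ 2 = tl x g ^ 2 + 2 * k * pr x g h + k ^ 2 * tl x h ^ 2 ∧
      tl x (g * h ^ (k + 1)) ^ 2 =
        tl x g ^ 2 + 2 * (k + 1) * pr x g h + (k + 1) ^ 2 * tl x h ^ 2 := by
    intro k
    induction k using Int.induction_on with
    | zero =>
      have := tl_parallelogram hQ x hc
      refine ⟨by simp, ?_⟩
      rw [zero_add, zpow_one, pr]
      push_cast
      linarith
    | succ k ih =>
      obtain ⟨a1, a2⟩ := ih
      have a3 := step ((k : ℤ) + 1)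
      rw [add_sub_cancel_right] at a3
      push_cast at a1 a2 ⊢
      exact ⟨a2, by linarith⟩
    | pred k ih =>
      obtain ⟨a1, a2⟩ := ih
      have a3 := step (-(k : ℤ))
      rw [sub_add_cancel]
      push_cast at a1 a2 ⊢
      exact ⟨by linarith, by linarith⟩
  exact (key m).1

/-- `q m = tl (g hᵐ)²` has second difference `2 tl h²` (`tl_parallelogram`), so
`q m = q 0 + m (q 1 - q (-1)) / 2 + m² tl h²`, i.e. `pr g (hᵐ) = m pr g h`; use it twice. -/
theorem tl_zpow_sq (hQ : Quad X) (x : X) {g h : G} (hc : Commute g h) (i j : ℤ) :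
    tl x (g ^ i * h ^ j) ^ 2 = i ^ 2 * tl x g ^ 2 + 2 * i * j * pr x g h + j ^ 2 * tl x h ^ 2 := by
  have h0 : pr x (1 : G) g = 0 := by
    unfold pr
    rw [one_mul, one_mul, tl_inv, sub_self, zero_div]
  have h1 := geoN_one hQ x (Commute.one_left g) i
  rw [one_mul, tl_one, h0] at h1
  have h2 := geoN_one hQ x (hc.zpow_left i) j
  have h3 : pr x (g ^ i) h = i * pr x g h := by
    rw [pr_symm x (hc.zpow_left i), pr_symm x hc]
    have a1 := geoN_one hQ x hc.symm i
    have a2 := geoN_one hQ x hc.symm (-i)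
    rw [zpow_neg] at a2
    push_cast at a2
    rw [pr, a1, a2]
    ring
  rw [h2, h1, h3]
  ring

end Crest.Agent.R175C
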