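import Crest.Agent.R175C.GeoDefs

/-! Row 175 (S0264): elementary CAT(0) inequalities. -/

set_option autoImplicit false

namespace Crest.Agent.R175C

open Crest.Geometry

variable {X : Type*} [MetricSpace X]

/-- CN inequality at parameter `t`.  Take a geodesic `γ'` from `p` to `y` and use the comparison
inequality at `(t * dist p r, dist p y)`; treat `p = r` and `p = y` separately
(see `Crest.Agent.R196.bary_mid` for the case `t = 1/2`). -/
theorem cat0_cn (hX : IsCAT0Space X) {p r : X} {γ : ℝ → X} (hγ : IsGeodesicSeg γ p r) {t : ℝ}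
    (h0 : 0 ≤ t) (h1 : t ≤ 1) (y : X) :
    dist y (γ (t * dist p r)) ^ 2 ≤
      (1 - t) * dist y p ^ 2 + t * dist y r ^ 2 - t * (1 - t) * dist p r ^ 2 := by
  obtain ⟨γ', hγ'⟩ := hX.1 p y
  have ha : 0 ≤ dist p r := dist_nonneg
  have key := hX.2 p r y γ γ' hγ hγ' (t * dist p r)
    ⟨mul_nonneg h0 ha, mul_le_of_le_one_left ha h1⟩ (dist p y) ⟨dist_nonneg, le_rfl⟩
  rw [hγ'.2.1, dist_comm] at key
  rw [dist_comm y p, dist_comm y r]
  refine key.trans (le_of_eq ?_)
  by_cases h2 : p = r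
  · subst h2
    simp only [dist_self, mul_zero, zero_mul, div_zero]
    ring
  by_cases h3 : p = y
  · subst h3
    rw [dist_comm r p]
    simp only [dist_self, mul_zero, div_zero]
    ring
  have h4 := dist_ne_zero.2 h2
  have h5 := dist_ne_zero.2 h3
  field_simp
  ring

/-- `0 ≤ d(m,m')²` with `cat0_cn` used for `m` (once) and for `m'` (twice). -/
theorem cat0_W (hX : IsCAT0Space X) : WIneq (fun p q : X => dist p q) := by
  intro p q r u s t s0 s1 t0 t1
  obtain ⟨γ, hγ⟩ := hX.1 p r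
  obtain ⟨δ, hδ⟩ := hX.1 q u
  have a := cat0_cn hX hγ t0 t1 (δ (s * dist q u))
  have b := mul_le_mul_of_nonneg_left (cat0_cn hX hδ s0 s1 p) (sub_nonneg.2 t1)
  have c := mul_le_mul_of_nonneg_left (cat0_cn hX hδ s0 s1 r) t0
  rw [dist_comm (δ _) p, dist_comm (δ _) r] at a
  have d := sq_nonneg (dist (δ (s * dist q u)) (γ (t * dist p r)))
  simp only
  nlinarith

/-- Quasi-convexity of the displacement function.  `s = t * dist p r`; `g • γ` is a geodesic from
`g • p` to `g • r`; `cat0_cn` three times and `Quad` (diagonals `p, g r` and `r, g p`) give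
`d(m, g m)² ≤ (1-t) d(p, g p)² + t d(r, g r)²`. -/
theorem cat0_disp {G : Type*} [Group G] [MulAction G X] [IsIsometricSMul G X]
    (hX : IsCAT0Space X) (g : G) {p r : X} {γ : ℝ → X} (hγ : IsGeodesicSeg γ p r) {s : ℝ}
    (hs : s ∈ Set.Icc (0 : ℝ) (dist p r)) {R : ℝ} (hp : dist p (g • p) ≤ R)
    (hr : dist r (g • r) ≤ R) : dist (γ s) (g • γ s) ≤ R := by
  rcases (dist_nonneg (x := p) (y := r)).eq_or_lt with h0 | h0
  · have : s = 0 := le_antisymm (h0 ▸ hs.2) hs.1
    rwa [this, hγ.1]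
  obtain ⟨t, rfl⟩ : ∃ t : ℝ, s = t * dist p r := ⟨s / dist p r, by field_simp⟩
  have t0 : 0 ≤ t := nonneg_of_mul_nonneg_left hs.1 h0
  have t1 : t ≤ 1 := by
    by_contra hcon
    have := mul_lt_mul_of_pos_right (not_le.1 hcon) h0
    linarith [hs.2]
  have e : dist (g • p) (g • r) = dist p r := dist_smul g p r
  have hδ : IsGeodesicSeg (fun s => g • γ s) (g • p) (g • r) := by
    refine ⟨by simp only [hγ.1], by simp only [e, hγ.2.1], fun a ha b hb => ?_⟩
    rw [e] at ha hb
    rw [dist_smul]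
    exact hγ.2.2 a ha b hb
  have a := cat0_cn hX hδ t0 t1 (γ (t * dist p r))
  rw [e, dist_comm _ (g • p), dist_comm _ (g • r)] at a
  have b := mul_le_mul_of_nonneg_left (cat0_cn hX hγ t0 t1 (g • p)) (sub_nonneg.2 t1)
  have c := mul_le_mul_of_nonneg_left (cat0_cn hX hγ t0 t1 (g • r)) t0
  have d := (cat0_W hX).quad p r (g • r) (g • p)
  rw [dist_smul, dist_comm r p, dist_comm p (g • r), dist_comm r (g • p),
    dist_comm p (g • p)] at d
  have d' := mul_le_mul_of_nonneg_left d (mul_nonneg t0 (sub_nonneg.2 t1))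
  have R0 : 0 ≤ R := dist_nonneg.trans hp
  rw [dist_comm] at hp hr
  have hp' := mul_le_mul_of_nonneg_left (pow_le_pow_left₀ dist_nonneg hp 2) (sub_nonneg.2 t1)
  have hr' := mul_le_mul_of_nonneg_left (pow_le_pow_left₀ dist_nonneg hr 2) t0
  refine le_of_sq_le_sq ?_ R0
  nlinarith

end Crest.Agent.R175C
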